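import Crest.Statements.S0010
import Crest.Agent.R9.Lines
import Crest.Agent.R9.FieldFacts

set_option autoImplicit false
open Crest.NumberTheoryR.MilnorK
open Crest Crest.NumberTheoryR

namespace Crest.Agent.S0010

lemma aux_cancel {A : Type*} [AddCommGroup A] {a b c : A} (h : a + b = a + c) : b = c :=
  add_left_cancel h

lemma aux_smul_add {R A : Type*} [Semiring R] [AddCommGroup A] [Module R A] (r : R) (a b : A) :
    r • (a + b) = r • a + r • b := smul_add r a b

/-- Let K and L be fields of characteristic p that are finitely generated and of transcendence degree at least 2 over algebraically closed subfields k and l. Let Θ be a linear isomorphism, over the integers mod p, from Kˣ/(Kˣ)^p to Lˣ/(Lˣ)^p that maps the span of the Steinberg elements [f] ⊗ [1 - f] (f ≠ 0, 1) of K exactly onto that of L. Then there is exactly one field isomorphism α from K to L with α(k) = l such that, for some non-zero scalar c, Θ[u] = c · [α(u)] for every unit u of K. -/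
theorem result {p : ℕ} [Fact p.Prime]
    {K L : Type*} [Field K] [Field L] [CharP K p] [CharP L p] (k : Subfield K) (l : Subfield L)
    [IsAlgClosed k] [IsAlgClosed l]
    (hK : ∃ s : Finset K, Subfield.closure ((k : Set K) ∪ (s : Set K)) = ⊤)
    (hL : ∃ s : Finset L, Subfield.closure ((l : Set L) ∪ (s : Set L)) = ⊤)
    (hK2 : 2 ≤ Algebra.trdeg k K) (hL2 : 2 ≤ Algebra.trdeg l L)
    (Θ : KOne K p ≃ₗ[ZMod p] KOne L p) (hΘ : IsCompatible Θ) :
    ∃! α : K ≃+* L, k.map α.toRingHom = l ∧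
      ∃ c : ZMod p, c ≠ 0 ∧ ∀ u : Kˣ, Θ (cls K p u) = c • cls L p (Units.map α.toRingHom.toMonoidHom u) := by
  have hK' := R9.exists_notMem_gen p k hK hK2
  have hL' := R9.exists_notMem_gen p l hL hL2
  obtain ⟨δ, hδ, h1, h2⟩ := R9.exists_scalar₂ p Θ hΘ hK' hL'
  have hinj : ∀ a b : KOne K p, δ • Θ a = δ • Θ b → a = b := fun a b h =>
    Θ.injective (smul_right_injective _ hδ h)
  have hadd : ∀ a b : KOne K p, δ • Θ (a + b) = δ • Θ a + δ • Θ b := fun a b => by
    rw [Θ.map_add]
    exact aux_smul_add δ _ _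
  have hzero : δ • Θ (0 : KOne K p) = 0 := by rw [Θ.map_zero, smul_zero]
  have hC : R9.Corr (R9.pw K p) (R9.pw L p)
      (fun x X => x ≠ 0 ∧ X ≠ 0 ∧ R9.cl p X = δ • Θ (R9.cl p x)) :=
    { ne_left := fun h => h.1
      ne_right := fun h => h.2.1
      mul := fun h h' => ⟨mul_ne_zero h.1 h'.1, mul_ne_zero h.2.1 h'.2.1, by
        rw [R9.cl_mul p h.1 h'.1, R9.cl_mul p h.2.1 h'.2.1, hadd, h.2.2, h'.2.2]⟩
      inv := fun {x X} h => ⟨inv_ne_zero h.1, inv_ne_zero h.2.1, by
        have e1 := R9.cl_mul p h.1 (inv_ne_zero h.1)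
        have e2 := R9.cl_mul p h.2.1 (inv_ne_zero h.2.1)
        rw [mul_inv_cancel₀ h.1, R9.cl_one] at e1
        rw [mul_inv_cancel₀ h.2.1, R9.cl_one] at e2
        have e3 := hadd (R9.cl p x) (R9.cl p x⁻¹)
        rw [← e1, hzero, ← h.2.2, e2] at e3
        exact aux_cancel e3⟩
      right_unique := fun h h' => by
        obtain ⟨e, he, -, he'⟩ := (R9.cl_eq_iff p h'.2.1 h.2.1).1 (h'.2.2.trans h.2.2.symm)
        exact ⟨e, he, he'⟩
      left_unique := fun h h' => by
        obtain ⟨e, he, -, he'⟩ :=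
          (R9.cl_eq_iff p h'.1 h.1).1 (hinj _ _ (h'.2.2.symm.trans h.2.2))
        exact ⟨e, he, he'⟩
      const := fun he he0 hf hf0 => ⟨he0, hf0, by
        rw [(R9.cl_eq_zero_iff p he0).2 he, (R9.cl_eq_zero_iff p hf0).2 hf, hzero]⟩
      line := fun hx => by
        obtain ⟨W, hW, hW1, hW2⟩ := h1 _ hx
        exact ⟨W, hW, ⟨R9.ne_zero_of_notMem hx, R9.ne_zero_of_notMem hW, hW1⟩,
          ⟨R9.ne_zero_of_notMem (R9.one_add_notMem hx),
            R9.ne_zero_of_notMem (R9.one_add_notMem hW), hW2⟩⟩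
      line' := fun hx => by
        obtain ⟨W, hW, hW1, hW2⟩ := h2 _ hx
        refine ⟨W, hW, ⟨R9.ne_zero_of_notMem hW, R9.ne_zero_of_notMem hx, ?_⟩,
          ⟨R9.ne_zero_of_notMem (R9.one_add_notMem hW),
            R9.ne_zero_of_notMem (R9.one_add_notMem hx), ?_⟩⟩
        · rw [hW1, map_smul, LinearEquiv.apply_symm_apply, smul_smul, mul_inv_cancel₀ hδ, one_smul]
        · rw [hW2, map_smul, LinearEquiv.apply_symm_apply, smul_smul, mul_inv_cancel₀ hδ, one_smul] }
  obtain ⟨α, hα⟩ := hC.exists_ringEquiv (R9.exists_not_sp3 _ hK')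
  have hcl : ∀ (β : K ≃+* L) (u : Kˣ),
      cls L p (Units.map β.toRingHom.toMonoidHom u) = R9.cl p (β u) := fun β u => by
    rw [← R9.cl_unit]; rfl
  refine ⟨α, ⟨?_, δ⁻¹, inv_ne_zero hδ, fun u => ?_⟩, ?_⟩
  · apply le_antisymm
    · rintro _ ⟨x, hx, rfl⟩
      exact R9.map_le_const k l hL _ hx
    · intro y hy
      exact ⟨α.symm y, R9.map_le_const l k hK α.symm.toRingHom hy, α.apply_symm_apply y⟩
  · rw [hcl, (hα u u.ne_zero).2.2, smul_smul, inv_mul_cancel₀ hδ, one_smul, R9.cl_unit]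
  · rintro β ⟨-, c, hc, hβ⟩
    have hβ' : ∀ x : K, x ≠ 0 → R9.cl p (α x) = (δ * c) • R9.cl p (β x) := by
      intro x hx
      have := hβ (Units.mk0 x hx)
      rw [hcl, ← R9.cl_of_ne, Units.val_mk0] at this
      rw [(hα x hx).2.2, this, smul_smul]
    have key : ∀ x : K, x ∉ R9.pw K p → β x = α x := by
      intro x hx
      have hx0 := R9.ne_zero_of_notMem hx
      have hx1 := R9.ne_zero_of_notMem (R9.one_add_notMem hx)
      have hβx : β x ∉ R9.pw L p := by
        intro h
        obtain ⟨y, hy⟩ := (R9.mem_pw p).1 h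
        apply hx
        refine (R9.mem_pw p).2 ⟨β.symm y, ?_⟩
        rw [← map_pow, hy, β.symm_apply_apply]
      have e2 := hβ' _ hx1
      rw [map_add, map_add, map_one, map_one] at e2
      have e3 : 1 + α x ≠ 0 := by
        have := (hα _ hx1).2.1
        rwa [map_add, map_one] at this
      exact (R9.rigid p hβx (hα x hx0).2.1 e3 (mul_ne_zero hδ hc) (hβ' x hx0) e2).1.symm
    ext x
    by_cases hx : x ∈ R9.pw K p
    · obtain ⟨w, hw⟩ := hK' 0
      have hw' : w ∉ R9.pw K p := fun h => hw (R9.le_gen _ _ h)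
      have e1 := key w hw'
      have e2 := key (x + w) (fun h => hw' (by simpa using sub_mem h hx))
      rw [map_add, map_add, e1] at e2
      exact add_right_cancel e2
    · exact key x hx

end Crest.Agent.S0010
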