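import Crest.Statements.S0040
import Crest.Agent.R30.Ann
import Crest.Agent.R30.Colp
import Crest.Agent.R30.Conc
import Crest.Agent.R30.Coup
import Crest.Agent.R30.Dr
import Crest.Agent.R30.Dr0
import Crest.Agent.R30.Dr1
import Crest.Agent.R30.Fix
import Crest.Agent.R30.GEOA
import Crest.Agent.R30.Geo
import Crest.Agent.R30.Link
import Crest.Agent.R30.MIX
import Crest.Agent.R30.Mom
import Crest.Agent.R30.Prod
import Crest.Agent.R30.Rec
import Crest.Agent.R30.Round
import Crest.Agent.R30.S1
import Crest.Agent.R30.Safe
import Crest.Agent.R30.Sums
import Crest.Agent.R30.Surv
import Crest.Agent.R30.Final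

set_option autoImplicit false
open Crest Crest.CombinatoricsR

namespace Crest.Agent.S0040

/-- Run the uniform triangle-removal process on the complete graph on n vertices: repeatedly pick a triangle uniformly at random among those whose three edges are all still present and delete its edges, until no triangle is left; let F be the number of edges left at the end. Then the expectation of (F / n^(3/2) - 1/(2·√2))² tends to 0 as n → ∞ (the expectation is the exact finite average defined by the process). -/
theorem result :
    Filter.Tendsto (fun n : ℕ =>
      Crest.CombinatoricsR.TriangleRemoval.expectFinal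
        (fun e : ℕ => ((e : ℝ) / (n : ℝ) ^ ((3 : ℝ) / 2) - 1 / (2 * Real.sqrt 2)) ^ 2)
        (n ^ 2) (Crest.CombinatoricsR.TriangleRemoval.allEdges n))
      Filter.atTop (nhds 0) := by
  open Crest.Agent.R30 in
  exact final
    (s1_proof (ann_proof safe_proof mix_proof) (dr_proof dr0_proof dr1_proof) conc_proof surv_proof
      mom_proof)
    round_proof coup_proof prod_proof (colp_proof prod_proof) link_proof rec_proof
    (sums_proof (geo_proof geoa_proof)) fix_proof

end Crest.Agent.S0040
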