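import Crest.Statements.S0047
import Crest.Agent.R35.Final

set_option autoImplicit false
open Crest Crest.CombinatoricsR

namespace Crest.Agent.S0047

/-- In the Maker–Breaker game on the board ℤ × ℤ (Maker first; the players alternately claim one unclaimed cell), Maker has a policy — a rule giving its next cell from Breaker's replies so far — such that against every sequence of Breaker replies whose first 20 are legal (each a cell not claimed before), Maker's first 21 claims are legal and contain a copy of the six-cell polyomino Snaky {(0,0),(1,0),(2,0),(3,0),(3,1),(4,1)} under a translation composed with a signed coordinate permutation. -/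
theorem result :
    ∃ σ : List (ℤ × ℤ) → ℤ × ℤ, ∀ b : ℕ → ℤ × ℤ,
      (∀ k : ℕ, k < 20 →
        (∀ j : ℕ, j ≤ k → b k ≠ Crest.CombinatoricsR.PolyominoGame.makerClaim σ b j) ∧
        (∀ j : ℕ, j < k → b k ≠ b j)) →
      (∀ k : ℕ, k ≤ 20 →
        (∀ j : ℕ, j < k → Crest.CombinatoricsR.PolyominoGame.makerClaim σ b k ≠
          Crest.CombinatoricsR.PolyominoGame.makerClaim σ b j) ∧
        (∀ j : ℕ, j < k → Crest.CombinatoricsR.PolyominoGame.makerClaim σ b k ≠ b j)) ∧
      Crest.CombinatoricsR.PolyominoGame.ContainsCopy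
        {c | ∃ j : ℕ, j ≤ 20 ∧ c = Crest.CombinatoricsR.PolyominoGame.makerClaim σ b j} := by
  refine ⟨Crest.Agent.R35.policy, fun b hb => ⟨fun k hk => ?_, ?_⟩⟩
  · obtain ⟨h1, h2, h3, h4⟩ := Crest.Agent.R35.st_spec b hb k hk
    obtain ⟨h5, h6, -⟩ := Crest.Agent.R35.mv_spec _ (by omega) (h1 ▸ h4)
    exact ⟨fun j hj hc => h5 ((h2 _).2 ⟨j, hj, hc⟩), fun j hj hc => h6 ((h3 _).2 ⟨j, hj, hc⟩)⟩
  · obtain ⟨h1, h2, h3, h4⟩ := Crest.Agent.R35.st_spec b hb 20 le_rfl
    obtain ⟨-, -, h7⟩ := Crest.Agent.R35.mv_spec _ (by omega) (h1 ▸ h4)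
    obtain ⟨c, hc1, hc2⟩ := Crest.Agent.R35.exists_fresh
      (insert (Crest.Agent.R35.mv (Crest.Agent.R35.st ((List.range 20).map b)))
        (Crest.Agent.R35.st ((List.range 20).map b)).2.1)
      (Crest.Agent.R35.st ((List.range 20).map b)).2.2
    have h8 := h7 c hc1 hc2
    rw [h1] at h8
    refine Crest.Agent.R35.containsCopy_mono ?_ h8
    intro x hx
    rcases Finset.mem_insert.1 (Finset.mem_coe.1 hx) with hx | hx
    · exact ⟨20, le_rfl, hx⟩
    · obtain ⟨j, hj, hx⟩ := (h2 x).1 hx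
      exact ⟨j, hj.le, hx⟩

end Crest.Agent.S0047
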