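import Crest.Statements.S0054
import Crest.Agent.R40A.Step0
import Crest.Agent.R40.D2Final
import Crest.Agent.R40.Cyc1
import Crest.Agent.R40.DCf
import Crest.Agent.R40.DTrip
import Crest.Agent.R40.DNp
import Crest.Agent.R40.MCone
import Crest.Agent.R40.MCone2
import Crest.Agent.R40.MSlice
import Crest.Agent.R40.MOH
import Crest.Agent.R40.MEdge
import Crest.Agent.R40.MConn
import Crest.Agent.R40.MEx
import Crest.Agent.R40.MMeet
import Crest.Agent.R40.MPart2

set_option autoImplicit false
open Crest Crest.CombinatoricsR

namespace Crest.Agent.S0054

open Crest.Agent.R40 in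
theorem meas : MEAS := by
  have hD : THMDD := thmDD
  have hC : CONE := cone basic fan' cone0' hAVAPI
  have hT : TRIP := trip hKEY hD
  have hL : LTWO := ltwo hNSL hT
  have h3 : TRI0 := tri0_of hD
  have hO : OH := oh basic
  exact meas_of h3
    (cf0 hVRULE hL hC hT h3 (np hNSL hKEY hAV1 hAV3 hAVAPI) connl hKEY hAV1 hAVAPI
      (slice basic hO) hNSL)
    (cv0_of hD hC) (part2 basic (slice0 basic hO) (conn (edge basic)) ex meet)

/-- For every colouring of the Euclidean plane with five colours there are two points at distance one that receive the same colour. No measurability or other restriction is placed on the colour classes. -/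
theorem result
    (c : EuclideanSpace ℝ (Fin 2) → Fin 5) :
    ∃ x y : EuclideanSpace ℝ (Fin 2), dist x y = 1 ∧ c x = c y := by
  by_contra h
  push Not at h
  obtain ⟨c2, hc2⟩ := Crest.Agent.R40A.step0_good c h
  exact meas c2 hc2

end Crest.Agent.S0054
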