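import Crest.Statements.S0066
import Crest.Agent.R47.Lines

set_option autoImplicit false
open Crest Crest.CombinatoricsR

namespace Crest.Agent.S0066

/-- There is a fixed 66 × 66 binary pattern H such that for every h ≥ 1, with n = (386h + 2) · 2^h and ε = (386h + 2)⁻², some n × n binary matrix A is ε-far from free of ordered copies of H (every n × n binary matrix without an ordered copy of H differs from A in at least ε · n² cells) while the number of ordered copies of H in A is at most ε · 2^(-h) · n^132. An ordered copy picks 66 rows and 66 columns in increasing order on which A coincides with H, zeros included. -/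
theorem result :
    ∃ H : Fin 66 → Fin 66 → Bool, ∀ h : ℕ, 1 ≤ h →
      ∃ A : Fin ((386 * h + 2) * 2 ^ h) → Fin ((386 * h + 2) * 2 ^ h) → Bool,
        (∀ B : Fin ((386 * h + 2) * 2 ^ h) → Fin ((386 * h + 2) * 2 ^ h) → Bool,
          Crest.CombinatoricsR.OrderedMatrix.orderedCopyCount H B = 0 →
            ((386 * (h : ℝ) + 2) ^ 2)⁻¹ * (((386 * h + 2) * 2 ^ h : ℕ) : ℝ) ^ 2 ≤
              ((Finset.univ.filter (fun rc : Fin ((386 * h + 2) * 2 ^ h) × Fin ((386 * h + 2) * 2 ^ h) =>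
                A rc.1 rc.2 ≠ B rc.1 rc.2)).card : ℝ)) ∧
        (Crest.CombinatoricsR.OrderedMatrix.orderedCopyCount H A : ℝ) /
            (((386 * h + 2) * 2 ^ h : ℕ) : ℝ) ^ 132 ≤
          ((386 * (h : ℝ) + 2) ^ 2)⁻¹ * (2 : ℝ)⁻¹ ^ h := by
  classical
  refine ⟨Crest.Agent.R47.Hp, fun h hh => ?_⟩
  obtain ⟨eR, hR⟩ := Crest.Agent.R47.exists_sorted _ (Crest.Agent.R47.card_Line h)
    (Crest.Agent.R47.key Crest.Agent.R47.posR ∘ Crest.Agent.R47.proj)
  obtain ⟨eC, hC⟩ := Crest.Agent.R47.exists_sorted _ (Crest.Agent.R47.card_Line h)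
    (Crest.Agent.R47.key Crest.Agent.R47.posC ∘ Crest.Agent.R47.proj)
  have hm : (0 : ℝ) < 386 * (h : ℝ) + 2 := by positivity
  have hN : (0 : ℝ) < 2 ^ h := by positivity
  have hn : ((((386 * h + 2) * 2 ^ h : ℕ)) : ℝ) = (386 * (h : ℝ) + 2) * 2 ^ h := by push_cast; ring
  refine ⟨fun r c => decide (Crest.Agent.R47.Mat (Crest.Agent.R47.proj (eR r))
    (Crest.Agent.R47.proj (eC c))), ?_, ?_⟩
  · intro B hB
    have h1 := Crest.Agent.R47.far h _ hh eR eC hR hC
      (fun r c => decide (Crest.Agent.R47.Mat (Crest.Agent.R47.proj (eR r))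
        (Crest.Agent.R47.proj (eC c)))) B (fun r c => by simp) hB
    have h2 : ((386 * (h : ℝ) + 2) ^ 2)⁻¹ * (((386 * h + 2) * 2 ^ h : ℕ) : ℝ) ^ 2 =
        ((2 ^ h * 2 ^ h : ℕ) : ℝ) := by
      rw [hn]; push_cast; field_simp
    rw [h2]
    exact_mod_cast h1
  · have h1 := Crest.Agent.R47.few h _ eR eC hR hC
      (fun r c => decide (Crest.Agent.R47.Mat (Crest.Agent.R47.proj (eR r))
        (Crest.Agent.R47.proj (eC c)))) (fun r c => by simp)
    have h2 : (_ : ℝ) ≤ _ := (Nat.cast_le (α := ℝ)).2 h1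
    have hpos : (0 : ℝ) < (((386 * h + 2) * 2 ^ h : ℕ) : ℝ) := by rw [hn]; positivity
    rw [div_le_iff₀ (pow_pos hpos 132)]
    refine h2.trans (le_of_eq ?_)
    rw [Nat.cast_mul, Nat.cast_mul, Nat.cast_pow, Nat.cast_pow]
    generalize (((386 * h + 2) * 2 ^ h : ℕ) : ℝ) = n at hn hpos
    have e : n ^ 132 = n ^ 65 * n ^ 65 * ((386 * (h : ℝ) + 2) * 2 ^ h) ^ 2 := by
      rw [← hn]; ring
    rw [e, inv_pow]
    push_cast
    field_simp

end Crest.Agent.S0066
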