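import Crest.Statements.S0073
import Crest.Agent.Tal.Decomp

set_option autoImplicit false
open Crest Crest.CombinatoricsR

namespace Crest.Agent.S0073

open Finset Crest.Agent.Tal Crest.CombinatoricsR.RandomGraph in
/-- The family of edge sets containing `H` has an integral cover of `p`-cost at most `1/2`. -/
def Small {W : Type} (n : ℕ) (H : SimpleGraph W) (p : ℝ) : Prop :=
  ∃ C : Finset (Finset (EdgeSlot n)),
    (∀ A : Finset (EdgeSlot n), H.IsContained (edgeGraph A) → ∃ S ∈ C, S ⊆ A) ∧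
      ∑ S ∈ C, p ^ S.card ≤ 1 / 2

lemma Small.mono {W : Type} {n : ℕ} {H : SimpleGraph W} {p p' : ℝ} (h : Small n H p)
    (h0 : 0 ≤ p') (h1 : p' ≤ p) : Small n H p' := by
  obtain ⟨C, h2, h3⟩ := h
  exact ⟨C, h2, le_trans (Finset.sum_le_sum fun S _ => pow_le_pow_left₀ h0 h1 _) h3⟩

open Finset Crest.CombinatoricsR.RandomGraph in
lemma small_base {W : Type} {n : ℕ} (hn : 1 ≤ n) {H : SimpleGraph W} (hH : H ≠ ⊥) :
    Small n H (1 / (2 * (n : ℝ) ^ 2)) := by
  classical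
  refine ⟨univ.image (fun e => {e}), fun A hA => ?_, ?_⟩
  · obtain ⟨u, v, huv⟩ := SimpleGraph.ne_bot_iff_exists_adj.mp hH
    obtain ⟨f⟩ := hA
    have h1 := f.toHom.map_adj huv
    unfold edgeGraph at h1
    rw [SimpleGraph.fromEdgeSet_adj] at h1
    obtain ⟨⟨h2, h3⟩, -⟩ := h1
    exact ⟨_, mem_image_of_mem _ (mem_univ _), singleton_subset_iff.mpr h3⟩
  · rw [sum_image (fun a _ b _ h => singleton_injective h)]
    simp only [card_singleton, pow_one, sum_const, nsmul_eq_mul, card_univ]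
    have h1 : Fintype.card (EdgeSlot n) ≤ n ^ 2 := by
      refine (Fintype.card_subtype_le _).trans ?_
      refine (Fintype.card_le_of_surjective (fun p : Fin n × Fin n => s(p.1, p.2)) ?_).trans ?_
      · intro e
        induction e using Sym2.ind with
        | h a b => exact ⟨(a, b), rfl⟩
      · simp [sq]
    have h2 : (Fintype.card (EdgeSlot n) : ℝ) ≤ (n : ℝ) ^ 2 := by exact_mod_cast h1
    have h3 : (0 : ℝ) < n := by exact_mod_cast hn
    rw [mul_one_div, div_le_iff₀ (by positivity)]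
    linarith

open Finset Crest.Agent.Tal Crest.CombinatoricsR.RandomGraph in
lemma prob_one {W : Type} [Fintype W] {n : ℕ} (hW : Fintype.card W ≤ n) (G : SimpleGraph W) :
    1 / 2 ≤ gnpProb n 1 {G' | G.IsContained G'} := by
  classical
  have h1 := Pr_all (ι := EdgeSlot n) 1 univ
  have h2 : gnpProb n 1 {G' | G.IsContained G'} =
      Pr 1 (fun ω : EdgeSlot n → Bool => G.IsContained (graphOf ω)) := bernoulliProb_eq _ _
  rw [h2]
  have h3 := Pr_mono (ι := EdgeSlot n) (q := 1) zero_le_one le_rfl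
    (E := fun ω => ∀ x ∈ univ, ω x = true) (F := fun ω => G.IsContained (graphOf ω)) (by
      intro ω hω
      obtain ⟨ψ⟩ : Nonempty (W ↪ Fin n) :=
        Function.Embedding.nonempty_of_card_le (by simpa using hW)
      refine ⟨⟨⟨ψ, fun {u v} huv => ?_⟩, ψ.injective⟩⟩
      rw [adj_iff]
      have h4 : ψ u ≠ ψ v := fun h => huv.ne (ψ.injective h)
      unfold coin
      rw [dif_pos h4]
      exact hω _ (mem_univ _))
  rw [h1, one_pow] at h3
  linarith

/-- There are k ≥ 2 and L ≥ 1 such that for all n ≥ 2 and every simple graph H with an edge, on at most n vertices, the edges of H can be labelled by k labels so that each label class H_i (same vertex set) has p_c(H_i; n) ≤ L · q(H; n), unfolded: for some p ∈ [0, 1] at which the family of edge sets of K_n containing a copy of H has a cover of cost Σ p^(card S) ≤ 1/2, the binomial random graph on n vertices at edge probability min(1, L·p) contains a copy of H_i with probability ≥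 1/2. -/
theorem result :
    ∃ k : ℕ, 2 ≤ k ∧ ∃ L : ℝ, 1 ≤ L ∧ ∀ n : ℕ, 2 ≤ n →
      ∀ (W : Type) [Fintype W] [DecidableEq W] (H : SimpleGraph W),
        Fintype.card W ≤ n → H ≠ ⊥ →
        ∃ c : H.edgeSet → Fin k, ∀ i : Fin k, ∃ p : ℝ, 0 ≤ p ∧ p ≤ 1 ∧
          (∃ C : Finset (Finset (Crest.CombinatoricsR.RandomGraph.EdgeSlot n)),
            (∀ A : Finset (Crest.CombinatoricsR.RandomGraph.EdgeSlot n),
              H.IsContained (Crest.CombinatoricsR.RandomGraph.edgeGraph A) → ∃ S ∈ C, S ⊆ A) ∧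
            ∑ S ∈ C, p ^ S.card ≤ 1 / 2) ∧
          1 / 2 ≤ Crest.CombinatoricsR.RandomGraph.gnpProb n (min 1 (L * p))
            {G | (Crest.CombinatoricsR.RandomGraph.pieceGraph H c i).IsContained G} := by
  classical
  let Λ := Fin 640 × Fin 2048 × (Fin 2048 ⊕ Bool)
  obtain ⟨y, hy⟩ : ∃ y : ℝ, y = 2 ^ 41 := ⟨_, rfl⟩
  have hy0 : 0 < y := by rw [hy]; positivity
  have hL0 : (0 : ℝ) ≤ 2 * (y ^ 40) ^ 2 := by positivity
  obtain ⟨k, hk, ⟨eqv⟩⟩ : ∃ k : ℕ, 2 ≤ k ∧ Nonempty (Λ ≃ Fin k) :=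
    ⟨Fintype.card Λ, by simp [Λ], ⟨Fintype.equivFin Λ⟩⟩
  refine ⟨k, hk, 2 ^ 69 + 2 * (y ^ 40) ^ 2, by linarith, ?_⟩
  set L : ℝ := 2 ^ 69 + 2 * (y ^ 40) ^ 2 with hL
  have hL1 : 2 ^ 69 ≤ L := by linarith
  have hL2 : 0 < L := by linarith
  intro n hn W _ _ H hW hH
  have hn0 : (0 : ℝ) < n := by exact_mod_cast (by omega : 0 < n)
  have hn1 : (2 : ℝ) ≤ n := by exact_mod_cast hn
  by_cases hc : ∃ p : ℝ, 0 ≤ p ∧ p ≤ 1 ∧ Small n H p ∧ 1 ≤ L * p
  · obtain ⟨p, h0, h1, h2, h3⟩ := hc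
    refine ⟨fun _ => ⟨0, by omega⟩, fun i => ⟨p, h0, h1, h2, ?_⟩⟩
    rw [min_eq_left h3]
    exact prob_one hW _
  push Not at hc
  have hb := small_base (by omega : 1 ≤ n) hH
  have hbig : y ^ 40 ≤ n := by
    have h1 := hc _ (by positivity) (by
      rw [div_le_one (by positivity)]; nlinarith) hb
    rw [mul_one_div, div_lt_one (by positivity)] at h1
    exact (abs_le_of_sq_le_sq' (by linarith) hn0.le).2
  have hex : ∃ j : ℕ, Small n H ((1 / 2) ^ j) := by
    obtain ⟨j, hj⟩ := exists_pow_lt_of_lt_one (x := 1 / (2 * (n : ℝ) ^ 2)) (y := 1 / 2)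
      (by positivity) (by norm_num)
    exact ⟨j, hb.mono (by positivity) hj.le⟩
  have hj := Nat.find_spec hex
  have hj0 : Nat.find hex ≠ 0 := by
    intro h
    rw [h] at hj
    have := hc _ (by positivity) (by norm_num) hj
    rw [pow_zero] at this
    linarith
  obtain ⟨j, hjj⟩ := Nat.exists_eq_succ_of_ne_zero hj0
  have hns : ¬ Small n H ((1 / 2) ^ j) := Nat.find_min hex (by omega)
  rw [hjj] at hj
  set p : ℝ := (1 / 2) ^ j with hp
  have hp0 : 0 < p := by positivity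
  have hj' : Small n H (p / 2) := by
    have : p / 2 = (1 / 2) ^ j.succ := by rw [Nat.succ_eq_add_one, pow_succ]; ring
    rw [this]; exact hj
  have hp1 : p ≤ 1 := pow_le_one₀ (by norm_num) (by norm_num)
  have hLp := hc _ (by positivity) (by linarith) hj'
  have hNF := Tal.nf_of_not_small H p hp0 hns
  have hq1 : 2 ^ 40 * (2 ^ 28 * p) < 1 := by nlinarith
  let z : ℝ := (n : ℝ) ^ (((40 : ℕ) : ℝ)⁻¹)
  have hz : (n : ℝ) = z ^ 40 := (Real.rpow_inv_natCast_pow hn0.le (by norm_num)).symm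
  have hz1 : 2 ^ 41 ≤ z := by
    rw [← hy]
    rw [hz] at hbig
    exact le_of_pow_le_pow_left₀ (by norm_num) (by positivity) hbig
  obtain ⟨N, hN1, hN2⟩ := Tal.decomp hNF (by positivity) rfl hq1 hz1 hz hW
  have hlab : ∀ e : H.edgeSet, ∃ i : Λ, ∃ u v, e.1 = s(u, v) ∧ u ∈ N i v := by
    rintro ⟨e, he⟩
    induction e using Sym2.ind with
    | h a b =>
      obtain ⟨i, hi | hi⟩ := hN1 a b he
      · exact ⟨i, a, b, rfl, hi⟩
      · exact ⟨i, b, a, Sym2.eq_swap, hi⟩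
  choose lab hlab using hlab
  refine ⟨fun e => eqv (lab e), fun i => ⟨2 ^ 40 * (2 ^ 28 * p) / L,
    by positivity, ?_, hj'.mono (by positivity) ?_, ?_⟩⟩
  · rw [div_le_one hL2]; linarith
  · rw [div_le_iff₀ hL2]; nlinarith
  · rw [mul_div_cancel₀ _ hL2.ne', min_eq_right hq1.le]
    refine (hN2 (eqv.symm i)).trans (le_trans ?_ (Tal.bernoulliProb_eq _ _).ge)
    refine Tal.Pr_mono (by positivity) hq1.le fun ω hω => ?_
    obtain ⟨ψ, hψ⟩ := hω
    refine ⟨⟨⟨ψ, fun {u v} huv => ?_⟩, ψ.injective⟩⟩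
    unfold RandomGraph.pieceGraph at huv
    rw [SimpleGraph.fromEdgeSet_adj] at huv
    obtain ⟨⟨h1, h2⟩, -⟩ := huv
    obtain ⟨a, b, h3, h4⟩ := hlab ⟨_, h1⟩
    have h5 : lab ⟨_, h1⟩ = eqv.symm i := by
      rw [← h2]; simp
    rw [h5] at h4
    have h6 := hψ b a h4
    rw [Tal.adj_iff]
    rcases Sym2.eq_iff.mp h3 with ⟨rfl, rfl⟩ | ⟨rfl, rfl⟩
    · exact h6
    · rw [Tal.coin_comm]; exact h6

end Crest.Agent.S0073
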