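import Crest.Statements.S0074
import Crest.Agent.R53.Main

set_option autoImplicit false
open Crest Crest.CombinatoricsR

namespace Crest.Agent.S0074

/-- There are two matroids M₀, M₁ on the whole of ℕ (a countably infinite ground set), each equal to its own dual on the same labelled ground set, such that no independent set of M₀ together with an independent set of M₁ covers ℕ, and the pair has no packing/covering partition: no splitting ℕ = P ⊔ C allows disjoint S₀, S₁ ⊆ P with Sᵢ spanning the restriction of Mᵢ to P, and sets I₀, I₁ with union C, Iᵢ independent in the contraction of Mᵢ onto C (the complement of C contracted). -/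
theorem result :
    ∃ M₀ M₁ : Matroid ℕ, M₀.E = Set.univ ∧ M₁.E = Set.univ ∧ M₀.dual = M₀ ∧ M₁.dual = M₁ ∧
      (∀ I₀ I₁ : Set ℕ, M₀.Indep I₀ → M₁.Indep I₁ → I₀ ∪ I₁ ≠ Set.univ) ∧
      ¬ ∃ P C S₀ S₁ I₀ I₁ : Set ℕ, P ∪ C = Set.univ ∧ Disjoint P C ∧
          S₀ ⊆ P ∧ S₁ ⊆ P ∧ Disjoint S₀ S₁ ∧
          (M₀.restrict P).closure S₀ = P ∧ (M₁.restrict P).closure S₁ = P ∧
          I₀ ⊆ C ∧ I₁ ⊆ C ∧ (M₀.contract Cᶜ).Indep I₀ ∧ (M₁.contract Cᶜ).Indep I₁ ∧
          I₀ ∪ I₁ = C := by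
  obtain ⟨M₀, M₁, h0, h1, d0, d1, hc⟩ := Crest.Agent.R53.no_cover
  refine ⟨M₀, M₁, h0, h1, d0, d1, hc, ?_⟩
  rintro ⟨P, C, S₀, S₁, I₀, I₁, hPC, hd, s0, s1, hS, c0, c1, -, -, i0, i1, hI⟩
  refine hc _ _ (Crest.Agent.R53.cover_of_pc h0 d0 hPC c0 s0 i0)
    (Crest.Agent.R53.cover_of_pc h1 d1 hPC c1 s1 i1) (Set.eq_univ_of_forall fun x => ?_)
  by_contra hx
  simp only [Set.mem_union, Set.mem_compl_iff, not_or, not_not, not_and_or] at hx
  have e := Set.disjoint_left.1 hd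
  have e' := Set.disjoint_left.1 hS
  rcases hx with ⟨a | a, b | b⟩
  · exact e' a b
  · exact e (s0 a) b.1
  · exact e (s1 b) a.1
  · exact (hI ▸ a.1 : x ∈ I₀ ∪ I₁).elim a.2 b.2

end Crest.Agent.S0074
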