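import Crest.Statements.S0075
import Crest.Agent.R54.Core
import Crest.Agent.R54.MAINI
import Crest.Agent.R54.BT
import Crest.Agent.R54.CLQ
import Crest.Agent.R54.COUNT
import Crest.Agent.R54.FIN
import Crest.Agent.R54.IND
import Crest.Agent.R54.K3
import Crest.Agent.R54.K4
import Crest.Agent.R54.LAYER
import Crest.Agent.R54.LCORE
import Crest.Agent.R54.MIN
import Crest.Agent.R54.REPL
import Crest.Agent.R54.SPLIT
import Crest.Agent.R54.STRUCT
import Crest.Agent.R54.THETA
import Crest.Agent.R54.TREE
import Crest.Agent.R54.TRI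
import Crest.Agent.R54.W4
import Crest.Agent.R54.W5
import Crest.Agent.R54.W7

set_option autoImplicit false
open Crest Crest.CombinatoricsR

namespace Crest.Agent.S0075

/-- Let m ≥ n ≥ 3 be natural numbers with (m, n) ≠ (3, 3), and let G be a simple graph on a finite vertex type with exactly (m - 1)(n - 1) + 1 vertices. Then G contains a cycle of length exactly m (a closed walk of length m repeating no vertex or edge) or n vertices that are pairwise non-adjacent in G. -/
theorem result (m n : ℕ) (hn : 3 ≤ n) (hnm : n ≤ m)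
    (h33 : ¬ (m = 3 ∧ n = 3)) (V : Type) [Fintype V] [DecidableEq V]
    (hV : Fintype.card V = (m - 1) * (n - 1) + 1) (G : SimpleGraph V) :
    (∃ v : V, ∃ p : G.Walk v v, p.IsCycle ∧ p.length = m) ∨ (∃ s : Finset V, Gᶜ.IsNClique n s) := by
  have hR := R54.REPL_proof R54.CLOSE_proof
  exact R54.final R54.CYC_proof R54.MIN_proof
    (R54.core R54.TRI_proof R54.CLQK_proof R54.K3_proof R54.K4_proof
      (R54.COUNT_proof (R54.LL_proof R54.MIN_proof R54.LCORE_proof)
        (R54.LAYER_proof R54.THETA_proof R54.TREE_proof) R54.B1_proof)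
      (R54.MAINI_proof R54.ROOTS_proof R54.SPLIT_proof R54.BT_proof (R54.CLQ_proof R54.SPLIT_proof)
        R54.IND_proof)
      (R54.STRUCT_proof hR) (R54.W4_proof hR R54.FIN_proof) (R54.W5_proof hR R54.FIN_proof)
      (R54.W7_proof hR R54.FIN_proof))
    m n hn hnm h33 V hV G

end Crest.Agent.S0075
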