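import Crest.Statements.S0077
import Crest.Agent.R56.Bridge

set_option autoImplicit false
open Crest Crest.CombinatoricsR

namespace Crest.Agent.S0077

/-- Let n ≥ 2 and let P be a family of simple graphs on n labelled vertices that is invariant under renaming vertices, closed under adding edges, non-empty and not everything; let 0 < ε < 1/2. If the binomial random graph with edge probability p ∈ [0, 1] lies in P with probability at least ε, then at every edge probability q ∈ [0, 1] with q ≥ p + 2^19 · log(1/(2ε)) / (log n)² it lies in P with probability at least 1 - ε: the threshold interval from ε to 1 - ε is at most that long. -/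
theorem result (n : ℕ) (hn : 2 ≤ n)
    (P : Set (SimpleGraph (Fin n)))
    (hsymm : ∀ σ : Equiv.Perm (Fin n), ∀ G : SimpleGraph (Fin n), G ∈ P → G.map σ.toEmbedding ∈ P)
    (hmono : ∀ G G' : SimpleGraph (Fin n), G ≤ G' → G ∈ P → G' ∈ P)
    (hne : P.Nonempty) (hnu : P ≠ Set.univ) (ε : ℝ) (hε0 : 0 < ε) (hε : ε < 1 / 2)
    (p q : ℝ) (hp0 : 0 ≤ p) (hp1 : p ≤ 1) (hq0 : 0 ≤ q) (hq1 : q ≤ 1)
    (hp : ε ≤ Crest.CombinatoricsR.RandomGraph.gnpProb n p P)
    (hq : p + 2 ^ 19 / Real.log n ^ 2 * Real.log (1 / (2 * ε)) ≤ q) :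
    1 - ε ≤ Crest.CombinatoricsR.RandomGraph.gnpProb n q P := by
  classical
  set E : Set (RandomGraph.EdgeSlot n → Bool) := {ω | RandomGraph.graphOf ω ∈ P} with hE
  have hN0 : 0 < Real.log n := Real.log_pos (by exact_mod_cast hn)
  have hadj : ∀ (ω : RandomGraph.EdgeSlot n → Bool) (a b : Fin n),
      (RandomGraph.graphOf ω).Adj a b ↔ ∃ h : ¬ (s(a, b)).IsDiag, ω ⟨s(a, b), h⟩ = true := by
    intro ω a b
    simp only [RandomGraph.graphOf, SimpleGraph.fromEdgeSet_adj, Set.mem_ofPred_eq]
    constructor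
    · exact fun h => h.1
    · rintro ⟨h, h2⟩
      exact ⟨⟨h, h2⟩, fun hab => h (Sym2.mk_isDiag_iff.2 hab)⟩
  let mp : Equiv.Perm (Fin n) → RandomGraph.EdgeSlot n → RandomGraph.EdgeSlot n :=
    fun σ e => ⟨e.1.map σ, by rw [Sym2.isDiag_map σ.injective]; exact e.2⟩
  have hmp : ∀ σ : Equiv.Perm (Fin n), ∀ e, mp σ.symm (mp σ e) = e := by
    intro σ e
    apply Subtype.ext
    simp [mp, Sym2.map_map]
  have hgraph : ∀ (σ : Equiv.Perm (Fin n)) (ω : RandomGraph.EdgeSlot n → Bool),
      RandomGraph.graphOf (ω ∘ mp σ) = (RandomGraph.graphOf ω).map σ.symm.toEmbedding := by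
    intro σ ω
    ext a b
    rw [SimpleGraph.map_adj, hadj]
    constructor
    · rintro ⟨h, h2⟩
      refine ⟨σ a, σ b, (hadj _ _ _).2 ⟨(mp σ ⟨s(a, b), h⟩).2, h2⟩, by simp, by simp⟩
    · rintro ⟨a', b', h, rfl, rfl⟩
      obtain ⟨h, h2⟩ := (hadj _ _ _).1 h
      refine ⟨(mp σ.symm ⟨s(a', b'), h⟩).2, ?_⟩
      have := hmp σ.symm ⟨s(a', b'), h⟩
      rw [Equiv.symm_symm] at this
      exact (congrArg ω this).trans h2
  have hinv : ∀ (σ : Equiv.Perm (Fin n)) (ω : RandomGraph.EdgeSlot n → Bool),
      ω ∈ E → ω ∘ mp σ ∈ E := by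
    intro σ ω h
    change RandomGraph.graphOf (ω ∘ mp σ) ∈ P
    rw [hgraph]
    exact hsymm _ _ h
  have hvar : ∀ t, 0 < t → t < 1 → R56.Ex t (R56.ind E) * (1 - R56.Ex t (R56.ind E)) ≤
      2 ^ 17 / Real.log n ^ 2 * R56.infl t (R56.ind E) := by
    intro t h0 h1
    have key := R56.main (r := 2) h0 h1 (R56.ind E) (R56.ind_01 _)
      (fun e : RandomGraph.EdgeSlot n => e.1.toFinset)
      (fun e e' h => Subtype.ext (Sym2.ext fun a => by
        rw [← Sym2.mem_toFinset, ← Sym2.mem_toFinset]
        exact Finset.ext_iff.1 h a))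
      (fun e => Sym2.card_toFinset_of_not_isDiag _ e.2) le_rfl hn (fun σ => ⟨
        { toFun := mp σ
          invFun := mp σ.symm
          left_inv := hmp σ
          right_inv := hmp σ.symm },
        fun e => by
          ext a
          simp only [mp, Equiv.coe_fn_mk, Sym2.mem_toFinset, Sym2.mem_map, Finset.mem_map,
            Equiv.coe_toEmbedding],
        fun x => by
          have h2 : x ∘ mp σ ∈ E ↔ x ∈ E := by
            refine ⟨fun h => ?_, hinv σ x⟩
            have h3 := hinv σ.symm _ h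
            have h4 : (x ∘ mp σ) ∘ mp σ.symm = x := by
              funext e
              have := hmp σ.symm e
              rw [Equiv.symm_symm] at this
              simp only [Function.comp, this]
            rwa [h4] at h3
          unfold R56.ind
          exact if_congr h2 rfl rfl⟩)
    have e1 : ((2 : ℕ) : ℝ) / (((2 : ℕ) : ℝ) - 1) = 2 := by norm_num
    rw [e1, Real.rpow_two] at key
    convert key using 2
    norm_num
  have hmonoE : ∀ (x : RandomGraph.EdgeSlot n → Bool) e, Function.update x e false ∈ E →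
      Function.update x e true ∈ E := by
    intro x e h
    refine hmono _ _ (fun a b hab => ?_) h
    obtain ⟨h1, h2⟩ := (hadj _ _ _).1 hab
    refine (hadj _ _ _).2 ⟨h1, ?_⟩
    by_cases he : (⟨s(a, b), h1⟩ : RandomGraph.EdgeSlot n) = e
    · rw [he, Function.update_self]
    · rwa [Function.update_of_ne he] at h2 ⊢
  have hder : ∀ t, 0 < t → t < 1 →
      HasDerivAt (fun t => R56.Ex t (R56.ind E)) (R56.infl t (R56.ind E)) t := by
    intro t h0 h1
    refine (R56.russo (R56.ind E) t h0 h1).congr_deriv ?_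
    refine Finset.sum_congr rfl fun e _ => ?_
    congr 1
    funext x
    have := hmonoE x e
    unfold R56.ind
    by_cases h2 : Function.update x e false ∈ E
    · simp [h2, this h2]
    · by_cases h3 : Function.update x e true ∈ E <;> simp [h2, h3]
  unfold RandomGraph.gnpProb at hp ⊢
  rw [R56.prob_eq] at hp ⊢
  refine R56.sharp (fun t => R56.Ex t (R56.ind E)) (fun t => R56.infl t (R56.ind E))
    (Real.log n ^ 2 / 2 ^ 17) (by positivity) (R56.continuous_Ex _) hder
    (fun t h0 h1 => R56.infl_nonneg h0.le h1.le _) (fun t h0 h1 => ?_) ε hε0 hε p q hp0 hq1 hp ?_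
  · have h := mul_le_mul_of_nonneg_left (hvar t h0 h1)
      (show 0 ≤ Real.log n ^ 2 / 2 ^ 17 by positivity)
    refine h.trans (le_of_eq ?_)
    field_simp
  · convert hq using 3
    field_simp
    norm_num

end Crest.Agent.S0077
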