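import Crest.Statements.S0078
import Crest.Agent.R56.Bridge

set_option autoImplicit false
open Crest Crest.CombinatoricsR

namespace Crest.Agent.S0078

/-- For every r ≥ 3 there is a real constant C such that for all n ≥ r, all 0 < p < 1 and every Boolean function f of the simple r-uniform hypergraph on n labelled vertices that is invariant under renaming the vertices (no monotonicity assumed), the variance of f under independent edge-coins of bias p, namely P(f = true) · (1 - P(f = true)), is at most C · (log n)^(-r/(r-1)) times the total pivotal influence of f at bias p (natural logarithm). -/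
theorem result (r : ℕ) (hr : 3 ≤ r) :
    ∃ C : ℝ, ∀ n : ℕ, r ≤ n → ∀ p : ℝ, 0 < p → p < 1 →
      ∀ f : (Crest.CombinatoricsR.HypergraphCube.HyperedgeSlot n r → Bool) → Bool,
        Crest.CombinatoricsR.HypergraphCube.IsSymmetric f →
          Crest.CombinatoricsR.HypergraphCube.probTrue p f *
              (1 - Crest.CombinatoricsR.HypergraphCube.probTrue p f) ≤
            C / Real.log n ^ ((r : ℝ) / ((r : ℝ) - 1)) *
              Crest.CombinatoricsR.HypergraphCube.totalInfluence p f := by
  refine ⟨2 ^ 16 * r, fun n hn p h0 h1 f hf => ?_⟩
  have key := R56.main h0 h1 (R56.ind {x | f x = true}) (R56.ind_01 _)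
    (fun e : HypergraphCube.HyperedgeSlot n r => e.1) Subtype.val_injective (fun e => e.2)
    (by omega) (by omega) (fun σ => ⟨
      { toFun := HypergraphCube.relabelSlot σ
        invFun := HypergraphCube.relabelSlot σ.symm
        left_inv := fun e => Subtype.ext (by
          simp [HypergraphCube.relabelSlot, Finset.map_map])
        right_inv := fun e => Subtype.ext (by
          simp [HypergraphCube.relabelSlot, Finset.map_map]) },
      fun e => rfl, fun x => by
        have h := hf σ x
        exact R56.ind_congr _ (iff_of_eq (congrArg (· = true) h))⟩)
  have hI : HypergraphCube.totalInfluence p f = R56.infl p (R56.ind {x | f x = true}) := by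
    unfold HypergraphCube.totalInfluence R56.infl HypergraphCube.pivotalInfluence
    refine Finset.sum_congr rfl fun e _ => ?_
    rw [R56.prob_eq]
    congr 1
    funext x
    unfold R56.ind
    simp only [Set.mem_ofPred_eq]
    rcases Bool.eq_false_or_eq_true (f (Function.update x e true)) with h2 | h2 <;>
      rcases Bool.eq_false_or_eq_true (f (Function.update x e false)) with h3 | h3 <;>
      simp [h2, h3]
  rw [hI, HypergraphCube.probTrue, R56.prob_eq]
  exact key

end Crest.Agent.S0078
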