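import Crest.Statements.S0085
import Crest.Agent.R63.Boost

set_option autoImplicit false
open Crest Crest.CombinatoricsR

namespace Crest.Agent.R63
open Finset
open scoped BigOperators

lemma normalize {ι : Type} [Fintype ι] [DecidableEq ι] {D : ℕ} {v : (ι → Bool) → ℝ}
    (hv : Src D v) (hV : 0 < 𝔼 x, v x ^ 2) :
    ∃ (ι' : Type) (_ : Fintype ι') (_ : DecidableEq ι') (N : ℕ) (v' : (ι' → Bool) → ℝ),
      0 < N ∧ Src (N * D) v' ∧ (∀ h : ℝ → ℝ, 𝔼 x, h (v' x) = 𝔼 x, h (- v' x)) ∧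
      𝔼 x, v' x ^ 2 = N * 𝔼 x, v x ^ 2 ∧ 𝔼 x, v' x ^ 4 ≤ 4 * (𝔼 x, v' x ^ 2) ^ 2 := by
  set V := 𝔼 x, v x ^ 2 with hVdef
  set M := 𝔼 x, v x ^ 4 with hMdef
  have key : ∀ t : ℕ, ∃ (ι' : Type) (_ : Fintype ι') (_ : DecidableEq ι')
      (v' : (ι' → Bool) → ℝ), Src (2 ^ (t + 1) * D) v' ∧
      (∀ h : ℝ → ℝ, 𝔼 x, h (v' x) = 𝔼 x, h (- v' x)) ∧
      𝔼 x, v' x ^ 2 = 2 ^ (t + 1) * V ∧
      𝔼 x, v' x ^ 4 ≤ 3 * (2 ^ (t + 1) * V) ^ 2 + 2 ^ (t + 1) * M := by
    intro t
    induction t with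
    | zero =>
      obtain ⟨v', h1, h2, h3, h4⟩ := hv.double
      refine ⟨_, _, _, v', by simpa using h1, h2, by simpa using h3, ?_⟩
      rw [h4, ← hVdef, ← hMdef]
      norm_num
      nlinarith [sq_nonneg V]
    | succ t ih =>
      obtain ⟨ι', _, _, w, g1, -, g3, g4⟩ := ih
      obtain ⟨v', h1, h2, h3, h4⟩ := g1.double
      refine ⟨_, _, _, v', ?_, h2, ?_, ?_⟩
      · rw [pow_succ' 2 (t + 1), mul_assoc]; exact h1
      · rw [h3, g3, pow_succ' 2 (t + 1)]; ring
      · rw [h4, g3, pow_succ' 2 (t + 1)]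
        nlinarith
  obtain ⟨t, ht⟩ := exists_nat_ge (M / V ^ 2)
  obtain ⟨ι', _, _, v', h1, h2, h3, h4⟩ := key t
  refine ⟨ι', _, _, 2 ^ (t + 1), v', by positivity, h1, h2, by exact_mod_cast h3, ?_⟩
  rw [h3]
  have h5 : (t : ℝ) ≤ 2 ^ (t + 1) := by
    have : t < 2 ^ (t + 1) := (Nat.lt_two_pow_self).trans (Nat.pow_lt_pow_right (by norm_num) (by omega))
    exact_mod_cast this.le
  have h6 : M ≤ 2 ^ (t + 1) * V ^ 2 := by
    rw [div_le_iff₀ (by positivity)] at ht
    exact ht.trans (by gcongr)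
  have h7 : (0 : ℝ) < 2 ^ (t + 1) := by positivity
  nlinarith

lemma exists_src (R : ℝ) : ∃ (ι : Type) (_ : Fintype ι) (_ : DecidableEq ι) (D : ℕ)
    (v : (ι → Bool) → ℝ), 0 < D ∧ Src D v ∧ 0 < 𝔼 x, v x ^ 2 ∧ R * D ≤ 𝔼 x, v x ^ 2 ∧
      𝔼 x, v x ^ 4 ≤ 4 * (𝔼 x, v x ^ 2) ^ 2 := by
  obtain ⟨κ, hκ, hb⟩ := boost
  have key : ∀ k : ℕ, ∃ (ι : Type) (_ : Fintype ι) (_ : DecidableEq ι) (D : ℕ)
      (v : (ι → Bool) → ℝ), 0 < D ∧ Src D v ∧ (1 + κ) ^ k * D ≤ 𝔼 x, v x ^ 2 := by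
    intro k
    induction k with
    | zero =>
      refine ⟨Unit, _, _, 1, Ssum, one_pos, ⟨fun h => ?_, fun _ => rfl⟩, ?_⟩
      · have := Deg.coord (ι := Unit) () (fun b => h (sg b))
        simpa [Ssum] using this
      · simp [Ssum, sg_sq]
    | succ k ih =>
      obtain ⟨ι, _, _, D, v, hD, hv, hle⟩ := ih
      have hV : 0 < 𝔼 x, v x ^ 2 := lt_of_lt_of_le (by positivity) hle
      obtain ⟨ι1, _, _, N1, v1, hN1, hv1, hs1, e1, k1⟩ := normalize hv hV
      obtain ⟨ι2, _, _, N2, v2, hN2, hv2, h2⟩ := hb ι1 _ v1 hv1 hs1 (by rw [e1]; positivity) k1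
      refine ⟨ι2, _, _, N2 * (N1 * D), v2, by positivity, hv2, le_trans ?_ h2⟩
      rw [e1]
      push_cast
      calc (1 + κ) ^ (k + 1) * (N2 * (N1 * D) : ℝ) = (1 + κ) * N2 * (N1 * ((1 + κ) ^ k * D)) := by
            ring
        _ ≤ _ := by gcongr
  obtain ⟨k, hk⟩ := pow_unbounded_of_one_lt R (show 1 < 1 + κ by linarith)
  obtain ⟨ι, _, _, D, v, hD, hv, hle⟩ := key k
  have hV : 0 < 𝔼 x, v x ^ 2 := lt_of_lt_of_le (by positivity) hle
  obtain ⟨ι1, _, _, N1, v1, hN1, hv1, -, e1, k1⟩ := normalize hv hV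
  refine ⟨ι1, _, _, N1 * D, v1, by positivity, hv1, by rw [e1]; positivity, ?_, k1⟩
  rw [e1]
  push_cast
  calc R * (N1 * D : ℝ) = N1 * (R * D) := by ring
    _ ≤ N1 * ((1 + κ) ^ k * D) := by gcongr
    _ ≤ _ := by gcongr

end Crest.Agent.R63

namespace Crest.Agent.S0085

open Crest.Agent.R63 Finset
open scoped BigOperators

/-- For every real C > 0 there are a natural number n, a Boolean function f on the n-dimensional Boolean cube and a natural number d such that: f is non-constant; every Fourier–Walsh coefficient of f (values and inputs read as signs +1 for true and -1 for false, averaged over the uniform cube) indexed by a set of more than d coordinates vanishes, so f has degree at most d; and the sum of the n singleton Fourier–Walsh coefficients of f exceeds C times the square root of d. -/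
theorem result (C : ℝ) (hC : 0 < C) :
    ∃ n : ℕ, ∃ f : (Fin n → Bool) → Bool, ∃ d : ℕ,
      (∃ x y, f x ≠ f y) ∧
      (∀ S : Finset (Fin n), d < S.card →
        ∑ x : Fin n → Bool, ((if f x then (1 : ℝ) else -1) * ∏ i ∈ S, (if x i then (1 : ℝ) else -1)) = 0) ∧
      C * Real.sqrt d <
        ∑ i : Fin n, (∑ x : Fin n → Bool, ((if f x then (1 : ℝ) else -1) * (if x i then (1 : ℝ) else -1))) / 2 ^ n := by
  obtain ⟨ι, _, _, D, v, hD, hv, hV, hR, h4⟩ := exists_src (16 * C ^ 2)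
  let n := Fintype.card ι
  let e : ι ≃ Fin n := Fintype.equivFin ι
  let f : (Fin n → Bool) → Bool := fun x => decide (0 ≤ v (fun t => x (e t)))
  have hsum : ∑ i : Fin n, (∑ x : Fin n → Bool, sg (f x) * sg (x i)) / 2 ^ n = 𝔼 x, |v x| := by
    have h1 := hv.cal (fun t => sg (decide (0 ≤ t)))
    have h2 : ∀ t : ℝ, t * sg (decide (0 ≤ t)) = |t| := by
      intro t
      by_cases h : 0 ≤ t
      · simp [sg, h, abs_of_nonneg h]
      · simp [sg, h, abs_of_neg (not_le.1 h)]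
    simp only [h2] at h1
    rw [← h1, ← Fintype.expect_equiv (Equiv.arrowCongr e.symm (Equiv.refl Bool))
      (fun x => (∑ i, sg (x i)) * sg (f x)) _ (fun x => by
        have : Ssum (Equiv.arrowCongr e.symm (Equiv.refl Bool) x) = ∑ i, sg (x i) := by
          rw [Ssum]
          exact Equiv.sum_comp e (fun i => sg (x i))
        rw [this]; rfl), Fintype.expect_eq_sum_div_card, ← sum_div, sum_comm]
    congr 1
    · refine sum_congr rfl fun x _ => ?_
      rw [sum_mul]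
      exact sum_congr rfl fun i _ => mul_comm _ _
    · simp
  have hL : C * Real.sqrt D <
      ∑ i : Fin n, (∑ x : Fin n → Bool, sg (f x) * sg (x i)) / 2 ^ n := by
    rw [hsum]
    refine lt_of_lt_of_le ?_ (E_abs_ge v hV h4)
    have h1 : Real.sqrt (16 * C ^ 2 * D) ≤ Real.sqrt (𝔼 x, v x ^ 2) := Real.sqrt_le_sqrt hR
    have h2 : Real.sqrt (16 * C ^ 2 * D) = 4 * C * Real.sqrt D := by
      rw [Real.sqrt_mul (by positivity), show 16 * C ^ 2 = (4 * C) ^ 2 by ring,
        Real.sqrt_sq (by positivity)]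
    have h3 : 0 < C * Real.sqrt D := mul_pos hC (Real.sqrt_pos.2 (by exact_mod_cast hD))
    linarith
  refine ⟨n, f, D, ?_, ?_, hL⟩
  · by_contra h
    push Not at h
    have h0 : ∀ i : Fin n, ∑ x : Fin n → Bool, sg (f x) * sg (x i) = 0 := by
      intro i
      have := Deg.fourier (Deg.const (ι := Fin n) 0 (sg (f (fun _ => true)))) {i} (by simp)
      simp only [prod_singleton] at this
      rw [← this]
      exact sum_congr rfl fun x _ => by rw [h x (fun _ => true)]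
    simp only [h0, zero_div, sum_const_zero] at hL
    have h3 : 0 ≤ C * Real.sqrt D := by positivity
    linarith
  · intro S hS
    exact Deg.fourier (Deg.comp e id (hv.deg (fun t => sg (decide (0 ≤ t))))) S hS

end Crest.Agent.S0085
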