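import Crest.Statements.S0088
import Crest.Agent.R66.Van
import Crest.Agent.R66.GSpec
import Crest.Agent.R66.L2G
import Crest.Agent.R66.Final

set_option autoImplicit false
open Crest Crest.CombinatoricsR

namespace Crest.Agent.S0088

open Crest.Agent.R66 Finset

/-- initial segments of `Fin N` -/
def seg (N j : ℕ) : Finset (Fin N) := univ.filter (fun i => i.val < j)

theorem card_seg {N j : ℕ} (h : j ≤ N) : (seg N j).card = j := by
  rw [seg, Fin.card_filter_val_lt]; omega

theorem seg_mono {N i j : ℕ} (h : i ≤ j) : seg N i ⊆ seg N j := by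
  intro x hx
  simp only [seg, mem_filter, mem_univ, true_and] at hx ⊢
  omega

theorem chain_seg (N M : ℕ) :
    IsChain (· ⊆ ·) (((range M).image (seg N) : Finset (Finset (Fin N))) : Set (Finset (Fin N))) := by
  intro a ha b hb _
  simp only [coe_image, Set.mem_image] at ha hb
  obtain ⟨i, _, rfl⟩ := ha
  obtain ⟨j, _, rfl⟩ := hb
  rcases le_total i j with h | h
  · exact Or.inl (seg_mono h)
  · exact Or.inr (seg_mono h)

theorem card_image_seg {N M : ℕ} (h : M ≤ N) : ((range M).image (seg N)).card = M := by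
  rw [card_image_of_injOn, card_range]
  intro i hi j hj e
  simp only [coe_range, Set.mem_Iio] at hi hj
  have := congrArg card e
  rwa [card_seg (by omega), card_seg (by omega)] at this

theorem card_of_mem {N M : ℕ} (h : M ≤ N) {I : Finset (Fin N)} (hI : I ∈ (range M).image (seg N)) :
    I.card < M := by
  obtain ⟨j, hj, rfl⟩ := mem_image.1 hI
  rw [mem_range] at hj
  rwa [card_seg (by omega)]

theorem chainOK_seg {N M : ℕ} (h : M ≤ N) : ChainOK ((range M).image (seg N)) := by
  refine ⟨chain_seg N M, fun hh => ?_⟩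
  have := card_of_mem h hh.2
  simp at this
  omega

theorem empty_mem_seg (N : ℕ) {M : ℕ} (h : 0 < M) : ∅ ∈ (range M).image (seg N) :=
  mem_image.2 ⟨0, mem_range.2 h, by simp [seg]⟩

/-- For each d ≥ 3 there are D and ε > 0 such that for every N there is a pure d-dimensional simplicial complex, given by its top faces on the vertex set Fin n with n ≥ N, each vertex lying in at least one and at most D top faces and the 1-skeleton connected, which is an ε-coboundary expander over the two-element field in each degree i < d: for every i-cochain f some i-coboundary b (a constant if i = 0) has ε · ‖f - b‖ ≤ ‖δ_i f‖, in the top-face-weighted Hamming norms of degrees i and i + 1. -/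
theorem result (d : ℕ) (hd : 3 ≤ d) :
    ∃ D : ℕ, ∃ ε : ℝ, 0 < ε ∧ ∀ N : ℕ, ∃ n : ℕ, ∃ T : Finset (Finset (Fin n)), N ≤ n ∧
      (∀ τ ∈ T, τ.card = d + 1) ∧
      (∀ v : Fin n, 1 ≤ Crest.CombinatoricsR.Cochain.vertexDegree T v ∧ Crest.CombinatoricsR.Cochain.vertexDegree T v ≤ D) ∧
      (Crest.CombinatoricsR.Cochain.skeleton T).Connected ∧
      ∀ i : ℕ, i < d → ∀ f : Finset (Fin n) → ZMod 2,
        ∃ b : Finset (Fin n) → ZMod 2, Crest.CombinatoricsR.Cochain.IsCoboundaryClass i b ∧
          ε * Crest.CombinatoricsR.Cochain.cochainNorm d T i (f - b) ≤ Crest.CombinatoricsR.Cochain.cochainNorm d T (i + 1) (Crest.CombinatoricsR.Cochain.coboundary i f) := by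
  classical
  choose f hf using van
  set N : ℕ := d + 3 + (range (d + 1)).sup f with hN
  choose q3 hq3 using fun m => hf m N
  obtain ⟨K, q1, h1⟩ := link_cobExp N
  obtain ⟨ε, hε, h2⟩ := l2g (d + 2) K
  obtain ⟨q2, h3⟩ := zc_spec N ε hε
  obtain ⟨p, hpge, hp⟩ := Nat.exists_infinite_primes (q1 + q2 + (range (d + 1)).sup q3 + 3)
  have : Fact p.Prime := ⟨hp⟩
  have hodd : Odd (Fintype.card (ZMod p)) := by
    rw [ZMod.card]; exact hp.odd_of_ne_two (by omega)
  have hcard : Fintype.card (ZMod p) = p := ZMod.card p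
  set Q : ℕ := p ^ (2 * N * N) with hQ
  obtain ⟨K', h4⟩ := h2 Q
  obtain ⟨D, ε', hε', h5⟩ := fin_abs d Q K' (by omega)
  refine ⟨D, ε', hε', fun M => ?_⟩
  obtain ⟨R, _, _, _, ⟨τ⟩, hR⟩ := exists_trunc (ZMod p) (M * Q)
  have hdN : d + 2 ≤ N := by omega
  set J : Finset (Finset (Fin N)) := (range (d + 2)).image (seg N) with hJ
  set 𝓘 : Finset (Finset (Fin N)) := (range N).image (seg N) with h𝓘
  have hJI : J ⊆ 𝓘 := image_subset_image (range_subset_range.2 hdN)
  have hJc : J.card = d + 2 := card_image_seg hdN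
  have hvan : ∀ m ≤ d, Acyc (Zc τ J) m := by
    intro m hm
    have e1 : q3 m ≤ (range (d + 1)).sup q3 := le_sup (mem_range.2 (by omega))
    have e2 : f m ≤ (range (d + 1)).sup f := le_sup (mem_range.2 (by omega))
    refine hq3 m (ZMod p) R (Fin N) τ J hodd (by omega) (by simp) (chain_seg _ _)
      (empty_mem_seg N (by omega)) (fun I hI => ?_) (by omega)
    have := card_of_mem hdN hI
    simp only [Fintype.card_fin]
    omega
  have hQle : ∀ i ∈ J, ∀ x : SL (Fin N) R, (cl (vert τ) {i} x).card ≤ Q := by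
    intro i _ x
    simpa [hQ] using card_cl_le τ i x
  have hspec := h3 (ZMod p) R (Fin N) τ 𝓘 (by omega) (by simp) (chainOK_seg le_rfl)
    (by simpa using card_image_seg (N := N) le_rfl) (by simp; omega)
    ⟨J, hJI, card_pos.1 (by omega), hvan 1 (by omega)⟩
  refine h5 (Finset (Fin N)) (SL (Fin N) R) (Vx (Fin N) R) (vert τ) J (col_vert τ) hJc hQle
    (fun m _ hm => ?_) M (hR.trans (card_SL_ge (by simp; omega)))
  refine h4 (Finset (Fin N)) (SL (Fin N) R) (Vx (Fin N) R) (vert τ) J (col_vert τ) hJc.le hQle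
    (h1 (ZMod p) R (Fin N) τ J (by omega) (by simp) (chainOK_seg hdN))
    (fun S hS a ha B hB => hspec S (hS.trans hJI) a (hJI ha) B (hB.trans hJI)) m (by omega)
    (hvan m hm)

end Crest.Agent.S0088
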