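import Crest.Statements.S0094
import Crest.Agent.R71.Final
import Crest.Agent.R71.COL
import Crest.Agent.R71.POOL
import Crest.Agent.R71.PARAM
import Crest.Agent.R71.LEV
import Crest.Agent.R71.GEN
import Crest.Agent.R71.GREEDY
import Crest.Agent.R71.INT
import Crest.Agent.R71.DESC
import Crest.Agent.R71.SUM
import Crest.Agent.R71.ROWS
import Crest.Agent.R71.BODY
import Crest.Agent.R71.COVER
import Crest.Agent.R71.PACK
import Crest.Agent.R71.NUM

set_option autoImplicit false
open Pointwise Crest.AnalysisR
open Crest Crest.AnalysisR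

namespace Crest.Agent.S0094

/-- For all real a, b ≥ 1 there are n ≥ 1 and a compact convex set K in Euclidean n-space with nonempty interior, symmetric about 0, such that, with L the cube of points having all coordinates in [-1, 1] and polars taken for the standard inner product (the y pairing to at most 1 with each point of the set): some m translates of a⁻¹ • (polar of K) cover the polar of L, while any k translates of L covering K satisfy b * log m < log k. So log N(K, L) > b log N(L°, a⁻¹K°) for covering numbers N. -/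
theorem result
    (a b : ℝ) (ha : 1 ≤ a) (hb : 1 ≤ b) :
    ∃ n : ℕ, 0 < n ∧ ∃ K : Set (EuclideanSpace ℝ (Fin n)),
      Convex ℝ K ∧ IsCompact K ∧ (interior K).Nonempty ∧ (∀ x ∈ K, -x ∈ K) ∧
      ∃ t₁ : Finset (EuclideanSpace ℝ (Fin n)),
        polarSet {x : EuclideanSpace ℝ (Fin n) | ∀ i, |x i| ≤ 1} ⊆ ⋃ y ∈ t₁, (y +ᵥ a⁻¹ • polarSet K) ∧
        ∀ t₂ : Finset (EuclideanSpace ℝ (Fin n)),
          K ⊆ ⋃ x ∈ t₂, (x +ᵥ {z : EuclideanSpace ℝ (Fin n) | ∀ i, |z i| ≤ 1}) →
          b * Real.log t₁.card < Real.log t₂.card := by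
  open Crest.Agent.R71 in
  exact final_of (COL_of POOL_holds PARAM_holds (LEV_of GEN_holds (GREEDY_of INT_holds) DESC_holds)
    SUM_holds) ROWS_holds BODY_holds COVER_holds PACK_holds NUM_holds a b ha hb

end Crest.Agent.S0094
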