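import Crest.Statements.S0100
import Crest.Agent.R75.Fin3
import Crest.Agent.R75.Macro
import Crest.Agent.R75.Osc5
import Crest.Agent.R75.Micro
import Crest.Agent.R75.Wave
import Crest.Agent.R75.Jit
import Crest.Agent.R75.Pack
import Crest.Agent.R75.Nibble
import Crest.Agent.R75.Round

set_option autoImplicit false
open Crest Crest.AnalysisR

namespace Crest.Agent.S0100

/-- For every real `ε` with `0 < ε < 1` there is a threshold `N₀` such that for every integer `N ≥ N₀` one can choose signs `c 0, …, c (N-1)` in `{-1, 1}` so that the polynomial `∑ k, c k * z ^ k` has modulus between `(1 - ε) * √N` and `(1 + ε) * √N` at every complex number `z` of modulus one. -/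
theorem result (ε : ℝ) (hε : 0 < ε)
    (hε₁ : ε < 1) :
    ∃ N₀ : ℕ, ∀ N ≥ N₀, ∃ c : Fin N → ℤˣ, ∀ z : ℂ, ‖z‖ = 1 →
      (1 - ε) * Real.sqrt N ≤ ‖∑ k : Fin N, ((c k : ℤ) : ℂ) * z ^ (k : ℕ)‖ ∧
        ‖∑ k : Fin N, ((c k : ℤ) : ℂ) * z ^ (k : ℕ)‖ ≤ (1 + ε) * Real.sqrt N := by
  open Crest.Agent.R75 in
  exact Fin1.final_of_flat (Fin1.flat_of (macro_of o2 spc) (micro_of spd wave jit) (pack_of nibble))
    (round_of spencer) ε hε

end Crest.Agent.S0100
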