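import Crest.Statements.S0109
import Crest.Agent.R82.Mixed
import Crest.Agent.R82.Unif

set_option autoImplicit false

namespace Crest.Agent.R82

open Finset MeasureTheory Filter Topology Set
open scoped RealInnerProductSpace ENNReal
open Crest.AnalysisR.OT

theorem main_est {d : ℕ} (hd : 1 ≤ d) {K : Set (EuclideanSpace ℝ (Fin d))} (hKc : IsCompact K)
    (hKv : Convex ℝ K) (hKi : (interior K).Nonempty) {R : ℝ} (hR : 0 < R)
    (hKR : ∀ x ∈ K, ‖x‖ ≤ R) {x0 : EuclideanSpace ℝ (Fin d)} {r : ℝ} (hr : 0 < r)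
    (hball : Metric.closedBall x0 r ⊆ K) {Y : Set (EuclideanSpace ℝ (Fin d))} (hYc : IsCompact Y)
    {L : ℝ} (hL : 0 < L) (hYL : ∀ y ∈ Y, ‖y‖ ≤ L)
    {μ ν : Measure (EuclideanSpace ℝ (Fin d))} (hμ : IsProbabilityOn Y μ) (hν : IsProbabilityOn Y ν)
    {T0 T1 : EuclideanSpace ℝ (Fin d) → EuclideanSpace ℝ (Fin d)}
    (hT0 : IsOptimalMap (uniformProbOn K) μ T0) (hT1 : IsOptimalMap (uniformProbOn K) ν T1)
    {γ : Measure (EuclideanSpace ℝ (Fin d) × EuclideanSpace ℝ (Fin d))} (hγ : IsPairCoupling μ ν γ)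
    {η : ℝ} (hη : 0 < η) (hηr : η ≤ r) {δ : ℝ} (hδ : 0 < δ) :
    η ^ 2 * ∫ x, ‖T0 x - T1 x‖ ^ 2 ∂(uniformProbOn K) ≤
      d * (6 * (7500 * R ^ 2 * (2 * ∫ p, ‖p.1 - p.2‖ ^ 2 ∂γ + 8 * δ ^ 2)) +
        12 * (L * η) ^ 2 * (d * (η / r)) + 4 * (L * η) * (3 * (δ + 2 * R * δ))) := by
  classical
  have hρ := good_unif hKc hKv hKi hR hKR
  set ρ := uniformProbOn K with hρdef
  have := hρ.prob
  have := hμ.1
  have := hν.1
  have hμY : ∀ᵐ y ∂μ, y ∈ Y := hμ.2
  have hνY : ∀ᵐ y ∂ν, y ∈ Y := hν.2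
  have hμL : ∀ᵐ y ∂μ, ‖y‖ ≤ L := hμY.mono hYL
  have hνL : ∀ᵐ y ∂ν, ‖y‖ ≤ L := hνY.mono hYL
  obtain ⟨hγ1, hγ2⟩ := hγ
  have : IsProbabilityMeasure γ := by
    constructor
    have := congrArg (fun m : Measure _ => m Set.univ) hγ1
    simpa [Measure.map_apply measurable_fst MeasurableSet.univ] using this
  have hγY : ∀ᵐ p ∂γ, p ∈ Y ×ˢ Y := by
    rw [← hγ1] at hμY
    rw [← hγ2] at hνY
    filter_upwards [ae_of_ae_map measurable_fst.aemeasurable hμY,
      ae_of_ae_map measurable_snd.aemeasurable hνY] with p h1 h2 using ⟨h1, h2⟩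
  obtain ⟨t, γk, hne, hsum, hpos, htY, hclose⟩ := exists_discr (hYc.prod hYc) γ hγY hδ
  have hle : ∀ k, γk k ≤ γ := fun k => by
    rw [← hsum]
    exact Finset.single_le_sum (f := γk) (fun j _ => bot_le) (Finset.mem_univ k)
  have hfin : ∀ k, IsFiniteMeasure (γk k) := fun k => isFiniteMeasure_of_le γ (hle k)
  let m : t → ℝ := fun k => (γk k).real Set.univ
  have hm : ∀ k, 0 < m k := fun k => ENNReal.toReal_pos (hpos k) (measure_ne_top _ _)
  have hmass : ∀ k, γk k Set.univ = ENNReal.ofReal (m k) := fun k =>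
    (ENNReal.ofReal_toReal (measure_ne_top _ _)).symm
  have hs : ∑ k, m k = 1 := by
    have := congrArg (fun m : Measure _ => m.real Set.univ) hsum
    simp only [measureReal_def, Measure.finsetSum_apply, measure_univ, ENNReal.toReal_one] at this
    rw [ENNReal.toReal_sum fun k _ => measure_ne_top _ _] at this
    exact this
  let c0 : t → EuclideanSpace ℝ (Fin d) := fun k => k.1.1
  let c1 : t → EuclideanSpace ℝ (Fin d) := fun k => k.1.2
  let μk : t → Measure (EuclideanSpace ℝ (Fin d)) := fun k => (γk k).map Prod.fst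
  let νk : t → Measure (EuclideanSpace ℝ (Fin d)) := fun k => (γk k).map Prod.snd
  have hμsum : ∑ k, μk k = μ := by
    rw [← hγ1, ← hsum, Measure.map_finset_sum measurable_fst.aemeasurable]
  have hνsum : ∑ k, νk k = ν := by
    rw [← hγ2, ← hsum, Measure.map_finset_sum measurable_snd.aemeasurable]
  have hμmass : ∀ k, μk k Set.univ = ENNReal.ofReal (m k) := fun k => by
    simp only [μk]
    rw [Measure.map_apply measurable_fst MeasurableSet.univ, preimage_univ, hmass]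
  have hνmass : ∀ k, νk k Set.univ = ENNReal.ofReal (m k) := fun k => by
    simp only [νk]
    rw [Measure.map_apply measurable_snd MeasurableSet.univ, preimage_univ, hmass]
  have hcl : ∀ k, ∀ᵐ p ∂γk k, ‖p.1 - c0 k‖ ≤ δ ∧ ‖p.2 - c1 k‖ ≤ δ := by
    intro k
    filter_upwards [hclose k] with p hp
    rw [Prod.dist_eq, max_le_iff, dist_eq_norm, dist_eq_norm] at hp
    exact hp
  have hμc : ∀ k, ∀ᵐ y ∂μk k, ‖y - c0 k‖ ≤ δ := fun k =>
    (ae_map_iff measurable_fst.aemeasurable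
      (measurableSet_le (by fun_prop) measurable_const)).mpr ((hcl k).mono fun p hp => hp.1)
  have hνc : ∀ k, ∀ᵐ y ∂νk k, ‖y - c1 k‖ ≤ δ := fun k =>
    (ae_map_iff measurable_snd.aemeasurable
      (measurableSet_le (by fun_prop) measurable_const)).mpr ((hcl k).mono fun p hp => hp.2)
  -- discretised cost
  have hW : ∑ k, m k * ‖c1 k - c0 k‖ ^ 2 ≤ 2 * ∫ p, ‖p.1 - p.2‖ ^ 2 ∂γ + 8 * δ ^ 2 := by
    have iγ : Integrable (fun p : EuclideanSpace ℝ (Fin d) × EuclideanSpace ℝ (Fin d) =>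
        ‖p.1 - p.2‖ ^ 2) γ := by
      refine Integrable.of_bound (by fun_prop) ((L + L) ^ 2) ?_
      filter_upwards [hγY] with p hp
      rw [Real.norm_eq_abs, abs_of_nonneg (sq_nonneg _)]
      exact pow_le_pow_left₀ (norm_nonneg _)
        ((norm_sub_le _ _).trans (add_le_add (hYL _ hp.1) (hYL _ hp.2))) 2
    have ik : ∀ k, Integrable (fun p : EuclideanSpace ℝ (Fin d) × EuclideanSpace ℝ (Fin d) =>
        ‖p.1 - p.2‖ ^ 2) (γk k) := fun k => iγ.mono_measure (hle k)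
    have hk : ∀ k, m k * ‖c1 k - c0 k‖ ^ 2 ≤ 2 * ∫ p, ‖p.1 - p.2‖ ^ 2 ∂γk k + 8 * δ ^ 2 * m k := by
      intro k
      have i2 : Integrable (fun p : EuclideanSpace ℝ (Fin d) × EuclideanSpace ℝ (Fin d) =>
        2 * ‖p.1 - p.2‖ ^ 2 + 8 * δ ^ 2) (γk k) := ((ik k).const_mul 2).add (integrable_const _)
      have := integral_mono_ae (integrable_const (‖c1 k - c0 k‖ ^ 2)) i2 (by
        filter_upwards [hcl k] with p hp
        have h1 : ‖c1 k - c0 k‖ ≤ ‖p.1 - p.2‖ + 2 * δ := by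
          have e : c1 k - c0 k = (p.1 - c0 k) - (p.2 - c1 k) - (p.1 - p.2) := by abel
          rw [e]
          have a1 := norm_sub_le ((p.1 - c0 k) - (p.2 - c1 k)) (p.1 - p.2)
          have a2 := norm_sub_le (p.1 - c0 k) (p.2 - c1 k)
          linarith [hp.1, hp.2]
        have h2 := pow_le_pow_left₀ (norm_nonneg _) h1 2
        nlinarith [sq_nonneg (‖p.1 - p.2‖ - 2 * δ)])
      rw [integral_add ((ik k).const_mul 2) (integrable_const _), integral_const_mul,
        integral_const, integral_const, smul_eq_mul, smul_eq_mul] at this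
      simp only [m]
      linarith
    have := Finset.sum_le_sum fun k (_ : k ∈ Finset.univ) => hk k
    rw [Finset.sum_add_distrib, ← Finset.mul_sum, ← Finset.mul_sum, hs,
      ← integral_finsetSum_measure fun k _ => ik k, hsum] at this
    linarith
  -- the soft potentials
  set ℓ := Real.log (Fintype.card t) with hℓ
  have ℓ0 : 0 ≤ ℓ := Real.log_natCast_nonneg _
  set β := (ℓ + 1) / δ with hβ
  have β0 : 0 < β := by positivity
  obtain ⟨ψ0, ψ1, χ, e0, e1, hχ, hL2⟩ :=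
    potentials_close hρ (fun k => β • c0 k) (fun k => β • c1 k) m hm hs
  let φ0 : EuclideanSpace ℝ (Fin d) → ℝ := fun x => phi (fun k => β • c0 k) ψ0 x / β
  let φ1 : EuclideanSpace ℝ (Fin d) → ℝ := fun x => phi (fun k => β • c1 k) χ x / β
  have cφ0 : Continuous φ0 := (continuous_phi _ _).div_const _
  have cφ1 : Continuous φ1 := (continuous_phi _ _).div_const _
  have hl : Measurable fun x : EuclideanSpace ℝ (Fin d) => x ⟨0, hd⟩ := by fun_prop
  have mk0 := soft_le_monge hρ hμL hL _ hl (unif_hyperplane ⟨0, hd⟩) hT0 μk hμsum m hm hμmass c0 hμc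
    _ (continuous_th _ ψ0) (th_pos _ ψ0) (sum_th _ ψ0) e0
  have mk1 := soft_le_monge hρ hνL hL _ hl (unif_hyperplane ⟨0, hd⟩) hT1 νk hνsum m hm hνmass c1 hνc
    _ (continuous_th _ ψ1) (th_pos _ ψ1) (sum_th _ ψ1) e1
  have f0 := F_add_le hρ _ ψ0 m e0
  have f1 := F_add_le hρ _ ψ1 m e1
  rw [bar_smul, ← hℓ] at f0 f1
  have hβδ : β * δ = ℓ + 1 := by rw [hβ]; field_simp
  have hlow : ∀ (c : t → EuclideanSpace ℝ (Fin d)) (ψ : t → ℝ) k x,
      ⟪x, c k⟫ - ψ k / β ≤ phi (fun k => β • c k) ψ x / β := by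
    intro c ψ k x
    have := le_phi (fun k => β • c k) ψ k x
    rw [real_inner_smul_right] at this
    rw [le_div_iff₀ β0, sub_mul, div_mul_cancel₀ _ β0.ne']
    linarith
  have hsumdiv : ∀ ψ : t → ℝ, ∑ k, m k * (ψ k / β) = (∑ k, m k * ψ k) / β := by
    intro ψ
    rw [Finset.sum_div]
    exact Finset.sum_congr rfl fun k _ => by ring
  obtain ⟨g0, ig0, pg0, sg0, bg0⟩ := exists_gap hρ hμL hT0 μk hμsum m hm hs hμmass c0 hμc φ0 cφ0
    (fun k => ψ0 k / β) (hlow c0 ψ0) (G := δ + R * δ) (by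
      simp only [φ0]
      rw [integral_div, hsumdiv, ← add_div, div_le_iff₀ β0]
      have := mul_le_mul_of_nonneg_left mk0 β0.le
      unfold F bar at f0
      nlinarith)
  obtain ⟨g1, ig1, pg1, sg1, bg1⟩ := exists_gap hρ hνL hT1 νk hνsum m hm hs hνmass c1 hνc φ1 cφ1
    (fun k => χ k / β) (hlow c1 χ) (G := δ + R * δ) (by
      simp only [φ1]
      rw [integral_div, hsumdiv, ← add_div, div_le_iff₀ β0]
      have := mul_le_mul_of_nonneg_left mk1 β0.le
      unfold F bar at f1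
      unfold F at hχ
      nlinarith)
  have hlip : ∀ x x', φ1 x ≤ φ1 x' + L * ‖x - x'‖ := by
    intro x x'
    have := phi_lip (fun k => β • c1 k) χ (β * L) (fun k => by
      rw [norm_smul, Real.norm_eq_abs, abs_of_pos β0]
      exact mul_le_mul_of_nonneg_left (hYL _ (htY k).2) β0.le) x x'
    simp only [φ1]
    rw [div_le_iff₀ β0, add_mul, div_mul_cancel₀ _ β0.ne']
    linarith
  have hU : ∫ x, (φ0 x - φ1 x) ^ 2 ∂ρ ≤
      7500 * R ^ 2 * (2 * ∫ p, ‖p.1 - p.2‖ ^ 2 ∂γ + 8 * δ ^ 2) := by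
    simp only [φ0, φ1, ← sub_div, div_pow]
    rw [integral_div, div_le_iff₀ (by positivity)]
    refine hL2.trans ?_
    have : ∑ k, m k * ‖β • c1 k - β • c0 k‖ ^ 2 = (∑ k, m k * ‖c1 k - c0 k‖ ^ 2) * β ^ 2 := by
      rw [Finset.sum_mul]
      refine Finset.sum_congr rfl fun k _ => ?_
      rw [← smul_sub, norm_smul, Real.norm_eq_abs, mul_pow, sq_abs]; ring
    rw [this, ← mul_assoc]
    gcongr
  have b0 := ae_norm_le_of_map hT0.1 hT0.2.1 hμL
  have b1 := ae_norm_le_of_map hT1.1 hT1.2.1 hνL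
  have hdir : ∀ i : Fin d, ∫ x, ⟪EuclideanSpace.single i η, T0 x - T1 x⟫ ^ 2 ∂ρ ≤
      6 * (7500 * R ^ 2 * (2 * ∫ p, ‖p.1 - p.2‖ ^ 2 ∂γ + 8 * δ ^ 2)) +
        12 * (L * η) ^ 2 * (d * (η / r)) + 4 * (L * η) * (3 * (δ + 2 * R * δ)) := by
    intro i
    have hn : ‖(EuclideanSpace.single i η : EuclideanSpace ℝ (Fin d))‖ = η := by
      simp [abs_of_pos hη]
    have := dir_est hρ (EuclideanSpace.single i η) (unif_translate hKc)
      (unif_boundary hKc hKv hKi hr hball hη hηr _ hn.le) hL.le hT0.1 hT1.1 b0 b1 cφ0 cφ1 hlip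
      ig0 ig1 pg0 pg1 sg0 sg1
    rw [hn] at this
    have h2 : ∫ x, g0 x ∂ρ + 2 * ∫ x, g1 x ∂ρ ≤ 3 * (δ + 2 * R * δ) := by linarith
    have h3 := mul_le_mul_of_nonneg_left h2 (show 0 ≤ 4 * (L * η) by positivity)
    linarith
  have hsumdir := Finset.sum_le_sum fun i (_ : i ∈ Finset.univ) => hdir i
  rw [Finset.sum_const, Finset.card_univ, Fintype.card_fin, nsmul_eq_mul,
    ← integral_finsetSum] at hsumdir
  · refine le_trans (le_of_eq ?_) hsumdir
    rw [← integral_const_mul]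
    congr 1; funext x
    rw [EuclideanSpace.real_norm_sq_eq, Finset.mul_sum]
    refine Finset.sum_congr rfl fun i _ => ?_
    rw [EuclideanSpace.inner_single_left]
    simp [mul_pow]
  · intro i _
    refine Integrable.of_bound
      ((measurable_const.inner (hT0.1.sub hT1.1)).pow_const 2).aestronglyMeasurable
      ((‖(EuclideanSpace.single i η : EuclideanSpace ℝ (Fin d))‖ * (L + L)) ^ 2) ?_
    filter_upwards [b0, b1] with x h0 h1
    rw [Real.norm_eq_abs, abs_pow]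
    refine pow_le_pow_left₀ (abs_nonneg _) ((abs_real_inner_le_norm _ _).trans ?_) 2
    exact mul_le_mul_of_nonneg_left ((norm_sub_le _ _).trans (add_le_add h0 h1)) (norm_nonneg _)

theorem final_arith {I W A B M r : ℝ} (hW : 0 ≤ W) (hA : 0 ≤ A) (hB : 0 ≤ B) (hr : 0 < r)
    (hM : 0 ≤ M) (hI : I ≤ M) (h : ∀ η, 0 < η → η ≤ r → η ^ 2 * I ≤ A * W + B * η ^ 3) :
    I ≤ (A + B + M / r) * W ^ (1 / 3 : ℝ) := by
  set w := W ^ (1 / 3 : ℝ) with hw
  have w0 : 0 ≤ w := Real.rpow_nonneg hW _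
  have w3 : w ^ 3 = W := by
    rw [hw, ← Real.rpow_natCast, ← Real.rpow_mul hW]; norm_num
  have hMr : 0 ≤ M / r := by positivity
  rcases w0.eq_or_lt with h0 | h0
  · have hW0 : W = 0 := by rw [← w3, ← h0]; norm_num
    rw [← h0, mul_zero]
    refine le_of_forall_pos_le_add fun ε hε => ?_
    have hη : 0 < min r (ε / (B + 1)) := lt_min hr (by positivity)
    have h1 := h _ hη (min_le_left _ _)
    set η := min r (ε / (B + 1))
    have h2 : η ≤ ε / (B + 1) := min_le_right _ _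
    rw [le_div_iff₀ (by positivity)] at h2
    rw [hW0, mul_zero, zero_add] at h1
    have h3 : η ^ 2 * I ≤ η ^ 2 * (B * η) := by linarith
    have h4 := le_of_mul_le_mul_left h3 (by positivity)
    nlinarith
  rcases le_total w r with h1 | h1
  · have h2 := h w h0 h1
    rw [← w3] at h2
    have h3 : w ^ 2 * I ≤ w ^ 2 * ((A + B) * w) := by linarith
    have h4 := le_of_mul_le_mul_left h3 (by positivity)
    nlinarith
  · have h2 : M ≤ M / r * w := by
      calc M = M / r * r := by field_simp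
        _ ≤ M / r * w := mul_le_mul_of_nonneg_left h1 hMr
    nlinarith

end Crest.Agent.R82

open MeasureTheory
open scoped ENNReal NNReal
open Crest.AnalysisR.OT
open Crest Crest.AnalysisR Crest.AnalysisR.OT

namespace Crest.Agent.S0109

/-- Fix d ≥ 2, a compact convex K ⊆ ℝᵈ with nonempty interior, ρ the uniform probability measure on K, and a nonempty compact Y ⊆ ℝᵈ. There is a constant C such that for all probability measures μ, ν carried by Y, all quadratic optimal transport maps Tμ from ρ to μ and Tν from ρ to ν, and every coupling π of μ and ν, ∫ ‖Tμ - Tν‖² dρ ≤ C · (∫ ‖y - z‖² dπ)^(1/3). With the best coupling: the L²(ρ) distance of the maps is at most √C times the cube root of the Wasserstein-2 distance of the targets. -/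
theorem result
    (d : ℕ) (hd : 2 ≤ d) (K : Set (EuclideanSpace ℝ (Fin d))) (hKc : IsCompact K) (hKv : Convex ℝ K)
    (hKi : (interior K).Nonempty) (Y : Set (EuclideanSpace ℝ (Fin d))) (hYc : IsCompact Y) (hYn : Y.Nonempty) :
    ∃ C : ℝ≥0, ∀ μ ν : Measure (EuclideanSpace ℝ (Fin d)), IsProbabilityOn Y μ → IsProbabilityOn Y ν →
      ∀ Tμ Tν : EuclideanSpace ℝ (Fin d) → EuclideanSpace ℝ (Fin d),
        IsOptimalMap (uniformProbOn K) μ Tμ → IsOptimalMap (uniformProbOn K) ν Tν →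
        ∀ π : Measure (EuclideanSpace ℝ (Fin d) × EuclideanSpace ℝ (Fin d)), IsPairCoupling μ ν π →
          ∫⁻ x, ‖Tμ x - Tν x‖ₑ ^ 2 ∂(uniformProbOn K) ≤ C * quadCost π ^ (1 / 3 : ℝ) := by
  obtain ⟨R, hR, hKR⟩ := hKc.isBounded.exists_pos_norm_le
  obtain ⟨L, hL, hYL⟩ := hYc.isBounded.exists_pos_norm_le
  obtain ⟨x0, hx0⟩ := id hKi
  obtain ⟨r, hr, hball⟩ := Metric.nhds_basis_closedBall.mem_iff.mp (mem_interior_iff_mem_nhds.mp hx0)
  set A : ℝ := d * (90000 * R ^ 2) with hA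
  set B : ℝ := d * (12 * L ^ 2 * d / r) with hB
  set C : ℝ := A + B + (L + L) ^ 2 / r with hC
  have C0 : 0 ≤ C := by positivity
  refine ⟨C.toNNReal, fun μ ν hμ hν T0 T1 hT0 hT1 γ hγ => ?_⟩
  have hρ := R82.good_unif hKc hKv hKi hR hKR
  have := hρ.prob
  have := hμ.1
  have hμY : ∀ᵐ y ∂μ, y ∈ Y := hμ.2
  have hνY : ∀ᵐ y ∂ν, y ∈ Y := hν.2
  have hμL : ∀ᵐ y ∂μ, ‖y‖ ≤ L := hμY.mono hYL
  have hνL : ∀ᵐ y ∂ν, ‖y‖ ≤ L := hνY.mono hYL
  have b0 := R82.ae_norm_le_of_map hT0.1 hT0.2.1 hμL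
  have b1 := R82.ae_norm_le_of_map hT1.1 hT1.2.1 hνL
  have b2 : ∀ᵐ x ∂(uniformProbOn K), ‖T0 x - T1 x‖ ≤ L + L := by
    filter_upwards [b0, b1] with x h0 h1 using (norm_sub_le _ _).trans (add_le_add h0 h1)
  have : IsProbabilityMeasure γ := by
    constructor
    have := congrArg (fun m : Measure _ => m Set.univ) hγ.1
    simpa [Measure.map_apply measurable_fst MeasurableSet.univ] using this
  have b3 : ∀ᵐ p ∂γ, ‖p.1 - p.2‖ ≤ L + L := by
    filter_upwards [R82.ae_norm_le_of_map measurable_fst hγ.1 hμL,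
      R82.ae_norm_le_of_map measurable_snd hγ.2 hνL] with x h0 h1
      using (norm_sub_le _ _).trans (add_le_add h0 h1)
  have e1 := R82.lintegral_enorm_sq (f := fun x => T0 x - T1 x) (hT0.1.sub hT1.1) b2
  have e2 := R82.lintegral_enorm_sq (f := fun p : EuclideanSpace ℝ (Fin d) × _ => p.1 - p.2)
    (measurable_fst.sub measurable_snd) b3
  set W := ∫ p, ‖p.1 - p.2‖ ^ 2 ∂γ with hW
  set I := ∫ x, ‖T0 x - T1 x‖ ^ 2 ∂(uniformProbOn K) with hI
  have W0 : 0 ≤ W := integral_nonneg fun _ => sq_nonneg _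
  have hIM : I ≤ (L + L) ^ 2 := by
    have := integral_mono_of_nonneg (μ := uniformProbOn K)
      (f := fun x => ‖T0 x - T1 x‖ ^ 2) (g := fun _ => (L + L) ^ 2)
      (Filter.Eventually.of_forall fun _ => sq_nonneg _) (integrable_const _)
      (b2.mono fun x hx => pow_le_pow_left₀ (norm_nonneg _) hx 2)
    simpa using this
  have main : I ≤ C * W ^ (1 / 3 : ℝ) := by
    refine R82.final_arith W0 (by positivity) (by positivity) hr (by positivity) hIM ?_
    intro η hη hηr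
    have hδ := fun δ (hδ : 0 < δ) => R82.main_est (by omega) hKc hKv hKi hR hKR hr hball hYc hL hYL
      hμ hν hT0 hT1 hγ hη hηr hδ
    have hlim : Filter.Tendsto (fun δ : ℝ => (d : ℝ) * (6 * (7500 * R ^ 2 * (2 * W + 8 * δ ^ 2)) +
        12 * (L * η) ^ 2 * (d * (η / r)) + 4 * (L * η) * (3 * (δ + 2 * R * δ))))
        (nhdsWithin 0 (Set.Ioi 0)) (nhds ((d : ℝ) * (6 * (7500 * R ^ 2 * (2 * W + 8 * 0 ^ 2)) +
        12 * (L * η) ^ 2 * (d * (η / r)) + 4 * (L * η) * (3 * (0 + 2 * R * 0))))) := by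
      refine Filter.Tendsto.mono_left (Continuous.tendsto ?_ 0) nhdsWithin_le_nhds
      fun_prop
    have := ge_of_tendsto hlim (eventually_mem_nhdsWithin.mono fun δ h => hδ δ h)
    refine this.trans (le_of_eq ?_)
    rw [hA, hB]
    ring
  rw [e1, quadCost, e2, ENNReal.ofReal_rpow_of_nonneg W0 (by norm_num)]
  have : ((C.toNNReal : ℝ≥0) : ℝ≥0∞) = ENNReal.ofReal C := rfl
  rw [this, ← ENNReal.ofReal_mul C0]
  exact ENNReal.ofReal_le_ofReal main

end Crest.Agent.S0109
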