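import Crest.Statements.S0110
import Crest.Agent.R82B.Basic

set_option autoImplicit false
open MeasureTheory
open scoped ENNReal NNReal
open Crest.AnalysisR.OT
open Crest Crest.AnalysisR Crest.AnalysisR.OT

namespace Crest.Agent.S0110

/-- The exponent one third is optimal, even on the cube with three-atom targets: for d ≥ 2, ρ the uniform probability measure on the cube of points of ℝᵈ with all coordinates in [-1, 1], every α > 1/3 and every C ≥ 0, there are three-atomic probability measures μ, ν on that cube, each admitting a quadratic optimal transport map from ρ, such that for all such optimal maps Tμ, Tν some coupling π of μ, ν has C · (∫ ‖y - z‖² dπ)^α < ∫ ‖Tμ - Tν‖² dρ. Hence ‖Tμ - Tν‖_{L²(ρ)} > √C · W₂(μ, ν)^α. -/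
theorem result
    (d : ℕ) (hd : 2 ≤ d) (α : ℝ) (hα : 1 / 3 < α) (C : ℝ≥0) :
    ∃ μ ν : Measure (EuclideanSpace ℝ (Fin d)),
      IsProbabilityOn {x : EuclideanSpace ℝ (Fin d) | ∀ i, |x i| ≤ 1} μ ∧
      IsProbabilityOn {x : EuclideanSpace ℝ (Fin d) | ∀ i, |x i| ≤ 1} ν ∧
      IsThreeAtomic μ ∧ IsThreeAtomic ν ∧
      (∃ T, IsOptimalMap (uniformProbOn {x : EuclideanSpace ℝ (Fin d) | ∀ i, |x i| ≤ 1}) μ T) ∧
      (∃ T, IsOptimalMap (uniformProbOn {x : EuclideanSpace ℝ (Fin d) | ∀ i, |x i| ≤ 1}) ν T) ∧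
      ∀ Tμ Tν : EuclideanSpace ℝ (Fin d) → EuclideanSpace ℝ (Fin d),
        IsOptimalMap (uniformProbOn {x : EuclideanSpace ℝ (Fin d) | ∀ i, |x i| ≤ 1}) μ Tμ →
        IsOptimalMap (uniformProbOn {x : EuclideanSpace ℝ (Fin d) | ∀ i, |x i| ≤ 1}) ν Tν →
        ∃ π : Measure (EuclideanSpace ℝ (Fin d) × EuclideanSpace ℝ (Fin d)), IsPairCoupling μ ν π ∧
          (C : ℝ≥0∞) * quadCost π ^ α < ∫⁻ x, ‖Tμ x - Tν x‖ₑ ^ 2 ∂(uniformProbOn {x : EuclideanSpace ℝ (Fin d) | ∀ i, |x i| ≤ 1}) := by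
  obtain ⟨n, rfl⟩ : ∃ n, d = n + 2 := ⟨d - 2, by omega⟩
  obtain ⟨h, h0, h1, hlt⟩ := R82B.choose_h α hα C (1 / 4 ^ (n + 2)) (by positivity)
  have habs : |h| ≤ 1 / 2 := by rw [abs_of_pos h0]; exact h1
  have habs' : |-h| ≤ 1 / 2 := by rw [abs_neg]; exact habs
  have hlow := R82B.wedge_lower (n := n) h h0 (by linarith)
  have hup := R82B.wedge_upper (n := n) h h0
  have hw : R82B.rho n (R82B.wedge n h) ≠ 0 := by
    refine ne_of_gt (lt_of_lt_of_le ?_ hlow)
    rw [ENNReal.ofReal_pos]; positivity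
  refine ⟨(R82B.rho n).map (R82B.TT n h), (R82B.rho n).map (R82B.TT n (-h)),
    R82B.probOn h (by linarith), R82B.probOn (-h) (by linarith),
    R82B.threeAtomic_TT h habs hw,
    R82B.threeAtomic_TT (-h) habs' (by rw [R82B.rho_wedge_neg]; exact hw),
    ⟨_, (R82B.opt_TT h).1⟩, ⟨_, (R82B.opt_TT (-h)).1⟩, ?_⟩
  intro S S' hS hS'
  refine ⟨R82B.coup n h, R82B.coup_isCoupling h, ?_⟩
  refine lt_of_lt_of_le ?_ (R82B.lower_int h S S' hS hS')
  refine lt_of_lt_of_le ?_ hlow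
  rw [R82B.cost_coup]
  have h2 : ENNReal.ofReal (4 * h ^ 2) * R82B.rho n (R82B.wedge n h)
      ≤ ENNReal.ofReal (4 * h ^ 3) := by
    calc _ ≤ ENNReal.ofReal (4 * h ^ 2) * ENNReal.ofReal h := by gcongr
      _ = _ := by rw [← ENNReal.ofReal_mul (by positivity)]; congr 1; ring
  calc (C : ℝ≥0∞) * (ENNReal.ofReal (4 * h ^ 2) * R82B.rho n (R82B.wedge n h)) ^ α
      ≤ (C : ℝ≥0∞) * (ENNReal.ofReal (4 * h ^ 3)) ^ α := by
        gcongr
    _ = ENNReal.ofReal (C * (4 * h ^ 3) ^ α) := by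
        rw [ENNReal.ofReal_rpow_of_pos (by positivity), ENNReal.ofReal_mul C.coe_nonneg,
          ENNReal.ofReal_coe_nnreal]
    _ < ENNReal.ofReal (h / 4 ^ (n + 2)) := by
        rw [ENNReal.ofReal_lt_ofReal_iff (by positivity)]
        calc _ < _ := hlt
          _ = _ := by ring

end Crest.Agent.S0110
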