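import Crest.Statements.S0111
import Crest.Agent.R83.ML
import Crest.Agent.R83.NL
import Crest.Agent.R83.ZL
import Crest.Agent.R83.WL
import Crest.Agent.R83.GL
import Crest.Agent.R83.FL
import Crest.Agent.R83.DL
import Crest.Agent.R83.NP
import Crest.Agent.R83.ST
import Crest.Agent.R83.FI
import Crest.Agent.R83.RO
import Crest.Agent.R83.SI1
import Crest.Agent.R83.SI2
import Crest.Agent.R83.SP
import Crest.Agent.R83.RA
import Crest.Agent.R83.EA
import Crest.Agent.R83.GB
import Crest.Agent.R83.FT
import Crest.Agent.R83.OB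
import Crest.Agent.R83.RS
import Crest.Agent.R83.RL
import Crest.Agent.R83.LF
import Crest.Agent.R83.CF
import Crest.Agent.R83.LP
import Crest.Agent.R83.PB
import Crest.Agent.R83.T1
import Crest.Agent.R83.TM
import Crest.Agent.R83.CP
import Crest.Agent.R83.CA
import Crest.Agent.R83.DI
import Crest.Agent.R83.PM
import Crest.Agent.R83.TH
import Crest.Agent.R83.MG
import Crest.Agent.R83.CN
import Crest.Agent.R83.ZP0
import Crest.Agent.R83.ZPI
import Crest.Agent.R83.MD
import Crest.Agent.R83.GE
import Crest.Agent.R83.PK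
import Crest.Agent.R83.PA
import Crest.Agent.R83.GA
import Crest.Agent.R83.TR
import Crest.Agent.R83.AG1
import Crest.Agent.R83.VI
import Crest.Agent.R83.AG2

set_option autoImplicit false
open MeasureTheory
open Crest.AnalysisR.PDE.Calderon
open Crest Crest.AnalysisR Crest.AnalysisR.PDE Crest.AnalysisR.PDE.Calderon

namespace Crest.Agent.S0111

/-- There are two measurable real conductivities on ℝ³, bounded between two positive constants, equal to 1 outside some ball of radius less than 3 (hence near the sphere of radius 3) and differing on a set of positive volume, with the same boundary energies on the ball of radius 3: for every continuously differentiable datum, the infimum of ∫ γ ‖∇u‖² over continuously differentiable u equal to the datum on the sphere is the same for both. Equivalently, their voltage-to-current maps coincide. -/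
theorem result :
    ∃ γ₀ γ₁ : EuclideanSpace ℝ (Fin 3) → ℝ, ∃ c C : ℝ, 0 < c ∧ Measurable γ₀ ∧ Measurable γ₁ ∧
      (∀ x, c ≤ γ₀ x ∧ γ₀ x ≤ C ∧ c ≤ γ₁ x ∧ γ₁ x ≤ C) ∧
      (∃ r : ℝ, r < 3 ∧ ∀ x : EuclideanSpace ℝ (Fin 3), r < ‖x‖ → γ₀ x = 1 ∧ γ₁ x = 1) ∧
      0 < volume {x : EuclideanSpace ℝ (Fin 3) | γ₀ x ≠ γ₁ x} ∧
      SameBoundaryEnergies γ₀ γ₁ := by
  open Crest.Agent.R83 in
  exact by
    have hML : MLStmt := ML_proof
    have hNL : NLStmt := NL_proof hML
    have hZL : ZLStmt := ZL_proof
    have hWL : WLStmt := WL_proof hNL hZL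
    have hGL : GLStmt := GL_proof
    have hFL : FLStmt := FL_proof hGL hZL
    have hDL : DLStmt := DL_proof hML
    have hNP : NPStmt := NP_proof
    have hST : STStmt := ST_proof
    have hFI : FIStmt := FI_proof hGL hST
    have hRO : ROStmt := RO_proof hST
    have hSI1 : SI1Stmt := SI1_proof
    have hSI2 : SI2Stmt := SI2_proof hNL hZL hSI1
    have hSP : SPStmt := SP_proof hSI1
    have hRA : RAStmt := RA_proof hSP hSI2 hFI hRO
    have hEA : EAStmt := EA_proof
    have hGB : GBStmt := GB_proof
    have hFT : FTStmt := FT_proof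
    have hOB : OBStmt := OB_proof hFT hEA hRA hNL hGL hGB
    have hRS : RSStmt := RS_proof hOB hGL hGB
    have hRL : RLStmt := RL_proof hRS hZL
    have hLF : LFStmt := LF_proof
    have hCF : CFStmt := CF_proof
    have hLP : LPStmt := LP_proof hLF hCF
    have hPB : PBStmt := PB_proof hCF
    have hT1 : T1Stmt := T1_proof hLP
    have hTM : TMStmt := TM_proof hT1
    have hCP : CPStmt := CP_proof
    have hCA : CAStmt := CA_proof hCP hTM
    have hDI : DIStmt := DI_proof
    have hPM : PMStmt := PM_proof hDI hCA hTM hT1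
    have hTH : THStmt := TH_proof
    have hMG : MGStmt := MG_proof hLP hTH hGB
    have hCN : CNStmt := CN_proof hTH hCF hZL
    have hZP0 : ZP0Stmt := ZP0_proof hCN hTH
    have hZPI : ZPIStmt := ZPI_proof hCN hTH
    have hMD : MDStmt := MD_proof hGL hNP hGB hCF hPB hPM hTH hMG hZP0 hZPI
    have hGE : GEStmt := GE_proof
    have hPK : PKStmt := PK_proof hGE hCF hNP hZL
    have hPA : PAStmt := PA_proof hGL hWL hZL hNP hST hGB hPB hMD hGE hPK
    have hGA : GAStmt := GA_proof hPA hRL hGB hGE hST hZL hFL
    have hTR : TRStmt := TR_proof hGA hGE hST hZL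
    have hAG1 : AG1Stmt := AG1_proof hTR hZL
    have hVI : VIStmt := VI_proof hDL
    have hAG2 : AG2Stmt := AG2_proof hAG1 hVI hDL hFL hZL
    exact hAG2

end Crest.Agent.S0111
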