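import Crest.Statements.S0122
import Crest.Agent.R92.Tower

set_option autoImplicit false
open Crest.AnalysisR.MassAction
open Crest Crest.AnalysisR Crest.AnalysisR.MassAction

namespace Crest.Agent.S0122

/-- For a finite reaction network on `d ≥ 1` species that is weakly reversible, with positive rate constants and mass-action kinetics, every positive stoichiometric class `P` contains a nonempty compact convex set `K` that is forward invariant and absorbing: from every point of `P` there is a solution defined for all forward time, it is unique, it stays coordinatewise positive, and it lies in `K` from some finite time on. -/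
theorem result
    (d : ℕ) (hd : 1 ≤ d) (R : Network d) (hR : IsWeaklyReversible R)
    (k : (Fin d → ℕ) × (Fin d → ℕ) → ℝ) (hk : ∀ r ∈ R, 0 < k r)
    (c : Fin d → ℝ) (hc : ∀ i, 0 < c i) :
    ∃ K : Set (Fin d → ℝ), K ⊆ positiveClass R c ∧ K.Nonempty ∧ IsCompact K ∧ Convex ℝ K ∧
      (∀ x : ℝ → (Fin d → ℝ), IsForwardSolution (field R k) x → x 0 ∈ K →
        ∀ t : ℝ, 0 ≤ t → x t ∈ K) ∧
      (∀ x₀ ∈ positiveClass R c,
        (∃ x : ℝ → (Fin d → ℝ), IsForwardSolution (field R k) x ∧ x 0 = x₀) ∧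
        (∀ x x' : ℝ → (Fin d → ℝ), IsForwardSolution (field R k) x →
          IsForwardSolution (field R k) x' → x 0 = x₀ → x' 0 = x₀ →
          ∀ t : ℝ, 0 ≤ t → x t = x' t) ∧
        (∀ x : ℝ → (Fin d → ℝ), IsForwardSolution (field R k) x → x 0 = x₀ →
          (∀ t : ℝ, 0 ≤ t → ∀ i, 0 < x t i) ∧
          ∃ T : ℝ, 0 ≤ T ∧ ∀ t : ℝ, T ≤ t → x t ∈ K)) := by
  obtain ⟨K, hK, hKc, hKconv⟩ := R92.tower hd R hR k hk c hc c ⟨hc, by simp⟩
  have hstay : ∀ {x₀ : Fin d → ℝ} {G : Set (Fin d → ℝ)},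
      R92.Nice (field R k) (positiveClass R c) c x₀ G → IsCompact G →
      ∀ x : ℝ → (Fin d → ℝ), IsForwardSolution (field R k) x → x 0 ∈ G →
        ∀ t : ℝ, 0 ≤ t → x t ∈ G := fun hG hGc x hx hx0 =>
    R92.stay hG hGc.isClosed isOpen_univ (Set.subset_univ _) (fun _ _ => rfl)
      (R92.field_mem R k) hx hx0
  refine ⟨K, hK.subset, ⟨c, hK.mem0⟩, hKc, hKconv, hstay hK hKc, fun x₀ hx₀ => ?_⟩
  obtain ⟨G, hG, hGc, -⟩ := R92.tower hd R hR k hk c hc x₀ hx₀
  refine ⟨?_, ?_, ?_⟩
  · obtain ⟨M, hM0, hM⟩ := hGc.isBounded.subset_ball_lt 0 0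
    let χ : ContDiffBump (0 : Fin d → ℝ) := ⟨M, M + 1, hM0, by linarith⟩
    let g : (Fin d → ℝ) → (Fin d → ℝ) := fun y => χ y • field R k y
    have hg1 : ContDiff ℝ 1 g := χ.contDiff.smul (R92.field_contDiff R k)
    have hg2 : HasCompactSupport g := χ.hasCompactSupport.smul_right
    obtain ⟨Kl, hKl⟩ := ContDiff.lipschitzWith_of_hasCompactSupport hg2 hg1 one_ne_zero
    obtain ⟨L, hL⟩ := hg1.continuous.bounded_above_of_compact_support hg2
    obtain ⟨x, hx, hx0⟩ := R92.global_exists hKl hL x₀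
    have hfg : ∀ y ∈ Metric.ball (0 : Fin d → ℝ) M, g y = field R k y := fun y hy => by
      simp only [g]
      rw [χ.one_of_mem_closedBall (Metric.ball_subset_closedBall hy), one_smul]
    have hin := R92.stay hG hGc.isClosed Metric.isOpen_ball hM hfg
      (fun y => Submodule.smul_mem _ _ (R92.field_mem R k y)) hx (hx0 ▸ hG.mem1)
    refine ⟨x, fun t ht => ?_, hx0⟩
    rw [← hfg _ (hM (hin t ht))]
    exact hx t ht
  · intro x x' hx hx' h0 h0' t ht
    obtain ⟨Kl, hKl⟩ := ((R92.field_contDiff R k).locallyLipschitz.locallyLipschitzOn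
      (s := G)).exists_lipschitzOnWith_of_compact hGc
    exact ODE_solution_unique_of_mem_Icc_right (v := fun _ => field R k) (s := fun _ => G)
      (K := Kl) (a := 0) (b := t) (fun _ _ => hKl)
      ((R92.fwd_cont hx).mono Set.Icc_subset_Ici_self) (fun s hs => R92.fwd_right hx hs.1)
      (fun s hs => hstay hG hGc x hx (h0 ▸ hG.mem1) s hs.1)
      ((R92.fwd_cont hx').mono Set.Icc_subset_Ici_self) (fun s hs => R92.fwd_right hx' hs.1)
      (fun s hs => hstay hG hGc x' hx' (h0' ▸ hG.mem1) s hs.1) (by rw [h0, h0'])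
      (Set.right_mem_Icc.2 ht)
  · intro x hx h0
    have hin := hstay hG hGc x hx (h0 ▸ hG.mem1)
    refine ⟨fun t ht => (hG.subset (hin t ht)).1, ?_⟩
    obtain ⟨T, hT, hxT⟩ := hK.attr x G hGc hG.subset (R92.fwd_sol hx) hin
    exact ⟨T, hT, fun t ht => hK.inv x T t ht ((R92.fwd_sol hx t).mono hT le_rfl)
      (fun s hs => hG.subset (hin s (hT.trans hs.1))) hxT⟩

end Crest.Agent.S0122
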