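import Crest.Statements.S0129
import Crest.Agent.R98.Fin

set_option autoImplicit false
open MeasureTheory Crest.AnalysisR
open Crest Crest.AnalysisR
open Crest.Agent.R98

namespace Crest.Agent.S0129

/-- For a finite nonempty indexed family of maps x ↦ rᵢx + tᵢ of the real line, each rᵢ nonzero with absolute value less than 1, and a strictly positive probability vector p, every probability measure μ equal to ∑ᵢ pᵢ · (μ pushed forward by map i) has lower Hausdorff dimension min(1, h/χ). Here h is the infimum over n ≥ 1 of 1/n times the entropy of the composed map of a p-random word of length n, words with equal maps being identified, and χ = -∑ᵢ pᵢ log(abs rᵢ); logarithms are natural. -/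
theorem result
    {ι : Type*} [Fintype ι] [Nonempty ι] (r t p : ι → ℝ)
    (hr : ∀ i, r i ≠ 0 ∧ |r i| < 1) (hp : ∀ i, 0 < p i) (hp₁ : ∑ i, p i = 1)
    (μ : Measure ℝ) (hμ : IsSelfSimilarMeasure r t p μ) :
    lowerHausdorffDim μ = ENNReal.ofReal (min 1 (rwEntropyRate r t p / lyapunovExp r p)) := by
  have := hμ.1
  have hP : IsP (sysP r t p) := isP_sysP hp hp₁
  have hS : St μ (sysP r t p) := st_sysP hp hμ
  obtain ⟨i₀, -, hi₀⟩ := Finset.exists_min_image Finset.univ (fun i => |r i|) Finset.univ_nonempty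
  have hl : 0 < |r i₀| := abs_pos.2 (hr i₀).1
  have ha : ∀ g ∈ sp (sysP r t p), |r i₀| ≤ |g.a| ∧ |g.a| < 1 := fun g hg => by
    obtain ⟨i, rfl⟩ := mem_sp_sysP hg
    exact ⟨hi₀ i (Finset.mem_univ _), (hr i).2⟩
  have ha0 : ∀ g ∈ sp (sysP r t p), g.a ≠ 0 := fun g hg => abs_pos.1 (hl.trans_le (ha g hg).1)
  have hχ : 0 < lyapunovExp r p := by
    rw [lyapunovExp, ← Finset.sum_neg_distrib]
    refine Finset.sum_pos (fun i _ => ?_) Finset.univ_nonempty
    have := Real.log_neg (abs_pos.2 (hr i).1) (hr i).2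
    have := hp i
    nlinarith
  have hnn : ∀ m : ℕ, 0 ≤ composedMapEntropy r t p (m + 1) / ((m : ℝ) + 1) := fun m => by
    rw [composedMapEntropy_eq hp]
    exact div_nonneg (Ent_nonneg (hP.pow _)) (by positivity)
  have hbdd : BddBelow (Set.range fun m : ℕ => composedMapEntropy r t p (m + 1) / ((m : ℝ) + 1)) :=
    ⟨0, by rintro _ ⟨m, rfl⟩; exact hnn m⟩
  have hh : ∀ n : ℕ, rwEntropyRate r t p * n ≤ Ent (sysP r t p ^ n) := by
    intro n
    cases n with
    | zero => simpa using Ent_nonneg (hP.pow 0)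
    | succ m =>
      have h1 : rwEntropyRate r t p ≤ _ := ciInf_le hbdd m
      rw [composedMapEntropy_eq hp, le_div_iff₀ (by positivity)] at h1
      push_cast
      exact h1
  have h0 : 0 ≤ rwEntropyRate r t p := le_ciInf hnn
  have hle : ∀ E : Set ℝ, MeasurableSet E → 0 < μ E → lowerHausdorffDim μ ≤ dimH E :=
    fun E h1 h2 => iInf_le_of_le E (iInf_le_of_le h1 (iInf_le _ h2))
  apply le_antisymm
  · rw [ENNReal.ofReal_min]
    refine le_min ?_ ?_
    · have := hle Set.univ MeasurableSet.univ (by simp)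
      rwa [Real.dimH_univ, ← ENNReal.ofReal_one] at this
    · refine le_of_forall_gt_imp_ge_of_dense fun c hc => ?_
      rcases eq_or_ne c ⊤ with rfl | hc'
      · exact le_top
      rw [← ENNReal.ofReal_toReal hc'] at hc ⊢
      set s := c.toReal
      have h1 : rwEntropyRate r t p / lyapunovExp r p < s :=
        (ENNReal.ofReal_lt_ofReal_iff_of_nonneg (div_nonneg h0 hχ.le)).1 hc
      have hs0 : 0 < s := (div_nonneg h0 hχ.le).trans_lt h1
      rw [div_lt_iff₀ hχ] at h1
      obtain ⟨m, hm⟩ := exists_lt_of_ciInf_lt h1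
      rw [composedMapEntropy_eq hp, div_lt_iff₀ (by positivity)] at hm
      have hb := mem_sp_pow_bounds hl ha (n := m + 1) (by omega)
      obtain ⟨E, hE1, hE2, hE3⟩ := upper (hS.bp hP fun g hg => (ha g hg).2) (hP.pow (m + 1))
        (hS.pow (m + 1)) (fun g hg => ⟨abs_pos.1 ((pow_pos hl _).trans_le (hb g hg).1), (hb g hg).2⟩)
        hs0 (by
          rw [lyap_pow hP ha0, lyap_sysP]
          push_cast
          linarith)
      exact (hle E hE1 hE2).trans hE3
  · refine le_iInf fun E => le_iInf fun hE => le_iInf fun hpos => ?_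
    have := dim_lower hP hS hl (hr i₀).2.le ha hh (by rw [lyap_sysP]; exact hχ) hE hpos
    rwa [lyap_sysP] at this

end Crest.Agent.S0129
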