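import Crest.Statements.S0143
import Crest.Agent.R109.Final

set_option autoImplicit false
open Crest Crest.AnalysisR Crest.AnalysisR.OperatorAlgebra

namespace Crest.Agent.S0143

/-- Let 0 < ε < 1 and r = ⌈400000000/ε²⌉ + ⌈4/ε⌉ + 1. For every von Neumann algebra M on a complex Hilbert space H, every maximal abelian unital ⋆-subalgebra A of M, every self-adjoint x in M, every finite set F of vectors and every δ > 0, there are r pairwise orthogonal projections p_i in A summing to 1 (some may be 0), a self-adjoint a in A with ‖a‖ ≤ ‖x‖ and a projection q in M with ‖(1 − q)ξ‖ < δ for ξ in F and ‖q(∑ p_i x p_i − a)q‖ ≤ ε‖x‖. -/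
theorem result (ε : ℝ) (hε : 0 < ε) (hε1 : ε < 1)
    (H : Type*) [NormedAddCommGroup H] [InnerProductSpace ℂ H] [CompleteSpace H] (M : VonNeumannAlgebra H) (A : StarSubalgebra ℂ (H →L[ℂ] H))
    (hAM : A ≤ M.toStarSubalgebra) (hA : ∀ a ∈ A, ∀ b ∈ A, a * b = b * a)
    (hAmax : ∀ y ∈ M, (∀ a ∈ A, a * y = y * a) → y ∈ A)
    (x : H →L[ℂ] H) (hxM : x ∈ M) (hx : IsSelfAdjoint x) (F : Finset H) (δ : ℝ) (hδ : 0 < δ) :
    ∃ p : Fin (Nat.ceil (400000000 / ε ^ 2) + Nat.ceil (4 / ε) + 1) → (H →L[ℂ] H),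
      (∀ i, p i ∈ A ∧ IsStarProjection (p i)) ∧ (∀ i j, i ≠ j → p i * p j = 0) ∧
      ∑ i, p i = 1 ∧
      ∃ a ∈ A, IsSelfAdjoint a ∧ ‖a‖ ≤ ‖x‖ ∧
        ∃ q ∈ M, IsStarProjection q ∧ (∀ ξ ∈ F, ‖(1 - q) ξ‖ < δ) ∧
          ‖q * (∑ i, p i * x * p i - a) * q‖ ≤ ε * ‖x‖ := by
  classical
  obtain ⟨A', hA', hm⟩ := R109.exists_masa M A hAM hA hAmax
  set r₁ := Nat.ceil (400000000 / ε ^ 2) with hr₁
  set r₂ := Nat.ceil (4 / ε) with hr₂
  have h₁ : 400000000 / ε ^ 2 ≤ r₁ := Nat.le_ceil _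
  have h₂ : 4 / ε ≤ r₂ := Nat.le_ceil _
  have p₁ : (0 : ℝ) < r₁ := lt_of_lt_of_le (by positivity) h₁
  have p₂ : (0 : ℝ) < r₂ := lt_of_lt_of_le (by positivity) h₂
  haveI : NeZero r₁ := ⟨by exact_mod_cast p₁.ne'⟩
  haveI : NeZero r₂ := ⟨by exact_mod_cast p₂.ne'⟩
  have e₁ : 250 / Real.sqrt r₁ ≤ ε / 80 := by
    have : 20000 / ε ≤ Real.sqrt r₁ := Real.le_sqrt_of_sq_le (by
      rw [div_pow]; norm_num; exact h₁)
    rw [div_le_iff₀ (Real.sqrt_pos.2 p₁)]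
    rw [div_le_iff₀ hε] at this
    nlinarith
  have e₂ : 2 / (r₂ : ℝ) ≤ ε / 2 := by
    rw [div_le_iff₀ p₂]
    rw [div_le_iff₀ hε] at h₂
    nlinarith
  set c : ℝ := ‖x‖ with hc
  have hc0 : 0 ≤ c := norm_nonneg _
  set x₀ : H →L[ℂ] H := c⁻¹ • x with hx₀
  have hxx : x = c • x₀ := by
    rcases hc0.eq_or_lt with h | h
    · have : x = 0 := norm_eq_zero.1 h.symm
      rw [hx₀, this]; simp
    · rw [hx₀, smul_smul, mul_inv_cancel₀ h.ne', one_smul]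
  have hn₀ : ‖x₀‖ ≤ 1 := by
    rw [hx₀, norm_smul, norm_inv, Real.norm_of_nonneg hc0]
    exact inv_mul_le_one_of_le₀ le_rfl hc0
  have hκ : 0 < min (δ / 2) (ε / 4) := lt_min (by positivity) (by positivity)
  obtain ⟨p, hp, a, haA, has, han, q, hqM, hq, hqF, hb⟩ := R109.final143 hm
    (R124.rsmul_mem c⁻¹ hxM) ((IsSelfAdjoint.all c⁻¹).smul hx) hn₀ r₁ r₂ F hκ
  have hcard : Fintype.card (Fin (r₁ + r₂ + 1)) = Fintype.card (Option (Fin r₁) ⊕ Fin r₂) := by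
    simp; ring
  let e := Fintype.equivOfCardEq hcard
  have hp' := hp.equiv e
  refine ⟨p ∘ e, fun i => ⟨(hA' _).1 (hp'.mem i), hp'.proj i⟩, hp'.orth, hp'.sum, c • a,
    (hA' _).1 (R124.rsmul_mem c haA), (IsSelfAdjoint.all c).smul has, ?_, q, hqM, hq,
    fun ξ hξ => (hqF ξ hξ).trans_lt ((min_le_left _ _).trans_lt (by linarith)), ?_⟩
  · rw [norm_smul, Real.norm_of_nonneg hc0]
    exact (mul_le_mul_of_nonneg_left (han.trans hn₀) hc0).trans (mul_one c).le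
  · have h1 : ∑ i, (p ∘ e) i * x * (p ∘ e) i = c • R109.EP p x₀ := by
      rw [← R109.EP_equiv p e, R109.EP, Finset.smul_sum]
      refine Finset.sum_congr rfl fun i _ => ?_
      conv_lhs => rw [hxx]
      simp only [mul_smul_comm, smul_mul_assoc]
    rw [h1, ← smul_sub, mul_smul_comm, smul_mul_assoc, norm_smul, Real.norm_of_nonneg hc0,
      mul_comm ε]
    refine mul_le_mul_of_nonneg_left (hb.trans ?_) hc0
    have := min_le_right (δ / 2) (ε / 4)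
    linarith

end Crest.Agent.S0143
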