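import Crest.Statements.S0144
import Crest.Agent.R109.Final

set_option autoImplicit false
universe u
open Crest Crest.AnalysisR Crest.AnalysisR.OperatorAlgebra

namespace Crest.Agent.S0144

/-- For some constant C > 0 and every 0 < ε < 1, some natural number R ≤ C/ε⁶ has this property: for every von Neumann algebra M on a complex Hilbert space, every maximal abelian unital ⋆-subalgebra A of M, every self-adjoint x in M, every finite set F of vectors and δ > 0, there are a self-adjoint y in M with ‖y‖ ≤ 3‖x‖ and ‖(y − x)ξ‖ < δ for ξ in F, R pairwise orthogonal projections p_i in A with sum 1 (some may be 0), and a self-adjoint a in A with ‖a‖ ≤ ‖y‖ and ‖∑ p_i y p_i − a‖ ≤ ε‖y‖. -/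
theorem result :
    ∃ C : ℝ, 0 < C ∧ ∀ ε : ℝ, 0 < ε → ε < 1 → ∃ R : ℕ, (R : ℝ) ≤ C / ε ^ 6 ∧
      ∀ (H : Type u) [NormedAddCommGroup H] [InnerProductSpace ℂ H] [CompleteSpace H]
        (M : VonNeumannAlgebra H) (A : StarSubalgebra ℂ (H →L[ℂ] H)),
        A ≤ M.toStarSubalgebra → (∀ a ∈ A, ∀ b ∈ A, a * b = b * a) →
        (∀ y ∈ M, (∀ a ∈ A, a * y = y * a) → y ∈ A) →
        ∀ x ∈ M, IsSelfAdjoint x → ∀ (F : Finset H) (δ : ℝ), 0 < δ →
          ∃ y ∈ M, IsSelfAdjoint y ∧ ‖y‖ ≤ 3 * ‖x‖ ∧ (∀ ξ ∈ F, ‖(y - x) ξ‖ < δ) ∧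
            ∃ p : Fin R → (H →L[ℂ] H),
              (∀ i, p i ∈ A ∧ IsStarProjection (p i)) ∧ (∀ i j, i ≠ j → p i * p j = 0) ∧
              ∑ i, p i = 1 ∧
              ∃ a ∈ A, IsSelfAdjoint a ∧ ‖a‖ ≤ ‖y‖ ∧ ‖∑ i, p i * y * p i - a‖ ≤ ε * ‖y‖ := by
  classical
  refine ⟨10 ^ 9, by norm_num, fun ε hε hε1 => ?_⟩
  set r₁ := Nat.ceil (400000000 / ε ^ 2) with hr₁
  set r₂ := Nat.ceil (40 / ε) with hr₂
  have h₁ : 400000000 / ε ^ 2 ≤ r₁ := Nat.le_ceil _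
  have h₂ : 40 / ε ≤ r₂ := Nat.le_ceil _
  have p₁ : (0 : ℝ) < r₁ := lt_of_lt_of_le (by positivity) h₁
  have p₂ : (0 : ℝ) < r₂ := lt_of_lt_of_le (by positivity) h₂
  haveI : NeZero r₁ := ⟨by exact_mod_cast p₁.ne'⟩
  haveI : NeZero r₂ := ⟨by exact_mod_cast p₂.ne'⟩
  have e₁ : 750 / Real.sqrt r₁ ≤ 3 * ε / 80 := by
    have : 20000 / ε ≤ Real.sqrt r₁ := Real.le_sqrt_of_sq_le (by
      rw [div_pow]; norm_num; exact h₁)
    rw [div_le_iff₀ (Real.sqrt_pos.2 p₁)]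
    rw [div_le_iff₀ hε] at this
    nlinarith
  have e₂ : 1 / (r₂ : ℝ) ≤ ε / 40 := by
    rw [div_le_iff₀ p₂]
    rw [div_le_iff₀ hε] at h₂
    nlinarith
  refine ⟨r₁ + r₂ + 1, ?_, ?_⟩
  · have a₁ : (r₁ : ℝ) ≤ 400000000 / ε ^ 2 + 1 := (Nat.ceil_lt_add_one (by positivity)).le
    have a₂ : (r₂ : ℝ) ≤ 40 / ε + 1 := (Nat.ceil_lt_add_one (by positivity)).le
    have b6 : ∀ k : ℕ, k ≤ 6 → 1 / ε ^ k ≤ 1 / ε ^ 6 := fun k hk =>
      one_div_le_one_div_of_le (by positivity) (pow_le_pow_of_le_one hε.le hε1.le hk)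
    have b2 := b6 2 (by norm_num)
    have b1 := b6 1 (by norm_num)
    have b0 := b6 0 (by norm_num)
    rw [pow_one] at b1
    rw [pow_zero, div_one] at b0
    push_cast
    have q2 : 400000000 / ε ^ 2 = 400000000 * (1 / ε ^ 2) := by ring
    have q1 : 40 / ε = 40 * (1 / ε) := by ring
    have q6 : (10 : ℝ) ^ 9 / ε ^ 6 = 10 ^ 9 * (1 / ε ^ 6) := by ring
    rw [q6]
    rw [q2] at a₁
    rw [q1] at a₂
    nlinarith
  intro H _ _ _ M A hAM hA hAmax x hxM hx F δ hδ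
  obtain ⟨A', hA', hm⟩ := R109.exists_masa M A hAM hA hAmax
  have hcard : Fintype.card (Fin (r₁ + r₂ + 1)) = Fintype.card (Option (Fin r₁) ⊕ Fin r₂) := by
    simp; ring
  let e := Fintype.equivOfCardEq hcard
  set c : ℝ := ‖x‖ with hc
  have hc0 : 0 ≤ c := norm_nonneg _
  rcases hc0.eq_or_lt with h0 | h0
  · have hx0 : x = 0 := norm_eq_zero.1 h0.symm
    obtain ⟨y, -, -, -, -, p, hp, -⟩ := R109.final144 hm (zero_mem M) (IsSelfAdjoint.zero _)
      (by simp) r₁ r₂ F one_pos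
    have hp' := hp.equiv e
    exact ⟨0, zero_mem M, IsSelfAdjoint.zero _, by simp [hc0], fun ξ _ => by simp [hx0, hδ], p ∘ e,
      fun i => ⟨(hA' _).1 (hp'.mem i), hp'.proj i⟩, hp'.orth, hp'.sum, 0, zero_mem A,
      IsSelfAdjoint.zero _, by simp, by simp⟩
  set x₀ : H →L[ℂ] H := c⁻¹ • x with hx₀
  have hxx : x = c • x₀ := by rw [hx₀, smul_smul, mul_inv_cancel₀ h0.ne', one_smul]
  have hn₀ : ‖x₀‖ = 1 := by
    rw [hx₀, norm_smul, norm_inv, Real.norm_of_nonneg hc0]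
    exact inv_mul_cancel₀ h0.ne'
  obtain ⟨ξ₀, hξ₀, hξ₀'⟩ := x₀.exists_lt_apply_of_lt_opNorm (r := 3 / 4) (by rw [hn₀]; norm_num)
  have hκ : 0 < min (δ / (2 * c)) (ε / 40) := lt_min (by positivity) (by positivity)
  have hκ' : min (δ / (2 * c)) (ε / 40) ≤ ε / 40 := min_le_right _ _
  obtain ⟨y, hyM, hys, hyn, hyF, p, hp, a, haA, has, hb⟩ := R109.final144 hm
    (R124.rsmul_mem c⁻¹ hxM) ((IsSelfAdjoint.all c⁻¹).smul hx) hn₀.le r₁ r₂ (insert ξ₀ F) hκ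
  have hp' := hp.equiv e
  have hy2 : 1 / 2 ≤ ‖y‖ := by
    have t1 := hyF ξ₀ (Finset.mem_insert_self _ _)
    have t2 : ‖y ξ₀‖ ≤ ‖y‖ := (y.le_opNorm ξ₀).trans (mul_le_of_le_one_right (norm_nonneg _) hξ₀.le)
    have t3 : ‖x₀ ξ₀‖ ≤ ‖y ξ₀‖ + ‖(y - x₀) ξ₀‖ := by
      have : x₀ ξ₀ = y ξ₀ - (y - x₀) ξ₀ := by simp
      conv_lhs => rw [this]
      exact norm_sub_le _ _
    linarith
  have hb' : ‖R109.EP p y - a‖ ≤ ε / 8 := by linarith
  have han : ‖a‖ ≤ ‖y‖ + ε / 8 := by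
    have t1 := R109.norm_EP_le hp.toPart0 y
    have : a = R109.EP p y - (R109.EP p y - a) := by abel
    have t2 : ‖a‖ ≤ ‖R109.EP p y‖ + ‖R109.EP p y - a‖ := by
      conv_lhs => rw [this]
      exact norm_sub_le _ _
    linarith
  set t : ℝ := ‖y‖ / (‖y‖ + ε / 8) with ht
  have hd : 0 < ‖y‖ + ε / 8 := by positivity
  have ht0 : 0 ≤ t := by positivity
  have ht1 : t ≤ 1 := by rw [ht, div_le_one hd]; linarith
  have hta : ‖t • a‖ ≤ ‖y‖ := by
    rw [norm_smul, Real.norm_of_nonneg ht0]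
    refine (mul_le_mul_of_nonneg_left han ht0).trans ?_
    rw [ht, div_mul_cancel₀ _ hd.ne']
  have hta' : ‖a - t • a‖ ≤ ε / 8 := by
    have : a - t • a = (1 - t) • a := by rw [sub_smul, one_smul]
    rw [this, norm_smul, Real.norm_of_nonneg (by linarith)]
    refine (mul_le_mul_of_nonneg_left han (by linarith)).trans (le_of_eq ?_)
    rw [ht]; field_simp; ring
  have hny : ‖c • y‖ = c * ‖y‖ := by rw [norm_smul, Real.norm_of_nonneg hc0]
  refine ⟨c • y, R124.rsmul_mem c hyM, (IsSelfAdjoint.all c).smul hys, ?_, fun ξ hξ => ?_, p ∘ e,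
    fun i => ⟨(hA' _).1 (hp'.mem i), hp'.proj i⟩, hp'.orth, hp'.sum, c • t • a,
    (hA' _).1 (R124.rsmul_mem c (R124.rsmul_mem t haA)),
    (IsSelfAdjoint.all c).smul ((IsSelfAdjoint.all t).smul has), ?_, ?_⟩
  · rw [hny]; nlinarith
  · have t1 := (hyF ξ (Finset.mem_insert_of_mem hξ)).trans (min_le_left _ _)
    have : (c • y - x) ξ = c • (y - x₀) ξ := by
      conv_lhs => rw [hxx]
      rw [← smul_sub]; rfl
    rw [this, norm_smul, Real.norm_of_nonneg hc0]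
    refine (mul_le_mul_of_nonneg_left t1 hc0).trans_lt ?_
    have : c * (δ / (2 * c)) = δ / 2 := by field_simp
    rw [this]; linarith
  · rw [hny, norm_smul, Real.norm_of_nonneg hc0]
    exact mul_le_mul_of_nonneg_left hta hc0
  · have h1 : ∑ i, (p ∘ e) i * (c • y) * (p ∘ e) i = c • R109.EP p y := by
      rw [← R109.EP_equiv p e, R109.EP, Finset.smul_sum]
      refine Finset.sum_congr rfl fun i _ => ?_
      simp only [mul_smul_comm, smul_mul_assoc]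
    rw [h1, ← smul_sub, hny, norm_smul, Real.norm_of_nonneg hc0, mul_left_comm]
    refine mul_le_mul_of_nonneg_left ?_ hc0
    have : R109.EP p y - t • a = (R109.EP p y - a) + (a - t • a) := by abel
    rw [this]
    refine (norm_add_le _ _).trans ?_
    nlinarith

end Crest.Agent.S0144
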