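import Crest.Statements.S0145
import Crest.Agent.R110.Main

set_option autoImplicit false
open Crest Crest.AnalysisR Crest.AnalysisR.OperatorAlgebra

namespace Crest.Agent.S0145

/-- Let C be a complex C⋆-algebra, possibly without unit, in which every positive element h is properly infinite (for every ε > 0 some r, s satisfy ‖r⋆hr − h‖ < ε, ‖s⋆hs − h‖ < ε, ‖r⋆hs‖ < ε; this is h ⊕ h ≾ h written entrywise). Then for all positive a, b, every c and every ε > 0 there are s, t in C with ‖s⋆as − a‖ < ε, ‖t⋆bt − b‖ < ε and ‖s⋆ct‖ < ε. Positive elements are those of the form x⋆x. -/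
theorem result
    (C : Type*) [NonUnitalCStarAlgebra C]
    (hC : ∀ x : C, Crest.OpAlg.IsProperlyInfinite (star x * x))
    (a b c : C) (ha : ∃ x : C, a = star x * x) (hb : ∃ y : C, b = star y * y) (ε : ℝ) (hε : 0 < ε) :
    ∃ s t : C, ‖star s * a * s - a‖ < ε ∧ ‖star t * b * t - b‖ < ε ∧ ‖star s * c * t‖ < ε := by
  let := CStarAlgebra.spectralOrder (Unitization ℂ C)
  have := CStarAlgebra.spectralOrderedRing (Unitization ℂ C)
  let A : R110.RI (Unitization ℂ C) :=
    { s := {z | z.fst = 0}
      zero := rfl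
      add := fun {u v} hu hv => by
        change (u + v).fst = 0
        rw [Unitization.fst_add, show u.fst = 0 from hu, show v.fst = 0 from hv, add_zero]
      mul := fun {u} r hu => by
        change (u * r).fst = 0
        rw [Unitization.fst_mul, show u.fst = 0 from hu, zero_mul]
      closed := isClosed_eq Unitization.continuous_fst continuous_const }
  have hrange : ∀ z : Unitization ℂ C, z.fst = 0 → ∃ z' : C, z = (z' : Unitization ℂ C) :=
    fun z hz => ⟨z.snd, by
      conv_lhs => rw [← Unitization.inl_fst_add_inr_snd_eq z, hz]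
      simp⟩
  have hA : R110.PI A := by
    intro v hv δ hδ
    obtain ⟨v, rfl⟩ := hrange v hv
    obtain ⟨r, s, h1, h2, h3⟩ := hC v δ hδ
    refine ⟨r, s, ?_, ?_, ?_⟩
    · rw [← Unitization.norm_inr (𝕜 := ℂ)] at h1
      simpa using h1
    · rw [← Unitization.norm_inr (𝕜 := ℂ)] at h2
      simpa using h2
    · rw [← Unitization.norm_inr (𝕜 := ℂ)] at h3
      simpa using h3
  obtain ⟨x, rfl⟩ := ha
  obtain ⟨y, rfl⟩ := hb
  obtain ⟨k, v, l, w, hv, hw, h1, h2, h3⟩ := R110.diag A hA
    (a := ((star x * x : C) : Unitization ℂ C)) (b := ((star y * y : C) : Unitization ℂ C))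
    (by rw [Unitization.inr_mul, Unitization.inr_star]; exact star_mul_self_nonneg _)
    (by rw [Unitization.inr_mul, Unitization.inr_star]; exact star_mul_self_nonneg _)
    rfl rfl (c : Unitization ℂ C) hε
  obtain ⟨s, hs⟩ := hrange (k * v) (by rw [Unitization.fst_mul, show v.fst = 0 from hv, mul_zero])
  obtain ⟨t, ht⟩ := hrange (l * w) (by rw [Unitization.fst_mul, show w.fst = 0 from hw, mul_zero])
  rw [hs] at h1 h3
  rw [ht] at h2 h3
  refine ⟨s, t, ?_, ?_, ?_⟩
  · rw [← Unitization.norm_inr (𝕜 := ℂ)]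
    simpa using h1
  · rw [← Unitization.norm_inr (𝕜 := ℂ)]
    simpa using h2
  · rw [← Unitization.norm_inr (𝕜 := ℂ)]
    simpa using h3

end Crest.Agent.S0145
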