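import Crest.Statements.S0153
import Crest.Agent.R114.BC0
import Crest.Agent.R114.BDR
import Crest.Agent.R114.BHJ
import Crest.Agent.R114.BHelly
import Crest.Agent.R114.BKey
import Crest.Agent.R114.BKhin
import Crest.Agent.R114.BL2
import Crest.Agent.R114.BPart
import Crest.Agent.R114.BQ0
import Crest.Agent.R114.BQ1
import Crest.Agent.R114.BSelect
import Crest.Agent.R114.BSupp
import Crest.Agent.R114.BSurj

set_option autoImplicit false
open Crest.AnalysisR
open Crest Crest.AnalysisR

namespace Crest.Agent.S0153

/-- Assume that the continuum is real-valued measurable: some probability measure defined on all subsets of the real line vanishes on singletons and is additive over every pairwise disjoint family of fewer than continuum many sets. Then, over the real or the complex field, every infinite-dimensional Banach space has a closed linear subspace whose quotient is separable and infinite-dimensional. -/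
theorem result
    (𝕜 : Type) [RCLike 𝕜] (hc : ContinuumRVM)
    (X : Type*) [NormedAddCommGroup X] [NormedSpace 𝕜 X] [CompleteSpace X]
    (hX : ¬ FiniteDimensional 𝕜 X) :
    ∃ M : Submodule 𝕜 X, IsClosed (M : Set X) ∧
      TopologicalSpace.SeparableSpace (X ⧸ M) ∧ ¬ FiniteDimensional 𝕜 (X ⧸ M) := by
  open Crest.Agent.R114 in
  exact assembleB part_proof (key_proof dr_proof (q1_proof q0_proof)) select_proof
    (supp_proof q0_proof helly_proof) hj_proof (c0_proof surj_proof)
    (l2_proof surj_proof khin_proof) hc hX

end Crest.Agent.S0153
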