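import Crest.Statements.S0158
import Crest.Agent.R118.GEN
import Crest.Agent.R118.KER
import Crest.Agent.R118.LIFT1
import Crest.Agent.R118.LIFT2
import Crest.Agent.R118.WALH
import Crest.Agent.R118.ROW
import Crest.Agent.R118.COL
import Crest.Agent.R118.KAT2
import Crest.Agent.R118.KAT3
import Crest.Agent.R118.KAT1
import Crest.Agent.R118.LIP
import Crest.Agent.R118.CORE0
import Crest.Agent.R118.CORE
import Crest.Agent.R118.RED1
import Crest.Agent.R118.RED2
import Crest.Agent.R118.ONE
import Crest.Agent.R118.FULL
import Crest.Agent.R118.MONO
import Crest.Agent.R118.FINR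
import Crest.Agent.R118.CPT
import Crest.Agent.R118.WALK
import Crest.Agent.R118.WALT
import Crest.Agent.R118.WALM
import Crest.Agent.R118.WALR
import Crest.Agent.R118.PAR
import Crest.Agent.R118.COT
import Crest.Agent.R118.BOOT
import Crest.Agent.R118.CNT
import Crest.Agent.R118.REST
import Crest.Agent.R118.KAT0
import Crest.Agent.R118.CONV
import Crest.Agent.R118.LAM
import Crest.Agent.R118.TRIV
import Crest.Agent.R118.DECAY

set_option autoImplicit false
open Crest.AnalysisR
open Crest Crest.AnalysisR

namespace Crest.Agent.S0158

/-- Let X be a nonzero real Banach space with the approximation property. If X has Rademacher cotype q with some constant and its dual space has Rademacher cotype r with some constant, for some q, r ≥ 2 (possibly different), then X is K-convex: its Rademacher projections are bounded on L₂ of the sign cubes uniformly in the dimension. Averages over signs are exact finite averages. -/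
theorem result
    (X : Type*) [NormedAddCommGroup X] [NormedSpace ℝ X] [CompleteSpace X] [Nontrivial X]
    (hAP : HasApproximationProperty X) (q r C D : ℝ) (hq : 2 ≤ q) (hr : 2 ≤ r)
    (hX : HasRademacherCotype X q C)
    (hX' : HasRademacherCotype (StrongDual ℝ X) r D) :
    IsKConvex X := by
  open Crest.Agent.R118 in
  exact MAIN_of
    (DECAY_proof (PAR_proof LAM_proof) COT_proof LIFT1_proof LIFT2_proof
      (CORE_proof (CORE0_proof (FULL_proof GEN_proof KER_proof) (ROW_proof GEN_proof RED1_proof)
        (COL_proof GEN_proof RED2_proof) (ONE_proof RED1_proof RED2_proof)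
        (REST_proof (MONO_proof GEN_proof) CNT_proof)))
      TRIV_proof FINR_proof BOOT_proof CPT_proof)
    WALT_proof (WALH_proof WALK_proof WALT_proof) WALR_proof (WALM_proof WALK_proof)
    (KAT1_proof KAT0_proof) (KAT2_proof KAT0_proof LIP_proof) (KAT3_proof KAT0_proof)
    CONV_proof TRIV_proof X hAP q r C D hq hr hX hX'

end Crest.Agent.S0158
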