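import Crest.Statements.S0161
import Crest.Agent.R121.ThmA
import Crest.Agent.R121.PropInf
import Crest.Agent.R121.Ecb
import Crest.Agent.R121.TypeI
import Crest.Agent.R121.II1

set_option autoImplicit false
open Crest Crest.AnalysisR Crest.AnalysisR.OperatorAlgebra

namespace Crest.Agent.S0161

/-- Let M be a von Neumann algebra on a complex Hilbert space and n ≥ 1. Every bounded complex-multilinear map f from (n+1)-tuples of elements of M to M whose Hochschild differential vanishes is the Hochschild differential of some bounded complex-multilinear map g on n-tuples: f = dg. Here (dg)(a₀,…,a_n) = a₀ g(a₁,…,a_n) + ∑_{j<n} (−1)^(j+1) g(…, a_j a_{j+1}, …) + (−1)^(n+1) g(a₀,…,a_{n−1}) a_n. -/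
theorem result
    (H : Type*) [NormedAddCommGroup H] [InnerProductSpace ℂ H] [CompleteSpace H]
    (M : VonNeumannAlgebra H) (n : ℕ) (hn : 1 ≤ n)
    (f : ContinuousMultilinearMap ℂ (fun _ : Fin (n + 1) => M.toStarSubalgebra) M.toStarSubalgebra)
    (hf : ∀ a : Fin (n + 2) → M.toStarSubalgebra, Crest.OpAlg.hochschildDiff f a = 0) :
    ∃ g : ContinuousMultilinearMap ℂ (fun _ : Fin n => M.toStarSubalgebra) M.toStarSubalgebra,
      ∀ a : Fin (n + 1) → M.toStarSubalgebra, Crest.OpAlg.hochschildDiff g a = f a := by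
  open Crest.Agent.R124 Crest.Agent.R121 in
  obtain ⟨z, hz, hzp, hfin, hinf⟩ := split_fin M
  have hz' := (Cen.one M).sub hz
  obtain ⟨w, hw, hwp, hI, hII⟩ := split_typeI (corner M z)
  have hw' := (Cen.one _).sub hw
  obtain ⟨E₁, h₁⟩ := exists_E_typeI _ hI
  obtain ⟨E₂, h₂⟩ := exists_E_II1 _ ((finProj_corner hwp.one_sub hw'.1).2
    (hfin.of_le (IsStarProjection.one _) (one_mem _) hwp.one_sub hw'.1 (one_mul _))) hII
  obtain ⟨E₃, h₃⟩ := h₁.of_corner hw hwp
  obtain ⟨E₄, h₄⟩ := h₂.of_corner hw' hwp.one_sub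
  obtain ⟨E₅, h₅⟩ := (h₃.add h₄).of_corner hz hzp
  rw [lift_one hwp, lift_one hwp.one_sub, add_sub_cancel, lift_one hzp] at h₅
  obtain ⟨g₁, hg₁⟩ := thmA_bd M h₅ f hf
  obtain ⟨F, h, hF, hh, hcb⟩ := cb_cocycle M (z := ⟨1 - z, hz'.1⟩) hz' hzp.one_sub hinf f hf
  obtain ⟨E, hE⟩ := exists_Ecb M
  obtain ⟨g₂, hg₂⟩ := thmA M (cls_cbd M) hE F hF hcb
  refine ⟨g₁ + g₂ - h, fun a => ?_⟩
  have e : Crest.OpAlg.hochschildDiff (⇑(g₁ + g₂ - h)) a = Crest.OpAlg.hochschildDiff g₁ a +
      Crest.OpAlg.hochschildDiff g₂ a - Crest.OpAlg.hochschildDiff h a := by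
    simp only [Crest.OpAlg.hochschildDiff, ContinuousMultilinearMap.sub_apply,
      ContinuousMultilinearMap.add_apply, mul_add, mul_sub, add_mul, sub_mul, smul_add, smul_sub,
      Finset.sum_add_distrib, Finset.sum_sub_distrib]
    abel
  rw [e, hh]
  apply Subtype.ext
  simp only [AddSubgroupClass.coe_sub, AddMemClass.coe_add, MulMemClass.coe_mul, hg₁, hg₂,
    mul_sub, mul_one]
  abel

end Crest.Agent.S0161
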