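import Crest.Statements.S0168
import Crest.Agent.R125.Potential
import Crest.Agent.R125.Bridge

set_option autoImplicit false
open Crest Crest.AnalysisR

namespace Crest.Agent.S0168

/-- For each of the four bounded-potential coordinate models on the countably branching tree (rootless sibling, rooted sibling, antichain, global), the generated space, namely the closure of the span of the coordinate vectors in the supremum norm over the model's tests, is separable and infinite-dimensional, its norm has at every unit centre and every 0 < t < 1 averaged midpoint asymptotic quantity at least √(1 + t²/4) - 1, and no equivalent norm on it is asymptotically uniformly convex. -/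
theorem result
    (m : Crest.AnalysisR.TreePotential.PotentialModel) :
    (Crest.AnalysisR.TreePotential.modelBanach m).IsSeparableInfiniteDim ∧
      (∀ t : ℝ, 0 < t → t < 1 →
        (Crest.AnalysisR.TreePotential.modelBanach m).MidpointModulusGE
          (Crest.AnalysisR.TreePotential.modelBanach m).norm t (Real.sqrt (1 + t ^ 2 / 4) - 1)) ∧
      ∀ N : (Crest.AnalysisR.TreePotential.modelBanach m).X → ℝ,
        (Crest.AnalysisR.TreePotential.modelBanach m).IsEquivNorm N →
          ¬ (Crest.AnalysisR.TreePotential.modelBanach m).IsAUC N := by
  have hK := R125.goodK_model m
  let e : List ℕ → R125.Amb (TreePotential.IsTest m) := TreePotential.coordVector m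
  have he : ∀ s f (hf : TreePotential.IsTest m f), R125.ev f hf (e s) = f s := fun _ _ _ => rfl
  have hc : CompleteSpace (R125.Sp e) := (Submodule.isClosed_topologicalClosure _).completeSpace_coe
  have hinf : ¬ FiniteDimensional ℝ (R125.Sp e) := R125.infinite_sp hK he
    (fun k => R125.isTest_delta m _ (by simp)) (LinearIsometry.id)
  refine ⟨⟨R125.separable_sp (e := e), hinf⟩,
    fun t ht0 ht1 => R125.midGE hc (R125.midpoint_sp hK he ht0 ht1), fun N hN => ?_⟩
  exact R125.not_isAUC (R125.Sp e) hc 1 one_pos
    (fun n => R125.tree_sp hK he n (fun v hv _ => R125.isTest_delta m v hv) LinearIsometry.id) N hN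

end Crest.Agent.S0168
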