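import Crest.Statements.S0172
import Crest.Agent.R128.Area
import Crest.Agent.R128.AVG
import Crest.Agent.R128.BOOT
import Crest.Agent.R128.CNT
import Crest.Agent.R128.CST
import Crest.Agent.R128.DB
import Crest.Agent.R128.DD4
import Crest.Agent.R128.DET
import Crest.Agent.R128.DG
import Crest.Agent.R128.FINAL
import Crest.Agent.R128.FOUR
import Crest.Agent.R128.GROM
import Crest.Agent.R128.HOLE
import Crest.Agent.R128.INDEP
import Crest.Agent.R128.MATCH
import Crest.Agent.R128.MAX
import Crest.Agent.R128.NC
import Crest.Agent.R128.ND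
import Crest.Agent.R128.PAT
import Crest.Agent.R128.PLISS
import Crest.Agent.R128.POR
import Crest.Agent.R128.PS
import Crest.Agent.R128.REST
import Crest.Agent.R128.REFL
import Crest.Agent.R128.RS
import Crest.Agent.R128.SB
import Crest.Agent.R128.SEC
import Crest.Agent.R128.SHIFT
import Crest.Agent.R128.SIDE
import Crest.Agent.R128.ST
import Crest.Agent.R128.SWEEP
import Crest.Agent.R128.TAIL
import Crest.Agent.R128.TRANS
import Crest.Agent.R128.TUBE

set_option autoImplicit false
open Crest.AnalysisR.StandardFamily
open Crest Crest.AnalysisR Crest.AnalysisR.StandardFamily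

namespace Crest.Agent.S0172

open Crest.Agent.R128 in
/-- For every sufficiently large parameter `k`, the standard map `(x, y) ↦ (x + y + k sin 2πx, y + k sin 2πx)` of the two-torus has a positive upper Lyapunov exponent on a set of positive area: the set of points `p` of the unit square for which some `c > 0` has `log ‖D(F^n)(p)‖ ≥ c·n` for infinitely many `n`, where `F` is the lift of the map to the plane, has positive Lebesgue measure. -/
theorem result :
    ∃ k₀ : ℝ, 0 < k₀ ∧ ∀ k : ℝ, k₀ ≤ k →
      0 < MeasureTheory.volume ({p : ℝ × ℝ | ∃ c : ℝ, 0 < c ∧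
          ∃ᶠ n : ℕ in Filter.atTop, c * n ≤ Real.log ‖fderiv ℝ (standardMapLift k)^[n] p‖} ∩
        Set.Ico (0 : ℝ) 1 ×ˢ Set.Ico (0 : ℝ) 1) := by
  have hPS := ps_proof
  have hZS := zs_proof hPS
  have hMG := mg_proof hPS
  have hST := st_proof hPS
  have hSB1 := sb1_proof hMG
  have hDET := det_proof hSB1 (sbb_proof hSB1) (grom_proof hPS hMG)
  have hDET2 := det2_proof (sbf_proof hSB1)
  have hMAX := max_proof rs_proof shift_proof
  have hIND := indep_proof area_proof (trans_proof (tube_proof hPS) hST) (sec_proof hST hZS) hZS
  have hDB := db_proof hIND (avg_proof hMG) hMG shift_proof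
  have hSIDE := side_proof cst_proof qq_proof (four_proof cst_proof dd4_proof)
  have hNC := nc_proof (nd_proof sweep_proof) dg_proof
  have hHOLE := hole_proof hSIDE refl_proof tail_proof hNC
  have hREST := rest_proof (pat_proof hHOLE match_proof por_proof) (pliss_proof rs_proof) cnt_proof
  exact final_proof (boot_proof hDET hDET2 hMAX shift_proof qb_proof hDB hREST) hMG

end Crest.Agent.S0172
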