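import Crest.Statements.S0175
import Crest.Agent.R130.Cluster

set_option autoImplicit false
open MeasureTheory
open scoped ENNReal ContDiff
open Crest.AnalysisR.OT
open Crest Crest.AnalysisR Crest.AnalysisR.OT

namespace Crest.Agent.S0175

/-- For every d ≥ 2 and s > 0 there is a smooth, compactly supported, nonnegative ρ on ℝᵈ with integral 1 and smooth square root such that, for μ = ρ dx and the cost summing ‖xᵢ - xⱼ‖^(-s) over the three pairs of a triple: some coupling with all three marginals μ has finite cost, minimal among all such couplings; every pair of Borel maps T₂, T₃ pushing μ to itself gives the plan x ↦ (x, T₂ x, T₃ x) strictly larger cost; and such pairs have costs arbitrarily close to that minimum. -/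
theorem result
    (d : ℕ) (hd : 2 ≤ d) (s : ℝ) (hs : 0 < s) :
    ∃ ρ : EuclideanSpace ℝ (Fin d) → ℝ, (∀ x, 0 ≤ ρ x) ∧ ContDiff ℝ ∞ ρ ∧ HasCompactSupport ρ ∧
      ContDiff ℝ ∞ (fun x => Real.sqrt (ρ x)) ∧ ∫ x, ρ x = 1 ∧
      ∃ π₀ : Measure (EuclideanSpace ℝ (Fin d) × EuclideanSpace ℝ (Fin d) × EuclideanSpace ℝ (Fin d)),
        IsCoupling₃ (measOfDensity ρ) π₀ ∧ ∫⁻ p, tripleCost s p ∂π₀ < ⊤ ∧
        (∀ π : Measure (EuclideanSpace ℝ (Fin d) × EuclideanSpace ℝ (Fin d) × EuclideanSpace ℝ (Fin d)), IsCoupling₃ (measOfDensity ρ) π →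
          ∫⁻ p, tripleCost s p ∂π₀ ≤ ∫⁻ p, tripleCost s p ∂π) ∧
        (∀ T₂ T₃ : EuclideanSpace ℝ (Fin d) → EuclideanSpace ℝ (Fin d), Measurable T₂ → Measurable T₃ →
          (measOfDensity ρ).map T₂ = measOfDensity ρ → (measOfDensity ρ).map T₃ = measOfDensity ρ →
          ∫⁻ p, tripleCost s p ∂π₀ < ∫⁻ x, tripleCost s (x, T₂ x, T₃ x) ∂(measOfDensity ρ)) ∧
        (∀ ε : ℝ≥0∞, 0 < ε → ∃ T₂ T₃ : EuclideanSpace ℝ (Fin d) → EuclideanSpace ℝ (Fin d), Measurable T₂ ∧ Measurable T₃ ∧
          (measOfDensity ρ).map T₂ = measOfDensity ρ ∧ (measOfDensity ρ).map T₃ = measOfDensity ρ ∧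
          ∫⁻ x, tripleCost s (x, T₂ x, T₃ x) ∂(measOfDensity ρ) < ∫⁻ p, tripleCost s p ∂π₀ + ε) := by
  classical
  let i0 : Fin d := ⟨0, by omega⟩
  let i1 : Fin d := ⟨1, by omega⟩
  obtain ⟨Φ, Ψ, u, r, hr, hΦ1, hΦ2, hKs, hΨ, hΨΦ, hinj, hu, huM, hle, heq, hgood⟩ :=
    R130.exists_clusters (E := EuclideanSpace ℝ (Fin d)) hs
      (e₁ := EuclideanSpace.single i0 1) (e₂ := EuclideanSpace.single i1 1) (by simp) (by simp)
      (by simp [EuclideanSpace.inner_single_left, i0, i1])
  set K := Metric.closedBall (0 : EuclideanSpace ℝ (Fin d)) r with hK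
  have hKc : IsCompact K := isCompact_closedBall _ _
  let f : ContDiffBump (0 : EuclideanSpace ℝ (Fin d)) := ⟨r / 2, r, by positivity, by linarith⟩
  have hfK : ∀ y, f y ≠ 0 → y ∈ K := fun y hy => by
    have : y ∈ Function.support f := hy
    rw [f.support_eq] at this
    exact Metric.ball_subset_closedBall this
  have hf2c : Continuous fun y => f y ^ 2 := f.continuous.pow 2
  have hf2s : HasCompactSupport fun y => f y ^ 2 :=
    HasCompactSupport.intro hKc fun y hy => by
      by_contra h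
      exact hy (hfK y (by simpa using h))
  have hI : 0 < ∫ y, f y ^ 2 := by
    refine hf2c.integral_pos_of_hasCompactSupport_nonneg_nonzero hf2s (fun y => sq_nonneg _)
      (x := 0) ?_
    have := f.pos_of_mem_ball (x := 0) (Metric.mem_ball_self f.rOut_pos)
    positivity
  set I := ∫ y, f y ^ 2 with hIdef
  let η : EuclideanSpace ℝ (Fin d) → ℝ := fun y => (Real.sqrt (6 * I))⁻¹ * f y
  have hη : ContDiff ℝ ∞ η := contDiff_const.mul f.contDiff
  have hη0 : ∀ y, 0 ≤ η y := fun y => mul_nonneg (by positivity) f.nonneg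
  have hηK : ∀ y, η y ≠ 0 → y ∈ K := fun y hy => hfK y (right_ne_zero_of_mul hy)
  have hη2 : ∀ y, η y ^ 2 = (6 * I)⁻¹ * f y ^ 2 := fun y => by
    simp only [η, mul_pow, inv_pow]
    rw [Real.sq_sqrt (by positivity)]
  let ν : Measure (EuclideanSpace ℝ (Fin d)) :=
    volume.withDensity fun y => ENNReal.ofReal (η y ^ 2)
  have hνu : ν Set.univ = ENNReal.ofReal (1 / 6) := by
    simp only [ν]
    rw [withDensity_apply _ MeasurableSet.univ, Measure.restrict_univ,
      ← ofReal_integral_eq_lintegral_ofReal]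
    · simp only [hη2]
      rw [integral_const_mul, ← hIdef]
      congr 1
      field_simp
    · simp only [hη2]
      exact (hf2c.integrable_of_hasCompactSupport hf2s).const_mul _
    · exact Filter.Eventually.of_forall fun y => sq_nonneg _
  have : IsFiniteMeasure ν := ⟨by rw [hνu]; exact ENNReal.ofReal_lt_top⟩
  have hν0 : ν ≠ 0 := by
    intro h
    rw [h, Measure.coe_zero, Pi.zero_apply, eq_comm, ENNReal.ofReal_eq_zero] at hνu
    norm_num at hνu
  have hνK : ∀ᵐ y ∂ν, y ∈ K := by
    simp only [ν]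
    have hm : Measurable fun y => ENNReal.ofReal (η y ^ 2) :=
      (hη.continuous.pow 2).measurable.ennreal_ofReal
    rw [ae_withDensity_iff hm]
    refine Filter.Eventually.of_forall fun y hy => hηK y ?_
    intro h
    exact hy (by simp [h])
  choose ζ hζ hζ0 hζs hζc hζm using fun i => R130.exists_push volume (Φ i) (hΦ1 i) (hΦ2 i) hη hη0
    hKc hηK (hKs i) (hΨ i) (hΨΦ i)
  have hdis : ∀ i j, i ≠ j → ∀ x, ζ i x * ζ j x = 0 := by
    intro i j hij x
    by_contra h
    obtain ⟨y, hy, e1⟩ := hζs i x (left_ne_zero_of_mul h)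
    obtain ⟨y', hy', e2⟩ := hζs j x (right_ne_zero_of_mul h)
    exact hij (hinj i j y hy y' hy' (e1.trans e2.symm)).1
  let g : EuclideanSpace ℝ (Fin d) → ℝ := fun x =>
    Real.sqrt 2 * ζ 0 x + ζ 1 x + ζ 2 x + ζ 3 x + ζ 4 x
  have hg : ContDiff ℝ ∞ g :=
    ((((contDiff_const.mul (hζ 0)).add (hζ 1)).add (hζ 2)).add (hζ 3)).add (hζ 4)
  have hg0 : ∀ x, 0 ≤ g x := fun x => by
    have := hζ0 0 x; have := hζ0 1 x; have := hζ0 2 x; have := hζ0 3 x; have := hζ0 4 x
    positivity
  have hg2 : ∀ x, g x ^ 2 =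
      ζ 0 x ^ 2 + ζ 0 x ^ 2 + ζ 1 x ^ 2 + ζ 2 x ^ 2 + ζ 3 x ^ 2 + ζ 4 x ^ 2 := by
    intro x
    have h2 : Real.sqrt 2 ^ 2 = 2 := Real.sq_sqrt (by norm_num)
    simp only [g]
    linear_combination ζ 0 x ^ 2 * h2 + 2 * Real.sqrt 2 * (hdis 0 1 (by decide) x +
      hdis 0 2 (by decide) x + hdis 0 3 (by decide) x + hdis 0 4 (by decide) x) +
      2 * (hdis 1 2 (by decide) x + hdis 1 3 (by decide) x + hdis 1 4 (by decide) x +
        hdis 2 3 (by decide) x + hdis 2 4 (by decide) x + hdis 3 4 (by decide) x)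
  have hμ : measOfDensity (fun x => g x ^ 2) = R130.marg ν Ψ := by
    have m : ∀ i, Measurable fun x => ENNReal.ofReal (ζ i x ^ 2) := fun i =>
      ((hζ i).continuous.pow 2).measurable.ennreal_ofReal
    simp only [R130.marg, ν, ← hζm]
    rw [← withDensity_add_right _ (m 0), ← withDensity_add_right _ (m 1),
      ← withDensity_add_right _ (m 2), ← withDensity_add_right _ (m 3),
      ← withDensity_add_right _ (m 4), measOfDensity]
    congr 1
    funext x
    simp only [Pi.add_apply, hg2]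
    repeat rw [ENNReal.ofReal_add (by positivity) (by positivity)]
  let K' : Set (EuclideanSpace ℝ (Fin d)) := ⋃ i, Ψ i '' K
  have hK' : IsCompact K' := isCompact_iUnion hζc
  have hgK : ∀ x, x ∉ K' → g x = 0 := by
    intro x hx
    have : ∀ i, ζ i x = 0 := fun i => by
      by_contra h
      exact hx (Set.mem_iUnion.mpr ⟨i, hζs i x h⟩)
    simp [g, this]
  have hρm : Measurable fun x => ENNReal.ofReal (g x ^ 2) :=
    (hg.continuous.pow 2).measurable.ennreal_ofReal
  obtain ⟨r1, r2, r3, r4⟩ := R130.abstract_main ν hν0 hKc.isClosed.measurableSet hνK hΨ hinj hu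
    ENNReal.ofReal_ne_top huM (R130.continuous_tripleCost s).measurable hle heq hgood
  refine ⟨fun x => g x ^ 2, fun x => sq_nonneg _, hg.pow 2,
    HasCompactSupport.intro hK' fun x hx => by simp [hgK x hx], ?_, ?_, R130.plan ν Ψ, ?_⟩
  · simpa only [Real.sqrt_sq (hg0 _)] using hg
  · rw [integral_eq_lintegral_of_nonneg_ae (Filter.Eventually.of_forall fun x => sq_nonneg _)
      (hg.continuous.pow 2).aestronglyMeasurable]
    have h1 := congrArg (fun m : Measure (EuclideanSpace ℝ (Fin d)) => m Set.univ) hμ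
    simp only [measOfDensity, R130.marg, Measure.add_apply,
      Measure.map_apply (hΨ _) MeasurableSet.univ, Set.preimage_univ, hνu] at h1
    rw [withDensity_apply _ MeasurableSet.univ, Measure.restrict_univ] at h1
    rw [h1]
    repeat rw [← ENNReal.ofReal_add (by positivity) (by positivity)]
    rw [ENNReal.toReal_ofReal (by positivity)]
    norm_num
  rw [hμ]
  refine ⟨R130.plan_coupling ν hΨ, r1, r3, r4, fun ε hε => ?_⟩
  have : IsFiniteMeasure (R130.marg ν Ψ) := by rw [R130.marg]; infer_instance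
  refine R130.approx (R130.marg ν Ψ) hK'
    ⟨Ψ 0 0, Set.mem_iUnion.mpr ⟨0, 0, Metric.mem_closedBall_self hr.le, rfl⟩⟩ ?_
    (fun x => x i0) (by fun_prop) (fun c => ?_) _ (R130.plan_coupling ν hΨ) hs (by simp) r2
    r1.ne hε
  · rw [← hμ, measOfDensity, ae_withDensity_iff hρm]
    refine Filter.Eventually.of_forall fun x hx => ?_
    by_contra h
    exact hx (by simp [hgK x h])
  · rw [← hμ, measOfDensity]
    refine withDensity_absolutelyContinuous _ _ ?_
    have := (PiLp.volume_preserving_ofLp (Fin d)).measure_preimage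
      (s := {f : Fin d → ℝ | f i0 = c}) (measurableSet_eq_fun (measurable_pi_apply i0)
        measurable_const).nullMeasurableSet
    rw [volume_pi, Measure.pi_hyperplane] at this
    exact this

end Crest.Agent.S0175
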