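import Crest.Statements.S0181
import Crest.Agent.R132.BMain

set_option autoImplicit false
open scoped ComplexOrder
open Crest.AnalysisR.NumRange
open Crest Crest.AnalysisR Crest.AnalysisR.NumRange

namespace Crest.Agent.S0181

open scoped Matrix.Norms.L2Operator Kronecker Matrix
open Crest.Agent.R132B

/-- Setting of the optimal-metric statement; also G is holomorphic and injective on {t : r < ‖t‖} for some r < 1 with G({t : 1 < ‖t‖}) the complement of the closure of Ω, (H, κ²) is an optimal metric pair for f(A), and S ≽ 0 with S² = H. Then one continuous 2π-periodic positive semidefinite density Λ of mean I gives, for all m ≥ 1 and m × m matrix-valued v holomorphic near the closure of Ω, v[SAS⁻¹] = (1/2π) ∫ Λ(θ) ⊗ v(G(e^{iθ})) dθ entrywise, and ‖v[A]‖ ≤ κ sup ‖v‖ over the closure of Ω. -/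
theorem result
    (n : ℕ) (hn : 1 ≤ n) (A : Matrix (Fin n) (Fin n) ℂ)
    (Ω U : Set ℂ) (hΩ₁ : IsOpen Ω) (hΩ₂ : Bornology.IsBounded Ω) (hΩ₃ : Convex ℝ Ω)
    (hU : IsOpen U) (hΩU : closure Ω ⊆ U)
    (f : ℂ → ℂ) (hf₁ : DifferentiableOn ℂ f U) (hf₂ : Set.InjOn f U)
    (hf₃ : f '' Ω = Metric.ball 0 1)
    (G : ℂ → ℂ) (r : ℝ) (hr₁ : 0 < r) (hr₂ : r < 1)
    (hG₁ : DifferentiableOn ℂ G {t : ℂ | r < ‖t‖}) (hG₂ : Set.InjOn G {t : ℂ | r < ‖t‖})
    (hG₃ : G '' {t : ℂ | 1 < ‖t‖} = (closure Ω)ᶜ)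
    (hA : numRange A ⊆ Ω) (p : Polynomial ℂ) (hp : AgreesOnSpectrum A f p)
    (H : Matrix (Fin n) (Fin n) ℂ) (κsq : ℝ) (hH : IsOptimalMetric (Polynomial.aeval A p) H κsq)
    (S : Matrix (Fin n) (Fin n) ℂ) (hS₁ : S.PosSemidef) (hS₂ : S * S = H) :
    ∃ Λ : ℝ → Matrix (Fin n) (Fin n) ℂ, Continuous Λ ∧ Function.Periodic Λ (2 * Real.pi) ∧
      (∀ θ, (Λ θ).PosSemidef) ∧
      (∀ a b, (2 * Real.pi : ℂ)⁻¹ * (∫ θ in (0 : ℝ)..2 * Real.pi, Λ θ a b)
        = (1 : Matrix (Fin n) (Fin n) ℂ) a b) ∧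
      ∀ (m : ℕ), 1 ≤ m → ∀ (V : Set ℂ), IsOpen V → closure Ω ⊆ V →
        ∀ v : ℂ → Matrix (Fin m) (Fin m) ℂ, (∀ c d, DifferentiableOn ℂ (fun z => v z c d) V) →
        ∀ q : Fin m → Fin m → Polynomial ℂ,
          (∀ c d, AgreesOnSpectrum A (fun z => v z c d) (q c d)) →
          (∀ a b c d, Polynomial.aeval (S * A * S⁻¹) (q c d) a b =
              (2 * Real.pi : ℂ)⁻¹ * (∫ θ in (0 : ℝ)..2 * Real.pi,
                Λ θ a b * v (G (Complex.exp ((θ : ℂ) * Complex.I))) c d)) ∧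
          ∀ M : ℝ, (∀ z ∈ closure Ω, ‖Matrix.toEuclideanCLM (n := Fin m) (𝕜 := ℂ) (v z)‖ ≤ M) →
            ‖Matrix.toEuclideanCLM (n := Fin n × Fin m) (𝕜 := ℂ)
                (Matrix.of fun (i : Fin n × Fin m) (j : Fin n × Fin m) =>
                  Polynomial.aeval A (q i.2 j.2) i.1 j.1)‖ ≤ Real.sqrt κsq * M := by
  have : Nonempty (Fin n) := ⟨⟨0, hn⟩⟩
  obtain ⟨⟨hH1, hH2, hH3⟩, -⟩ := hH
  have hHpd : H.PosDef := by simpa using Matrix.PosDef.one.posSemidef_add hH1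
  have hdet : IsUnit S.det := by
    have h1 := hHpd.isUnit
    rw [Matrix.isUnit_iff_isUnit_det, ← hS₂, Matrix.det_mul] at h1
    exact isUnit_of_mul_isUnit_left h1
  have hSS' : S * S⁻¹ = 1 := Matrix.mul_nonsing_inv S hdet
  have hS'S : S⁻¹ * S = 1 := Matrix.nonsing_inv_mul S hdet
  have hSH : Sᴴ = S := hS₁.isHermitian
  have hS'H : S⁻¹ᴴ = S⁻¹ := by rw [Matrix.conjTranspose_nonsing_inv, hSH]
  have hHS : S⁻¹ * H * S⁻¹ = 1 := by
    rw [← hS₂, ← Matrix.mul_assoc, hS'S, Matrix.one_mul, hSS']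
  set B := S * A * S⁻¹ with hBdef
  have hBq : ∀ q : Polynomial ℂ, Polynomial.aeval B q = S * Polynomial.aeval A q * S⁻¹ :=
    aeval_conj hSS' hS'S A
  have hB : Polynomial.aeval B A.charpoly = 0 := by
    rw [hBq, Matrix.aeval_self_charpoly, Matrix.mul_zero, Matrix.zero_mul]
  have hAΩ : spectrum ℂ A ⊆ Ω := (R132.spectrum_subset_numRange A).trans hA
  set T := Polynomial.aeval B p with hTdef
  have hT : spectrum ℂ T ⊆ Metric.ball 0 1 := by
    intro z hz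
    obtain ⟨μ, hμ, rfl⟩ := Multiset.mem_map.1 (spectrum_subset_of_aeval (aeval_psi hn hp hB) hz)
    exact hf₃ ▸ Set.mem_image_of_mem f (hAΩ (root_mem_spectrum hμ))
  have hT' := spectrum_conjTranspose_subset hT
  have hT1 : (1 - Tᴴ * T).PosSemidef := by
    refine (congrArg Matrix.PosSemidef ?_).mpr (hH3.conjTranspose_mul_mul_same S⁻¹)
    rw [hTdef, hBq, Matrix.conjTranspose_mul, Matrix.conjTranspose_mul, hS'H, hSH, Matrix.mul_sub,
      Matrix.sub_mul, hHS, ← hS₂]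
    simp only [Matrix.mul_assoc]
  obtain ⟨w, hwc, hw0, hG1, hn1, hGc, hw⟩ := exists_weight hΩ₁ hU hΩU hf₁ hf₂ hf₃ hr₂ hG₁ hG₂ hG₃
  have he : ∀ θ : ℝ, Complex.exp (θ * Complex.I) ∈ Metric.sphere (0 : ℂ) 1 := fun θ => by simp
  have hec : Continuous fun θ : ℝ => Complex.exp (θ * Complex.I) := by fun_prop
  have hGe : Continuous fun θ : ℝ => G (Complex.exp (θ * Complex.I)) := hGc.comp_continuous hec he
  have hγ : Continuous fun θ : ℝ => f (G (Complex.exp (θ * Complex.I))) :=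
    hf₁.continuousOn.comp_continuous hGe fun θ => hΩU (hG1 _ (he θ))
  let Λ : ℝ → Matrix (Fin n) (Fin n) ℂ := fun θ =>
    w (Complex.exp (θ * Complex.I)) • pk T Tᴴ (f (G (Complex.exp (θ * Complex.I))))
  have hΛc : Continuous Λ := (hwc.comp_continuous hec he).smul
    ((continuousOn_pk hT hT').comp_continuous hγ fun θ => by simpa using hn1 _ (he θ))
  have hΛp : ∀ θ, (Λ θ).PosSemidef := fun θ =>
    (pk_psd hT hT1 (hn1 _ (he θ))).smul (hw0 _ (he θ))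
  have hΛ1 : ∀ a b, (2 * Real.pi : ℂ)⁻¹ * (∫ θ in (0 : ℝ)..2 * Real.pi, Λ θ a b)
      = (1 : Matrix (Fin n) (Fin n) ℂ) a b := by
    intro a b
    have := mean_entry hT hT' (hw (E := ℂ)) (u := fun _ => 1)
      (fun _ _ => differentiableAt_const _) a b
    rw [cauchy_one hT] at this
    simpa only [mul_one] using this
  refine ⟨Λ, hΛc, fun θ => ?_, hΛp, hΛ1, fun m _ V hV hΩV v hv q hq => ?_⟩
  · simp only [Λ]
    rw [Complex.ofReal_add, add_mul, Complex.exp_add]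
    simp
  have hmain : ∀ a b c d, Polynomial.aeval B (q c d) a b =
      (2 * Real.pi : ℂ)⁻¹ * (∫ θ in (0 : ℝ)..2 * Real.pi,
        Λ θ a b * v (G (Complex.exp ((θ : ℂ) * Complex.I))) c d) := by
    intro a b c d
    obtain ⟨h1, h2⟩ := cauchy_comp hn hΩ₂ hU hΩU hf₁ hf₂ hf₃ hAΩ hp hB hT hV hΩV (hv c d) (hq c d)
    rw [← h2, ← mean_entry hT hT' (hw (E := ℂ)) h1 a b]
    congr 1
    refine intervalIntegral.integral_congr fun θ _ => ?_
    simp only [Λ, Function.comp_apply, hf₂.leftInvOn_invFunOn (hΩU (hG1 _ (he θ)))]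
  refine ⟨hmain, fun M hM => ?_⟩
  have hM0 : 0 ≤ M := (norm_nonneg _).trans (hM _ (hG1 _ (he 0)))
  have h1 := norm_mean_le (fun i j => (continuous_apply_apply i j).comp hΛc) hΛp hΛ1
    (v := fun θ => v (G (Complex.exp ((θ : ℂ) * Complex.I))))
    (fun c d => (hv c d).continuousOn.comp_continuous hGe fun θ => hΩV (hG1 _ (he θ))) hM0
    (fun θ => hM _ (hG1 _ (he θ)))
    (X := Matrix.of fun (i : Fin n × Fin m) (j : Fin n × Fin m) =>
      Polynomial.aeval B (q i.2 j.2) i.1 j.1) fun i j => hmain _ _ _ _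
  have hκ : 0 ≤ κsq := by
    have h2 := (hH2.add hHpd.posSemidef).diag_nonneg (i := ⟨0, hn⟩)
    simpa using h2
  have h2 : ‖S‖ ≤ Real.sqrt κsq := by
    rw [norm_le_iff_psd _ (Real.sqrt_nonneg _), Real.sq_sqrt hκ, hSH, hS₂]
    exact hH2
  have h3 : ‖S⁻¹‖ ≤ 1 := by
    rw [norm_le_iff_psd _ zero_le_one]
    refine (congrArg Matrix.PosSemidef ?_).mpr (hH1.conjTranspose_mul_mul_same S⁻¹)
    rw [hS'H, Matrix.mul_sub, Matrix.sub_mul, hHS]
    simp
  have h4 : (Matrix.of fun (i : Fin n × Fin m) (j : Fin n × Fin m) =>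
      Polynomial.aeval A (q i.2 j.2) i.1 j.1) = (S⁻¹ ⊗ₖ (1 : Matrix (Fin m) (Fin m) ℂ)) *
      (Matrix.of fun (i : Fin n × Fin m) (j : Fin n × Fin m) =>
        Polynomial.aeval B (q i.2 j.2) i.1 j.1) * (S ⊗ₖ (1 : Matrix (Fin m) (Fin m) ℂ)) := by
    ext ⟨a, c⟩ ⟨b, d⟩
    have h5 : Polynomial.aeval A (q c d) = S⁻¹ * Polynomial.aeval B (q c d) * S := by
      rw [hBq, ← Matrix.mul_assoc, ← Matrix.mul_assoc, hS'S, Matrix.one_mul, Matrix.mul_assoc, hS'S,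
        Matrix.mul_one]
    rw [Matrix.of_apply, h5]
    simp [Matrix.mul_apply, Fintype.sum_prod_type, Matrix.one_apply]
  rw [← Matrix.cstar_norm_def, h4]
  have h6 := norm_kron_one_le (κ := Fin m) zero_le_one h3
  have h7 := norm_kron_one_le (κ := Fin m) (Real.sqrt_nonneg _) h2
  refine (norm_mul_le _ _).trans ?_
  rw [mul_comm (Real.sqrt κsq)]
  refine mul_le_mul ((norm_mul_le _ _).trans ?_) h7 (norm_nonneg _) hM0
  simpa using mul_le_mul h6 h1 (norm_nonneg _) zero_le_one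

end Crest.Agent.S0181
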