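import Crest.Statements.S0191
import Crest.Agent.R140.NoJames
import Crest.Agent.R140.Renorm
import Crest.Agent.R140.Mart
import Crest.Agent.R140.Lim12
import Crest.Agent.R140.Lim3
import Crest.Agent.R140.Osc
import Crest.Agent.R140.Chain
import Crest.Agent.R140.Cover
import Crest.Agent.R140.Path

set_option autoImplicit false
open Crest.AnalysisR
open Crest Crest.AnalysisR

namespace Crest.Agent.S0191

/-- Every real Banach space that has Markov type p with some constant K, for some p > 1, carries an equivalent uniformly convex norm (it is superreflexive). Markov type is the finite-sum inequality E‖f(Z_t) − f(Z_0)‖^p ≤ K^p t E‖f(Z_1) − f(Z_0)‖^p over all finite stationary reversible Markov chains, all maps f from the state set and all t ≥ 1. -/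
theorem result
    (X : Type*) [NormedAddCommGroup X] [NormedSpace ℝ X] [CompleteSpace X]
    (p K : ℝ) (hp : 1 < p) (hK : 0 < K) (hX : HasMarkovType X p K) :
    HasEquivUniformlyConvexNorm X := by
  refine R140.renorm X fun ε hε => ?_
  by_contra h
  have h1 : ∀ n, (R140.Der X ε n).Nonempty := fun n =>
    Set.nonempty_iff_ne_empty.2 fun h' => h ⟨n, h'⟩
  obtain ⟨A, hA1, hA2, hA3⟩ := R140.lim3 p K (ε / 2) hp (R140.lim2 p K (ε / 2) hp
    (R140.lim1 p K (ε / 2) hp fun n => R140.martS X p K ε hp hε hX n (h1 n)))
  exact R140.noJames R140.osc R140.chainEx R140.cover R140.labLe R140.pathOsc A p K (ε / 2) hp hK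
    (by positivity) hA1 hA2 hA3

end Crest.Agent.S0191
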