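import Crest.Statements.S0192
import Crest.Agent.R141.Final
import Crest.Agent.R141.Up3
import Crest.Agent.R141.Key
import Crest.Agent.R141.Ass4
import Crest.Agent.R141.Dcp
import Crest.Agent.R141.Sim5

set_option autoImplicit false
open Crest Crest.ProbabilityR

namespace Crest.Agent.S0192

/-- Poisson-diluted `p`-spin Ising model (`p ≥ 2` even, `α > 0`), interaction law `μ` of the factorized form `e^θ = a(1 + b Π f_ℓ(s_ℓ))` with `a > 0`, `f_ℓ` i.i.d., `b` independent of them, `b Π f_ℓ` of absolute value below `1`, `E[(-b)^n] ≥ 0`, interaction and field with finite first moments: the pressure `(1/N) E log Z_N` converges to the infimum of the hierarchical cavity functional over all depths `r`, exponents `0 < m_1 < ⋯ < m_r < 1` and trial laws (measurable functions of uniforms). -/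
theorem result (p : ℕ) (hp : Even p)
    (hp2 : 2 ≤ p) (α : ℝ) (hα : 0 < α) (μ : MeasureTheory.Measure (Crest.ProbabilityR.Diluted.Inter p))
    [MeasureTheory.IsProbabilityMeasure μ] (ν : MeasureTheory.Measure ℝ)
    [MeasureTheory.IsProbabilityMeasure ν]
    (hμ : MeasureTheory.Integrable (fun θ => Crest.ProbabilityR.Diluted.supNorm θ) μ)
    (hν : MeasureTheory.Integrable (fun x : ℝ => x) ν) (hfac : Crest.ProbabilityR.Diluted.HasFactorization p μ) :
    ∃ F : ℝ, Filter.Tendsto (Crest.ProbabilityR.Diluted.pressure p α μ ν) Filter.atTop (nhds F) ∧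
      IsGLB {B : ℝ | ∃ (r : ℕ) (m : Fin r → ℝ) (X : (Fin (r + 1) → unitInterval) → ℝ),
        Crest.ProbabilityR.Diluted.AdmissibleExponents m ∧ Measurable X ∧
        B = Crest.ProbabilityR.Diluted.trialFunctional p α μ ν r m X} F := by
  exact R141.S0192_of R141.keyInt R141.upperMeas (R141.finLower_of R141.decouple) R141.sim
    p hp hp2 α hα μ ν hμ hν hfac

end Crest.Agent.S0192
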