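import Crest.Statements.S0222
import Crest.Agent.R155.Final
import Crest.Agent.R155.Reduce

set_option autoImplicit false
open Crest Crest.ProbabilityR

namespace Crest.Agent.S0222

/-- Shuffle a deck of `n = 2 * 2 ^ d` cards `1600 * (d + 1)` times, that is `1600 * log₂ n` times. The total variation distance between the law of the resulting arrangement of the whole deck and the uniform law on all arrangements tends to `0` as `d → ∞`. -/
theorem result :
    Filter.Tendsto (fun d : ℕ => Crest.ProbabilityR.Shuffle.tvFromUniform (2 ^ d) (1600 * (d + 1)))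
      Filter.atTop (nhds 0) := by
  have h1 : Filter.Tendsto (fun d : ℕ => (1 / 2 : ℝ) * √((2 : ℝ) ^ 4054 / 2 ^ (d + 1)))
      Filter.atTop (nhds 0) := by
    generalize (2 : ℝ) ^ 4054 = c
    have h2 : Filter.Tendsto (fun d : ℕ => c / 2 ^ (d + 1)) Filter.atTop (nhds 0) :=
      Filter.Tendsto.div_atTop tendsto_const_nhds
        ((tendsto_pow_atTop_atTop_of_one_lt one_lt_two).comp (Filter.tendsto_add_atTop_nat 1))
    have h3 := (h2.sqrt).const_mul (1 / 2 : ℝ)
    simpa using h3
  refine squeeze_zero (fun d => ?_) (fun d => ?_) h1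
  · unfold Crest.ProbabilityR.Shuffle.tvFromUniform
    positivity
  · refine (R155.tv_le d 1600).trans ?_
    refine mul_le_mul_of_nonneg_left (Real.sqrt_le_sqrt ?_) (by norm_num)
    have h4 := R155.chessboard (R155.Tmat (d + 1) (Equiv.Perm (R155.Pos (d + 1)))) 1600
    have h5 := R155.trace_bound (d + 1)
    rw [sub_le_iff_le_add']
    exact h4.trans h5

end Crest.Agent.S0222
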