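import Crest.Statements.S0223
import Crest.Agent.R155.Step

set_option autoImplicit false
open Crest Crest.ProbabilityR

namespace Crest.Agent.S0223

/-- For a deck of `2 * 2 ^ d` cards and every number `t` of shuffles, the total variation distance between the law of the arrangement of the deck and the uniform law on all arrangements is at least `1 - 2 ^ (2 ^ d * t) / (2 * 2 ^ d)!`. -/
theorem result (d t : ℕ) :
    1 - (2 : ℝ) ^ (2 ^ d * t) / ((2 * 2 ^ d).factorial : ℝ)
      ≤ Crest.ProbabilityR.Shuffle.tvFromUniform (2 ^ d) t := by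
  classical
  rw [Crest.Agent.R155.tv_eq]
  set m := 2 ^ d with hm
  set N : ℝ := ((2 * m).factorial : ℝ) with hN
  have hN0 : 0 < N := by rw [hN]; exact_mod_cast Nat.factorial_pos _
  set S : Finset (Equiv.Perm (Fin (2 * m))) :=
    Finset.univ.image (Crest.Agent.R155.iterPerm m t) with hS
  have hcard : (S.card : ℝ) ≤ (2 : ℝ) ^ (m * t) := by
    have h1 : S.card ≤ 2 ^ (m * t) := by
      refine Finset.card_image_le.trans ?_
      simp [pow_mul]
    exact_mod_cast h1
  have hoff : ∀ g, g ∉ S → Crest.Agent.R155.law m t g = 0 := by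
    intro g hg
    unfold Crest.Agent.R155.law
    refine Finset.expect_eq_zero fun cs _ => ?_
    rw [if_neg]
    intro h
    exact hg (Finset.mem_image.2 ⟨cs, Finset.mem_univ _, h⟩)
  have hpt : ∀ g, Crest.Agent.R155.law m t g + 1 / N - (if g ∈ S then 2 / N else 0)
      ≤ |Crest.Agent.R155.law m t g - 1 / N| := by
    intro g
    split_ifs with h
    · refine le_trans (le_of_eq ?_) (le_abs_self _)
      ring
    · rw [hoff g h]
      refine le_trans (le_of_eq ?_) (neg_le_abs _)
      ring
  have hsum := Finset.sum_le_sum fun g (_ : g ∈ Finset.univ) => hpt g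
  rw [Finset.sum_sub_distrib, Finset.sum_add_distrib, Crest.Agent.R155.sum_law,
    Finset.sum_ite_mem, Finset.univ_inter, Finset.sum_const, Finset.sum_const, Finset.card_univ,
    Fintype.card_perm, Fintype.card_fin, nsmul_eq_mul, nsmul_eq_mul, ← hN] at hsum
  have h2 : N * (1 / N) = 1 := by field_simp
  have h3 : (S.card : ℝ) * (2 / N) ≤ 2 * ((2 : ℝ) ^ (m * t) / N) := by
    have : (S.card : ℝ) * (2 / N) = 2 * ((S.card : ℝ) / N) := by ring
    rw [this]
    gcongr
  linarith

end Crest.Agent.S0223
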