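import Crest.Statements.S0254
import Crest.Agent.R168.FUSF
import Crest.Agent.R168.EdgeLabels

set_option autoImplicit false
open Crest Crest.ProbabilityR

namespace Crest.Agent.S0254

/-- One rule from (graph on `ℕ`, labels in `[0,1]^ℕ`) to edge sets, jointly measurable in (adjacency table, labels) and commuting on every input with every permutation of `ℕ` acting on graph, labels and pairs, gives i.i.d. uniform labels the free uniform spanning forest's law on every connected locally finite graph: along every exhaustion by finite connected induced pieces, for finite edge sets `F` the chance that the piece's uniform spanning tree contains `F` tends to that for the output. -/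
theorem result :
    ∃ Φ : SimpleGraph ℕ → (ℕ → unitInterval) → (Sym2 ℕ → Bool),
      Measurable (fun p : (ℕ → ℕ → Bool) × (ℕ → unitInterval) =>
          Φ (Crest.ProbabilityR.GraphTables.graphOfTable p.1) p.2) ∧
      (∀ (σ : Equiv.Perm ℕ) (G : SimpleGraph ℕ) (x : ℕ → unitInterval),
          Φ (G.comap ⇑σ) (x ∘ ⇑σ) = Φ G x ∘ Sym2.map ⇑σ) ∧
      ∀ G : SimpleGraph ℕ, G.Connected → (∀ v : ℕ, (G.neighborSet v).Finite) →
        ∀ S : ℕ → Finset ℕ, Monotone S → (∀ v : ℕ, ∃ n, v ∈ S n) →
          (∀ n, (G.induce (S n : Set ℕ)).Connected) →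
          ∀ F : Finset (Sym2 ℕ), (↑F : Set (Sym2 ℕ)) ⊆ G.edgeSet →
            Filter.Tendsto (fun n => Crest.ProbabilityR.SpanningTrees.ustContains G (S n) F) Filter.atTop
              (nhds (((Crest.ProbabilityR.Labels.labelMeasure ℕ).map (Φ G) {ω | ∀ e ∈ F, ω e = true}).toReal)) := by
  classical
  obtain ⟨q, mq, hq⟩ := MeasureTheory.Measure.exists_measurable_map_eq (R168.noise ℕ)
  have mQ : Measurable fun (x : ℕ → unitInterval) (v : ℕ) => q (x v) :=
    measurable_pi_lambda _ fun v => mq.comp (measurable_pi_apply v)
  refine ⟨fun G x => R168.fac (R168.fusf G) (R168.lab G fun v => q (x v)), ?_,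
    fun σ G x => ?_, fun G hG hfin S hS hcov hconn F hF => ?_⟩
  · refine R168.measurable_fac
      (νs := fun p : (ℕ → ℕ → Bool) × (ℕ → unitInterval) =>
        R168.fusf (Crest.ProbabilityR.GraphTables.graphOfTable p.1))
      (fun p => R168.good_fusf _) (fun K T => (R168.measurable_fusf K T).comp measurable_fst)
      fun e => R168.measurable_lab measurable_fst (fun v k => ?_) e
    exact (measurable_pi_apply k).comp (mq.comp ((measurable_pi_apply v).comp measurable_snd))
  · have e := R168.lab_comap σ G fun v => q (x v)
    have e' := R168.fac_map (R168.fusf G) (R168.sym2Equiv σ) (R168.lab G fun v => q (x v))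
    rw [← R168.fusf_comap] at e'
    exact (congrArg (R168.fac (R168.fusf (G.comap σ))) e).trans e'
  · have hg := R168.good_fusf G
    have hc : ∀ n, R168.Conn G (S n) := fun n => R168.conn_iff.mpr (hconn n)
    have ht := (R168.tendsto_fusf hG F F).comp
      (R168.tendsto_exh (Filter.tendsto_atTop_finset_of_monotone hS hcov) hc)
    simp only [R168.ustContains_eq (hc _), R168.ev_empty_eq_cyl]
    have eset : {ω : Sym2 ℕ → Bool | ∀ e ∈ F, ω e = true} = R168.cyl F F := by
      ext ω
      exact forall₂_congr fun j hj => by simp [hj]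
    let ex : (G.edgeSet → ℝ) → (Sym2 ℕ → ℝ) := fun w e => if h : e ∈ G.edgeSet then w ⟨e, h⟩ else 0
    have mex : Measurable ex := measurable_pi_lambda _ fun e => by
      simp only [ex]; split_ifs <;> fun_prop
    let W : Set (G.edgeSet → ℝ) := (R168.fac (R168.fusf G) ∘ ex) ⁻¹' R168.cyl F F
    have mW : MeasurableSet W := (hg.measurable_fac.comp mex) (R168.measurableSet_cyl F F)
    have hloc : ∀ z : Sym2 ℕ → ℝ, R168.fac (R168.fusf G) z ∈ R168.cyl F F ↔
        (fun e : G.edgeSet => z e) ∈ W := by
      intro z
      have := R168.fac_local (D := G.edgeSet) (fun j hj => R168.fusf_nonedge hG hj) (z := z)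
        (z' := ex fun e : G.edgeSet => z e) (fun j hj => by simp [ex, hj])
      exact forall₂_congr fun j hj => by rw [this j (hF hj)]; rfl
    have mL : ∀ e, Measurable fun y : ℕ → ℕ → ℝ => R168.lab G y e := by
      intro e
      have hGt : Crest.ProbabilityR.GraphTables.graphOfTable
          (Crest.ProbabilityR.GraphTables.tableOf G) = G := by
        ext u v
        simp only [Crest.ProbabilityR.GraphTables.graphOfTable,
          Crest.ProbabilityR.GraphTables.tableOf, SimpleGraph.fromRel_adj, decide_eq_true_eq]
        exact ⟨fun h => h.2.elim id fun h => h.symm, fun h => ⟨h.ne, Or.inl h⟩⟩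
      have := R168.measurable_lab (α := ℕ → ℕ → ℝ)
        (p := fun _ => Crest.ProbabilityR.GraphTables.tableOf G) measurable_const
        (y := fun a => a) (fun v k => by fun_prop) e
      rwa [hGt] at this
    have mL' : Measurable fun (y : ℕ → ℕ → ℝ) (e : G.edgeSet) => R168.lab G y e :=
      measurable_pi_lambda _ fun e => mL e
    have mΦ : Measurable fun x : ℕ → unitInterval =>
        R168.fac (R168.fusf G) (R168.lab G fun v => q (x v)) :=
      hg.measurable_fac.comp ((measurable_pi_lambda _ mL).comp mQ)
    have e1 : (Crest.ProbabilityR.Labels.labelMeasure ℕ).map (fun x v => q (x v)) =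
        MeasureTheory.Measure.infinitePi fun _ : ℕ => R168.noise ℕ := by
      rw [Crest.ProbabilityR.Labels.labelMeasure,
        MeasureTheory.Measure.infinitePi_map_pi _ (fun _ => mq)]
      simp only [hq]
    have e2 : (Crest.ProbabilityR.Labels.labelMeasure ℕ).map
        (fun x => R168.fac (R168.fusf G) (R168.lab G fun v => q (x v))) (R168.cyl F F) =
        R168.noise G.edgeSet W := by
      rw [← R168.map_lab hfin, ← e1, MeasureTheory.Measure.map_map mL' mQ,
        MeasureTheory.Measure.map_apply mΦ (R168.measurableSet_cyl F F),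
        MeasureTheory.Measure.map_apply (mL'.comp mQ) mW]
      congr 1
      ext x
      exact hloc _
    have e3 : R168.fusf G (R168.cyl F F) = R168.noise G.edgeSet W := by
      rw [← R168.noise_map_inj (ι := fun e : G.edgeSet => (e : Sym2 ℕ)) Subtype.val_injective,
        MeasureTheory.Measure.map_apply (by fun_prop) mW]
      conv_lhs => rw [← hg.map_fac]
      rw [MeasureTheory.Measure.map_apply hg.measurable_fac (R168.measurableSet_cyl F F)]
      congr 1
      ext z
      exact hloc z
    rw [eset, e2, ← e3]
    exact ht

end Crest.Agent.S0254
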