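import Crest.Statements.S0255
import Crest.Agent.R168.Factor

set_option autoImplicit false
open Crest Crest.ProbabilityR

namespace Crest.Agent.S0255

/-- For a countable group `Γ` and a strongly Rayleigh probability law `ν` on binary configurations `Γ → Bool` that is invariant under every left shift `a ↦ (h ↦ a (g⁻¹ h))`, there is a measurable map from independent uniform labels indexed by `Γ` to configurations that commutes with every left shift and pushes the label law forward to `ν`. -/
theorem result (Γ : Type*) [Group Γ]
    [Countable Γ] (ν : MeasureTheory.Measure (Γ → Bool)) [MeasureTheory.IsProbabilityMeasure ν]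
    (hsr : Crest.ProbabilityR.StronglyRayleigh.IsStronglyRayleigh ν)
    (hinv : Crest.ProbabilityR.StronglyRayleigh.IsShiftInvariant ν) :
    ∃ Φ : (Γ → unitInterval) → (Γ → Bool), Measurable Φ ∧
      (∀ (g : Γ) (u : Γ → unitInterval),
        Φ (Crest.ProbabilityR.StronglyRayleigh.leftShift g u) =
          Crest.ProbabilityR.StronglyRayleigh.leftShift g (Φ u)) ∧
      (Crest.ProbabilityR.Labels.labelMeasure Γ).map Φ = ν := by
  have hg : Crest.Agent.R168.Good ν :=
    Crest.Agent.R168.good_of_stable ν fun F => ⟨F, subset_refl F, hsr F⟩
  obtain ⟨q, mq, hq⟩ :=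
    MeasureTheory.Measure.exists_measurable_map_eq Crest.Agent.R168.lap
  have mQ : Measurable fun (u : Γ → unitInterval) (j : Γ) => q (u j) :=
    measurable_pi_lambda _ fun j => mq.comp (measurable_pi_apply j)
  refine ⟨fun u => Crest.Agent.R168.fac ν (fun j => q (u j)), hg.measurable_fac.comp mQ,
    fun g u => ?_, ?_⟩
  · have e : ν.map (fun σ => σ ∘ (Equiv.mulLeft g⁻¹)) = ν := by
      ext A hA
      rw [MeasureTheory.Measure.map_apply (Crest.Agent.R168.measurable_comp_equiv _) hA]
      exact hinv g A hA
    have := Crest.Agent.R168.fac_map ν (Equiv.mulLeft g⁻¹) (fun j => q (u j))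
    rw [e] at this
    exact this
  · have e : (Crest.ProbabilityR.Labels.labelMeasure Γ).map (fun u j => q (u j)) =
        Crest.Agent.R168.noise Γ := by
      rw [Crest.ProbabilityR.Labels.labelMeasure,
        MeasureTheory.Measure.infinitePi_map_pi _ (fun _ => mq)]
      simp only [hq]
      rfl
    conv_rhs => rw [← hg.map_fac, ← e]
    rw [MeasureTheory.Measure.map_map hg.measurable_fac mQ]
    rfl

end Crest.Agent.S0255
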