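import Crest.Statements.S0265
import Crest.Agent.R176.Hier
import Crest.Agent.R176.G1
import Crest.Agent.R176.G2
import Crest.Agent.R176.Nil
import Crest.Agent.R176.Phase
import Crest.Agent.R176.Fin

set_option autoImplicit false
open Crest Crest.AlgebraR

namespace Crest.Agent.S0265

/-- There is a group that is infinite, finitely presented and residually finite, and in which every element has finite order equal to a power of `2`. -/
theorem result :
    ∃ (G : Type) (_ : Group G),
      Infinite G ∧ Group.IsFinitelyPresented G ∧ Group.ResiduallyFinite G ∧ IsPGroup 2 G := by
  haveI := R176.M.hier.fin 0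
  obtain ⟨P⟩ := R176.M.hier.ph
  obtain ⟨D⟩ := R176.exists_stData _ P
  exact R176.group_final _ R176.M.hier.matNil R176.M.hier.long D (D.inj P)

end Crest.Agent.S0265
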