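import Crest.Statements.S0300
import Crest.Agent.R197.Fin
import Crest.Agent.R197.Ext
import Crest.Agent.R197.Cd
import Crest.Agent.R197.Coc
import Crest.Agent.R197.Cube
import Crest.Agent.R197.Deg
import Crest.Agent.R197.LData
import Crest.Agent.R197.Morse
import Crest.Agent.R197.NF
import Crest.Agent.R197.Sys
import Crest.Agent.R197.Top3
import Crest.Agent.R197.XCW
import Crest.Agent.R197.XLift
import Crest.Agent.R197.XPt
import Crest.Agent.R197.XWind

set_option autoImplicit false
open Crest Crest.AlgebraR

namespace Crest.Agent.S0300

open Crest.Agent.R197 in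
/-- There is a finitely generated, residually finite group `G` of integral cohomological dimension two — its cohomology with coefficients in every `ℤ`-linear representation vanishes in all degrees at least three, and is non-zero in degree two for some representation — and of geometric dimension three: `G` is the fundamental group of an aspherical CW complex of dimension at most three, but of no aspherical CW complex of dimension at most two, however many cells are allowed. -/
theorem result :
    ∃ (G : Type) (_ : Group G),
      Group.FG G ∧ Group.ResiduallyFinite G ∧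
      (∀ (A : Rep ℤ G) (n : ℕ), 3 ≤ n → CategoryTheory.Limits.IsZero (groupCohomology A n)) ∧
      (∃ A : Rep ℤ G, ¬ CategoryTheory.Limits.IsZero (groupCohomology A 2)) ∧
      Crest.Topology.HasClassifyingComplex G 3 ∧ ¬ Crest.Topology.HasClassifyingComplex G 2 := by
  obtain ⟨n, L, hdim, hac, hrep, ⟨t⟩⟩ := ldata
  have hNF : NF L := nf _ L
  have hA : Acyc (phi0 L) (w0 L) := morse _ L (cube _ L hNF) hdim hac
  have hRF : Group.ResiduallyFinite (RA L) := hNF.rf
  have hE : Finite (Edge L) := Subtype.finite
  have hT : Finite (Tri L) := Subtype.finite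
  obtain ⟨h3, h2⟩ := cd _ _ _ _ _ hA
  refine ⟨BB L, inferInstance, Group.fg_of_surjective hA.surj, inferInstance, h3,
    ⟨_, h2 (fun p => if p.2 then 1 else 0) fun y => ?_⟩, top3 _ L hNF hdim ⟨t.1.1⟩, fun h => ?_⟩
  · by_contra hc
    push Not at hc
    have h1 := hc (t, true)
    have h0 := hc (t, false)
    simp [w0, D_mul, D_inv] at h1 h0
    omega
  · obtain ⟨S, R, φ, w, hw⟩ := ext_of xcw xpt xlift xwind _ h
    obtain ⟨T, R', φT, a, v, hs⟩ := sys _ _ _ _ _ _ _ φ w hA hw
    exact fin deg _ _ _ _ _ _ _ φT a v hA.rel hs (coc _ L hNF hdim hrep hA.surj)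

end Crest.Agent.S0300
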