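import Crest.Statements.S0326
import Crest.Agent.R211.RuledMain

set_option autoImplicit false
open MeasureTheory
open scoped ENNReal
open Crest Crest.GeometryTopology Crest.GeometryTopology.Convex

namespace Crest.Agent.S0326

/-- Let D ⊂ ℝ² be compact, V : ℝ² → ℝ² be C¹ on an open set containing D, and L, h > 0, with tr DV(p) = 0 and −1/L² < det DV(p) ≤ 0 for p ∈ D. Let E ⊂ ℝ × ℝ² be the ruled set of points (s, p + s V(p)), p ∈ D, −L ≤ s ≤ L. For every ε > 0, finitely many squares Tᵢ = cᵢ + [0,1]aᵢ + [0,1]bᵢ (aᵢ ⊥ bᵢ of equal nonzero length) and velocities gᵢ ∈ ℝ² exist whose sheared cylinders {(s, ξ) : ξ ∈ Tᵢ + s gᵢ} cover E, with ∑ᵢ area(Tᵢ) J(gᵢ) ≤ ∫_D J(V(p)) dp + ε, where J(g) = (1 + g₁² + h² g₂²)^(−1/2). -/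
theorem result
    (D : Set (EuclideanSpace ℝ (Fin 2))) (hD : IsCompact D)
    (V : EuclideanSpace ℝ (Fin 2) → EuclideanSpace ℝ (Fin 2)) (U : Set (EuclideanSpace ℝ (Fin 2)))
    (hU : IsOpen U) (hDU : D ⊆ U) (hV : ContDiffOn ℝ 1 V U) (L h : ℝ) (hL : 0 < L) (hh : 0 < h)
    (htr : ∀ p ∈ D, LinearMap.trace ℝ _ (fderiv ℝ V p).toLinearMap = 0)
    (hdet : ∀ p ∈ D, -(L ^ 2)⁻¹ < LinearMap.det (fderiv ℝ V p).toLinearMap ∧
      LinearMap.det (fderiv ℝ V p).toLinearMap ≤ 0)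
    (ε : ℝ) (hε : 0 < ε) :
    ∃ (k : ℕ) (c a b g : Fin k → EuclideanSpace ℝ (Fin 2)),
      (∀ i, a i ≠ 0 ∧ ‖b i‖ = ‖a i‖ ∧ inner ℝ (a i) (b i) = 0) ∧
      {z : ℝ × EuclideanSpace ℝ (Fin 2) | ∃ p ∈ D, abs z.1 ≤ L ∧ z.2 = p + z.1 • V p} ⊆
        ⋃ i, {z : ℝ × EuclideanSpace ℝ (Fin 2) | ∃ x ∈ Set.Icc (0 : ℝ) 1, ∃ y ∈ Set.Icc (0 : ℝ) 1,
          z.2 = c i + x • a i + y • b i + z.1 • g i} ∧
      ∑ i, ‖a i‖ ^ 2 / Real.sqrt (1 + (g i 0) ^ 2 + h ^ 2 * (g i 1) ^ 2) ≤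
        (∫ p in D, 1 / Real.sqrt (1 + (V p 0) ^ 2 + h ^ 2 * (V p 1) ^ 2)) + ε := by
  have hloc : ∀ p ∈ D, ∃ A : R211A.E →L[ℝ] R211A.E, HasStrictFDerivAt V A p ∧ R211A.Shape A L := by
    intro p hp
    have h1 : ContDiffAt ℝ 1 V p := hV.contDiffAt (hU.mem_nhds (hDU hp))
    exact ⟨fderiv ℝ V p, h1.hasStrictFDerivAt one_ne_zero,
      R211A.shape_of_trace_det _ L hL (htr p hp) (hdet p hp)⟩
  have hk := R211A.kappa_le (h := h) D hD hL hloc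
  have hI : 0 ≤ ∫ p in D, R211A.J h (V p) := integral_nonneg fun p => (R211A.J_pos h _).le
  obtain ⟨k, q, hq0, hcov, hsum⟩ := R211A.extract h _
    (R211A.isCompact_ruled (L := L) D hD (hV.continuousOn.mono hDU)) _ hI hk ε hε
  have hna : ∀ r : ℝ, 0 < r → ‖(!₂[2 * r, 0] : R211A.E)‖ = 2 * r := by
    intro r hr
    rw [EuclideanSpace.norm_eq, Fin.sum_univ_two]
    simp only [Matrix.cons_val_zero, Matrix.cons_val_one, Real.norm_eq_abs, sq_abs]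
    rw [show (2 * r) ^ 2 + (0 : ℝ) ^ 2 = (2 * r) ^ 2 by ring, Real.sqrt_sq (by positivity)]
  have hnb : ∀ r : ℝ, 0 < r → ‖(!₂[0, 2 * r] : R211A.E)‖ = 2 * r := by
    intro r hr
    rw [EuclideanSpace.norm_eq, Fin.sum_univ_two]
    simp only [Matrix.cons_val_zero, Matrix.cons_val_one, Real.norm_eq_abs, sq_abs]
    rw [show (0 : ℝ) ^ 2 + (2 * r) ^ 2 = (2 * r) ^ 2 by ring, Real.sqrt_sq (by positivity)]
  refine ⟨k, fun i => !₂[(q i).1 0 - (q i).2.1, (q i).1 1 - (q i).2.1],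
    fun i => !₂[2 * (q i).2.1, 0], fun i => !₂[0, 2 * (q i).2.1], fun i => (q i).2.2,
    fun i => ⟨?_, ?_, ?_⟩, ?_, ?_⟩
  · rw [← norm_pos_iff, hna _ (hq0 i)]
    have := hq0 i
    positivity
  · rw [hna _ (hq0 i), hnb _ (hq0 i)]
  · simp [EuclideanSpace.inner_eq_star_dotProduct]
  · intro z hz
    obtain ⟨i, hi⟩ := Set.mem_iUnion.1 (hcov hz)
    have hr := hq0 i
    have h0 := abs_le.1 (hi 0)
    have h1 := abs_le.1 (hi 1)
    simp only [PiLp.sub_apply, PiLp.smul_apply, smul_eq_mul] at h0 h1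
    refine Set.mem_iUnion.2 ⟨i,
      (z.2 0 - z.1 * (q i).2.2 0 - (q i).1 0 + (q i).2.1) / (2 * (q i).2.1), ⟨?_, ?_⟩,
      (z.2 1 - z.1 * (q i).2.2 1 - (q i).1 1 + (q i).2.1) / (2 * (q i).2.1), ⟨?_, ?_⟩, ?_⟩
    · apply div_nonneg <;> linarith
    · rw [div_le_one (by positivity)]; linarith
    · apply div_nonneg <;> linarith
    · rw [div_le_one (by positivity)]; linarith
    · apply R211A.ext2
      · simp only [PiLp.add_apply, PiLp.smul_apply, smul_eq_mul, Matrix.cons_val_zero]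
        field_simp
        ring
      · simp only [PiLp.add_apply, PiLp.smul_apply, smul_eq_mul, Matrix.cons_val_one,
          Matrix.cons_val_zero]
        field_simp
        ring
  · refine le_trans (le_of_eq ?_) hsum
    refine Finset.sum_congr rfl fun i _ => ?_
    rw [hna _ (hq0 i), R211A.cost, R211A.J]
    ring

end Crest.Agent.S0326
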