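import Crest.Statements.S0327
import Crest.Agent.R211.Sim

set_option autoImplicit false
open MeasureTheory
open scoped ENNReal
open Crest Crest.GeometryTopology Crest.GeometryTopology.Convex

namespace Crest.Agent.S0327

/-- Let K ⊂ ℝ³ be a regular tetrahedron (convex hull of four points with equal pairwise distances ℓ > 0); areas are Lebesgue-normalised 2-dimensional Hausdorff measure, π_v y = y − ⟪y, v⟫ v. (1) Finitely many cylinders Bᵢ + ℝ uᵢ, ‖uᵢ‖ = 1, with parallelogram bases Bᵢ = cᵢ + [0,1]aᵢ + [0,1]bᵢ in uᵢ^⊥ cover K, ∑ᵢ area(Bᵢ) being below half of area(π_v K) by a positive margin for all unit v, and ∑ᵢ area(Bᵢ)/area(π_{uᵢ} K) < 1/2. (2) The same with bounded relatively open subsets of the uᵢ^⊥ as bases. -/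
theorem result
    (w : Fin 4 → EuclideanSpace ℝ (Fin 3)) (ℓ : ℝ) (hℓ : 0 < ℓ)
    (hw : ∀ i j, i ≠ j → dist (w i) (w j) = ℓ) :
    (∃ (k : ℕ) (u c a b : Fin k → EuclideanSpace ℝ (Fin 3)),
      (∀ i, ‖u i‖ = 1) ∧
      (∀ i, inner ℝ (c i) (u i) = 0 ∧ inner ℝ (a i) (u i) = 0 ∧ inner ℝ (b i) (u i) = 0) ∧
      convexHull ℝ (Set.range w) ⊆ ⋃ i, {x : EuclideanSpace ℝ (Fin 3) |
        ∃ s ∈ Set.Icc (0 : ℝ) 1, ∃ t ∈ Set.Icc (0 : ℝ) 1, ∃ τ : ℝ, x = c i + s • a i + t • b i + τ • u i} ∧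
      (∃ δ : ℝ, 0 < δ ∧ ∀ v : EuclideanSpace ℝ (Fin 3), ‖v‖ = 1 →
        (∑ i, (μHE[2] {x : EuclideanSpace ℝ (Fin 3) |
            ∃ s ∈ Set.Icc (0 : ℝ) 1, ∃ t ∈ Set.Icc (0 : ℝ) 1, x = c i + s • a i + t • b i}).toReal) + δ ≤
          (μHE[2] ((fun y => y - inner ℝ y v • v) '' convexHull ℝ (Set.range w))).toReal / 2) ∧
      ∑ i, (μHE[2] {x : EuclideanSpace ℝ (Fin 3) |
            ∃ s ∈ Set.Icc (0 : ℝ) 1, ∃ t ∈ Set.Icc (0 : ℝ) 1, x = c i + s • a i + t • b i}).toReal /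
          (μHE[2] ((fun y => y - inner ℝ y (u i) • u i) '' convexHull ℝ (Set.range w))).toReal < 1 / 2) ∧
    (∃ (k : ℕ) (u : Fin k → EuclideanSpace ℝ (Fin 3)) (B : Fin k → Set (EuclideanSpace ℝ (Fin 3))),
      (∀ i, ‖u i‖ = 1) ∧
      (∀ i, Bornology.IsBounded (B i) ∧ ∃ O : Set (EuclideanSpace ℝ (Fin 3)), IsOpen O ∧
        B i = O ∩ {x | inner ℝ x (u i) = 0}) ∧
      convexHull ℝ (Set.range w) ⊆
        ⋃ i, {x : EuclideanSpace ℝ (Fin 3) | ∃ y ∈ B i, ∃ τ : ℝ, x = y + τ • u i} ∧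
      (∃ δ : ℝ, 0 < δ ∧ ∀ v : EuclideanSpace ℝ (Fin 3), ‖v‖ = 1 →
        (∑ i, (μHE[2] (B i)).toReal) + δ ≤
          (μHE[2] ((fun y => y - inner ℝ y v • v) '' convexHull ℝ (Set.range w))).toReal / 2) ∧
      ∑ i, (μHE[2] (B i)).toReal /
          (μHE[2] ((fun y => y - inner ℝ y (u i) • u i) '' convexHull ℝ (Set.range w))).toReal < 1 / 2) := by
  obtain ⟨o, U, hK⟩ := R211.exists_sim w ℓ hℓ hw
  obtain ⟨A, hA, hc⟩ := R211.core_cover
  have hc' := hc.sim o (ℓ / 2) U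
  have hl : 0 < ℓ / 2 := by positivity
  have hs := R211.sqrt2_pos
  set m : ℝ := (ℓ / 2) ^ 2 * Real.sqrt 2 with hm
  have hm0 : 0 < m := by positivity
  have hproj : ∀ v : EuclideanSpace ℝ (Fin 3), ‖v‖ = 1 →
      m ≤ (μHE[2] ((fun y => y - inner ℝ y v • v) '' convexHull ℝ (Set.range w))).toReal := by
    intro v hv
    rw [R211.projN_fun hv, hK]
    exact R211.area_proj_sim o hl U hv
  have hA' : (ℓ / 2) ^ 2 * A ≤ m * (1 / 2 - 8 / 1000000000) := by
    rw [hm, mul_assoc]; gcongr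
  rw [← hK] at hc'
  constructor
  · obtain ⟨k, u, c, a, b, h1, h2, h3, h4⟩ := hc'.parallelogram 1000000000 (by norm_num)
    have h5 : ∑ i, R211.gram (a i) (b i) ≤ m / 2 - m / 1000000000 := by
      rw [h4]
      have : (ℓ / 2) ^ 2 * A * (1 + 1 / ((1000000000 : ℕ) : ℝ)) ≤
          m * (1 / 2 - 8 / 1000000000) * (1 + 1 / ((1000000000 : ℕ) : ℝ)) := by gcongr
      refine this.trans ?_
      push_cast
      nlinarith
    refine ⟨k, u, c, a, b, h1, h2, h3, ⟨m / 1000000000, by positivity, fun v hv => ?_⟩, ?_⟩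
    · simp only [R211.area_parallelogram, ENNReal.toReal_ofReal (R211.gram_nonneg _ _)]
      have := hproj v hv
      linarith
    · simp only [R211.area_parallelogram, ENNReal.toReal_ofReal (R211.gram_nonneg _ _)]
      refine R211.normalized_lt _ _ m hm0 (fun i => R211.gram_nonneg _ _)
        (fun i => hproj _ (h1 i)) ?_
      have : 0 < m / 1000000000 := by positivity
      linarith
  · obtain ⟨M, hM⟩ : ∃ M : ℕ, Fintype.card (Fin R211.NN ⊕ Fin R211.NN) ≤ M := ⟨_, le_rfl⟩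
    obtain ⟨u, B, h1, h2, h3, h4⟩ := (hc'.pad hM).openBase (η := m / 1000000000) (by positivity)
    have h5 : ∑ i, (μHE[2] (B i)).toReal ≤ m / 2 - m / 1000000000 := by linarith
    refine ⟨M, u, B, h1, h2, h3, ⟨m / 1000000000, by positivity, fun v hv => ?_⟩, ?_⟩
    · have := hproj v hv
      linarith
    · refine R211.normalized_lt _ _ m hm0 (fun i => ENNReal.toReal_nonneg)
        (fun i => hproj _ (h1 i)) ?_
      have : 0 < m / 1000000000 := by positivity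
      linarith

end Crest.Agent.S0327
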