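import Crest.Statements.S0328
import Crest.Agent.R211.Sweep

set_option autoImplicit false
open MeasureTheory
open scoped ENNReal
open Crest Crest.GeometryTopology Crest.GeometryTopology.Convex

namespace Crest.Agent.S0328

/-- Unit e; a, b, p₀ ∈ e^⊥, a, b independent; α < β; L > 0; R ≥ 0, λ both continuous on [α, β]; w(t) ∈ e^⊥, w′ = λ(t)(a + tb). S = {p₀ + ρ(a + t b) + s(e + w t) : α ≤ t ≤ β, 0 ≤ ρ ≤ R t, ‖s‖ ≤ L}; A = κ ∫_α^β R²/(2√(1 + ‖w‖²)), κ = area spanned by a, b. For η > 0 a δ > 0 makes each partition t₀ < … < t_N of [α, β] of mesh ≤ δ, tags cᵢ, admit N cylinders (axes e + w(cᵢ), nondegenerate triangle bases) covering S, total area within η of A; same for S's pieces tᵢ ≤ t ≤ tᵢ₊₁ projected along these axes. -/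
theorem result
    (e a b p₀ : EuclideanSpace ℝ (Fin 3)) (he : ‖e‖ = 1)
    (ha : inner ℝ a e = 0) (hb : inner ℝ b e = 0) (hp₀ : inner ℝ p₀ e = 0)
    (hab : LinearIndependent ℝ ![a, b]) (L : ℝ) (hL : 0 < L) (α β : ℝ) (hαβ : α < β)
    (R : ℝ → ℝ) (hR : ContinuousOn R (Set.Icc α β)) (hR0 : ∀ t ∈ Set.Icc α β, 0 ≤ R t)
    (w : ℝ → EuclideanSpace ℝ (Fin 3)) (hw : ∀ t ∈ Set.Icc α β, inner ℝ (w t) e = 0)
    (lam : ℝ → ℝ) (hlam : ContinuousOn lam (Set.Icc α β))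
    (hw' : ∀ t ∈ Set.Icc α β, HasDerivWithinAt w (lam t • (a + t • b)) (Set.Icc α β) t)
    (η : ℝ) (hη : 0 < η) :
    ∃ δ : ℝ, 0 < δ ∧ ∀ (N : ℕ) (t : Fin (N + 1) → ℝ) (c : Fin N → ℝ),
      StrictMono t → t 0 = α → t (Fin.last N) = β →
      (∀ i : Fin N, t i.succ - t i.castSucc ≤ δ) →
      (∀ i : Fin N, t i.castSucc ≤ c i ∧ c i ≤ t i.succ) →
      (∃ (p q r : Fin N → EuclideanSpace ℝ (Fin 3)),
        (∀ i, inner ℝ (p i) (e + w (c i)) = 0 ∧ inner ℝ (q i) (e + w (c i)) = 0 ∧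
          inner ℝ (r i) (e + w (c i)) = 0) ∧
        (∀ i, AffineIndependent ℝ ![p i, q i, r i]) ∧
        {x : EuclideanSpace ℝ (Fin 3) | ∃ τ ∈ Set.Icc α β, ∃ ρ ∈ Set.Icc 0 (R τ), ∃ s : ℝ, abs s ≤ L ∧
            x = p₀ + ρ • (a + τ • b) + s • (e + w τ)} ⊆
          ⋃ i, {x : EuclideanSpace ℝ (Fin 3) | ∃ y ∈ convexHull ℝ {p i, q i, r i}, ∃ σ : ℝ,
            x = y + σ • (e + w (c i))} ∧
        abs ((∑ i, (μHE[2] (convexHull ℝ ({p i, q i, r i} : Set (EuclideanSpace ℝ (Fin 3))))).toReal) -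
            Real.sqrt (‖a‖ ^ 2 * ‖b‖ ^ 2 - inner ℝ a b ^ 2) *
              ∫ τ in α..β, R τ ^ 2 / (2 * Real.sqrt (1 + ‖w τ‖ ^ 2))) ≤ η) ∧
      abs ((∑ i : Fin N, (μHE[2] ((fun y => y - (inner ℝ y (e + w (c i)) / ‖e + w (c i)‖ ^ 2) • (e + w (c i))) ''
            {x : EuclideanSpace ℝ (Fin 3) | ∃ τ ∈ Set.Icc (t i.castSucc) (t i.succ), ∃ ρ ∈ Set.Icc 0 (R τ),
              ∃ s : ℝ, abs s ≤ L ∧ x = p₀ + ρ • (a + τ • b) + s • (e + w τ)})).toReal) -
          Real.sqrt (‖a‖ ^ 2 * ‖b‖ ^ 2 - inner ℝ a b ^ 2) *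
            ∫ τ in α..β, R τ ^ 2 / (2 * Real.sqrt (1 + ‖w τ‖ ^ 2))) ≤ η := by
  have hκ := R211.gram_pos hab
  have hwc : ContinuousOn w (Set.Icc α β) := fun t ht => (hw' t ht).continuousWithinAt
  set f : ℝ → ℝ := fun τ => R τ ^ 2 / (2 * Real.sqrt (1 + ‖w τ‖ ^ 2)) with hf
  have hfc : ContinuousOn f (Set.Icc α β) := by
    apply ContinuousOn.div (hR.pow 2)
    · exact continuousOn_const.mul (continuousOn_const.add (hwc.norm.pow 2)).sqrt
    · intro x _; positivity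
  obtain ⟨M, hM⟩ := isCompact_Icc.exists_bound_of_continuousOn hlam
  obtain ⟨B, hB⟩ := isCompact_Icc.exists_bound_of_continuousOn hR
  have hB' : ∀ t ∈ Set.Icc α β, R t ≤ B := fun t ht => (le_abs_self _).trans (hB t ht)
  have hM0 : 0 ≤ M := (norm_nonneg _).trans (hM α ⟨le_rfl, hαβ.le⟩)
  have hlen : 0 < β - α := by linarith
  set C := R211.gram a b * ((B + 5) ^ 2 + 1) * (β - α) with hC
  have hC0 : 0 < C := by positivity
  set θ := min 1 (η / C) with hθdef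
  have hθ : 0 < θ := lt_min one_pos (by positivity)
  have hθ1 : θ ≤ 1 := min_le_left _ _
  have hθC : R211.gram a b * θ * ((B + 5) ^ 2 + 1) * (β - α) ≤ η := by
    have : θ ≤ η / C := min_le_right _ _
    rw [le_div_iff₀ hC0, hC] at this
    linarith
  obtain ⟨δ1, hδ1, h1⟩ := Metric.uniformContinuousOn_iff_le.1
    (isCompact_Icc.uniformContinuousOn_of_continuous hR) θ hθ
  obtain ⟨δ2, hδ2, h2⟩ := Metric.uniformContinuousOn_iff_le.1
    (isCompact_Icc.uniformContinuousOn_of_continuous hfc) θ hθ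
  refine ⟨min (min δ1 δ2) (θ ^ 2 / (2 * (L * M + 1))), by positivity, ?_⟩
  intro N t c hmono ht0 htN hmesh hc
  set G : ℝ → ℝ := fun x => ∫ τ in α..x, f τ with hG
  have hmem : ∀ j, t j ∈ Set.Icc α β := fun j =>
    ⟨ht0 ▸ hmono.monotone (Fin.zero_le j), htN ▸ hmono.monotone (Fin.le_last j)⟩
  have key := fun i : Fin N => R211.one_piece (p₀ := p₀) he ha hb hab hL hR0 hw hlam hw' hM hB' hθ hθ1
    (t0 := t i.castSucc) (t1 := t i.succ) (c := c i) (hmem _).1 (hmono Fin.castSucc_lt_succ)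
    (hmem _).2 (hc i) (by
      have q1 : t i.succ - t i.castSucc ≤ θ ^ 2 / (2 * (L * M + 1)) :=
        (hmesh i).trans (min_le_right _ _)
      have q0 : 0 ≤ t i.succ - t i.castSucc := by linarith [(hc i).1, (hc i).2]
      rw [le_div_iff₀ (by positivity)] at q1
      nlinarith)
    (fun τ hτ => by
      have q1 : t i.succ - t i.castSucc ≤ δ1 :=
        (hmesh i).trans ((min_le_left _ _).trans (min_le_left _ _))
      rw [← Real.dist_eq]
      refine h1 τ ⟨(hmem _).1.trans hτ.1, hτ.2.trans (hmem _).2⟩ (c i)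
        ⟨(hmem _).1.trans (hc i).1, (hc i).2.trans (hmem _).2⟩ ?_
      rw [Real.dist_eq, abs_le]
      constructor <;> linarith [hτ.1, hτ.2, (hc i).1, (hc i).2])
    (I := G (t i.succ) - G (t i.castSucc)) (by
      have q1 : t i.succ - t i.castSucc ≤ δ2 :=
        (hmesh i).trans ((min_le_left _ _).trans (min_le_right _ _))
      have q0 : t i.castSucc ≤ t i.succ := (hc i).1.trans (hc i).2
      have hint : ∀ x ∈ Set.Icc α β, ∀ y ∈ Set.Icc α β, IntervalIntegrable f volume x y :=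
        fun x hx y hy => (hfc.mono (Set.uIcc_subset_Icc hx hy)).intervalIntegrable
      have hα : α ∈ Set.Icc α β := ⟨le_rfl, hαβ.le⟩
      simp only [hG]
      rw [intervalIntegral.integral_interval_sub_left (hint _ hα _ (hmem _)) (hint _ hα _ (hmem _))]
      have e1 : f (c i) * (t i.succ - t i.castSucc) = ∫ _ in (t i.castSucc)..(t i.succ), f (c i) := by
        simp [mul_comm]
      change |_ - f (c i) * _| ≤ _
      rw [e1, ← intervalIntegral.integral_sub (hint _ (hmem _) _ (hmem _)) (by simp),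
        ← Real.norm_eq_abs, ← abs_of_nonneg (sub_nonneg.2 q0)]
      refine intervalIntegral.norm_integral_le_of_norm_le_const (fun τ hτ => ?_)
      rw [Set.uIoc_of_le q0] at hτ
      rw [← dist_eq_norm]
      refine h2 τ ⟨(hmem _).1.trans hτ.1.le, hτ.2.trans (hmem _).2⟩ (c i)
        ⟨(hmem _).1.trans (hc i).1, (hc i).2.trans (hmem _).2⟩ ?_
      rw [Real.dist_eq, abs_le]
      constructor <;> linarith [hτ.1, hτ.2, (hc i).1, (hc i).2])
  choose p q r k1 k2 k3 k4 k5 using key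
  have hGG : G (t (Fin.last N)) - G (t 0) = ∫ τ in α..β, f τ := by
    simp [hG, ht0, htN]
  refine ⟨⟨p, q, r, k1, k2, ?_, ?_⟩, ?_⟩
  · rintro x ⟨τ, hτ, ρ, hρ, s, hs, rfl⟩
    obtain ⟨i, hi⟩ := R211.exists_piece t (by rw [ht0, htN]; exact hαβ) (τ := τ)
      (by rw [ht0, htN]; exact hτ)
    exact Set.mem_iUnion.2 ⟨i, k3 i τ hi ρ hρ s hs⟩
  · have := R211.sum_close t G _ _ _ k4
    rw [hGG, ht0, htN] at this
    exact this.trans hθC
  · have := R211.sum_close t G _ _ _ k5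
    rw [hGG, ht0, htN] at this
    exact this.trans hθC

end Crest.Agent.S0328
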