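import Crest.Statements.S0329
import Crest.Agent.S0326
import Crest.Agent.R211.Area

set_option autoImplicit false
open MeasureTheory
open scoped ENNReal
open Crest Crest.GeometryTopology Crest.GeometryTopology.Convex

namespace Crest.Agent.S0329

/-- Let h, M > 0, D ⊂ ℝ² be compact with Lebesgue-null boundary, and V : ℝ² → ℝ² be C¹ on an open set containing D with tr DV(p) = 0 and −1/M² < det DV(p) < 0 for p ∈ D. For every ε > 0 the set of points (x, p₁ + x V₁(p), h (p₂ + x V₂(p))) ∈ ℝ³ with p ∈ D, −M ≤ x ≤ M is covered by finitely many cylinders Bᵢ + ℝ uᵢ, ‖uᵢ‖ = 1, with bases Bᵢ bounded relatively open subsets of the planes uᵢ^⊥ and ∑ᵢ area(Bᵢ) ≤ h ∫_D (1 + V₁² + h² V₂²)^(−1/2) + ε (areas: normalised 2-dimensional Hausdorff measure). -/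
theorem result
    (h M : ℝ) (hh : 0 < h) (hM : 0 < M) (D : Set (EuclideanSpace ℝ (Fin 2))) (hD : IsCompact D)
    (hbd : volume (frontier D) = 0)
    (V : EuclideanSpace ℝ (Fin 2) → EuclideanSpace ℝ (Fin 2)) (U : Set (EuclideanSpace ℝ (Fin 2)))
    (hU : IsOpen U) (hDU : D ⊆ U) (hV : ContDiffOn ℝ 1 V U)
    (htr : ∀ p ∈ D, LinearMap.trace ℝ _ (fderiv ℝ V p).toLinearMap = 0)
    (hdet : ∀ p ∈ D, -(M ^ 2)⁻¹ < LinearMap.det (fderiv ℝ V p).toLinearMap ∧
      LinearMap.det (fderiv ℝ V p).toLinearMap < 0)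
    (ε : ℝ) (hε : 0 < ε) :
    ∃ (k : ℕ) (u : Fin k → EuclideanSpace ℝ (Fin 3)) (B : Fin k → Set (EuclideanSpace ℝ (Fin 3))),
      (∀ i, ‖u i‖ = 1) ∧
      (∀ i, Bornology.IsBounded (B i) ∧ ∃ O : Set (EuclideanSpace ℝ (Fin 3)), IsOpen O ∧
        B i = O ∩ {x | inner ℝ x (u i) = 0}) ∧
      {z : EuclideanSpace ℝ (Fin 3) | ∃ p ∈ D, ∃ x : ℝ, abs x ≤ M ∧
          z = !₂[x, p 0 + x * V p 0, h * (p 1 + x * V p 1)]} ⊆
        ⋃ i, {z : EuclideanSpace ℝ (Fin 3) | ∃ y ∈ B i, ∃ τ : ℝ, z = y + τ • u i} ∧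
      ∑ i, (μHE[2] (B i)).toReal ≤
        h * (∫ p in D, 1 / Real.sqrt (1 + (V p 0) ^ 2 + h ^ 2 * (V p 1) ^ 2)) + ε := by
  have hε1 : 0 < ε / (2 * h) := by positivity
  obtain ⟨k, c, a, b, g, h1, h2, h3⟩ := S0326.result D hD V U hU hDU hV M h hM hh htr
    (fun p hp => ⟨(hdet p hp).1, (hdet p hp).2.le⟩) (ε / (2 * h)) hε1
  let T : EuclideanSpace ℝ (Fin 2) → R211.E3 := fun ξ => !₂[0, ξ 0, h * ξ 1]
  let n : Fin k → R211.E3 := fun i => !₂[1, g i 0, h * g i 1]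
  have hn : ∀ i, n i ≠ 0 := by
    intro i hi
    have := congrArg (fun v : R211.E3 => v 0) hi
    simp [n] at this
  have hnn : ∀ i, ‖n i‖ = Real.sqrt (1 + (g i 0) ^ 2 + h ^ 2 * (g i 1) ^ 2) := by
    intro i
    symm
    rw [Real.sqrt_eq_iff_mul_self_eq (by positivity) (norm_nonneg _), ← sq, R211.normsq3]
    simp [n, mul_pow]
  let u : Fin k → R211.E3 := fun i => ‖n i‖⁻¹ • n i
  have hu1 : ∀ i, ‖u i‖ = 1 := by
    intro i
    rw [norm_smul, norm_inv, norm_norm, inv_mul_cancel₀ (norm_ne_zero_iff.2 (hn i))]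
  have hu : ∀ i, u i ≠ 0 := by
    intro i h; have := hu1 i; rw [h] at this; simp at this
  have hperp : ∀ i y, inner ℝ (R211.projN (n i) y) (u i) = 0 := by
    intro i y
    simp only [u, real_inner_smul_right, R211.inner_projN (hn i), mul_zero]
  let P : Fin k → Set R211.E3 := fun i => R211.par (R211.projN (n i) (T (c i)))
    (R211.projN (n i) (T (a i))) (R211.projN (n i) (T (b i))) (Set.Icc 0 1 ×ˢ Set.Icc 0 1)
  have hη' : 0 < ε / (2 * (k + 1)) := by positivity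
  have := fun i => R211.exists_open_base (hu i) (K := P i)
    (fun x hx => R211.inner_eq_zero_of_mem_par (hperp i _) (hperp i _) (hperp i _) hx)
    (R211.isCompact_par _ _ _ (isCompact_Icc.prod isCompact_Icc)).isBounded hη'
  choose B hB1 hB2 hB3 hB4 using this
  have harea : ∀ i, (μHE[2] (P i)).toReal =
      h * (‖a i‖ ^ 2 / Real.sqrt (1 + (g i 0) ^ 2 + h ^ 2 * (g i 1) ^ 2)) := by
    intro i
    simp only [P]
    rw [← R211.parallelogram_eq, R211.area_parallelogram,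
      ENNReal.toReal_ofReal (R211.gram_nonneg _ _), R211.gram_projN (hn i), hnn, ← mul_div_assoc]
    congr 1
    obtain ⟨-, e1, e2⟩ := h1 i
    have n1 : ‖a i‖ ^ 2 = a i 0 ^ 2 + a i 1 ^ 2 := by
      rw [EuclideanSpace.real_norm_sq_eq, Fin.sum_univ_two]
    have n2 : ‖b i‖ ^ 2 = b i 0 ^ 2 + b i 1 ^ 2 := by
      rw [EuclideanSpace.real_norm_sq_eq, Fin.sum_univ_two]
    have n3 : a i 0 * b i 0 + a i 1 * b i 1 = 0 := by
      rw [← e2]; simp [PiLp.inner_apply, Fin.sum_univ_two]; ring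
    have n4 : R211.det3 (T (a i)) (T (b i)) (n i) = h * (a i 0 * b i 1 - a i 1 * b i 0) := by
      simp [R211.det3, T, n]; ring
    rw [n4, abs_mul, abs_of_pos hh]
    congr 1
    rw [← sq_eq_sq₀ (abs_nonneg _) (by positivity), sq_abs]
    rw [e1] at n2
    have : (‖a i‖ ^ 2) ^ 2 = (a i 0 ^ 2 + a i 1 ^ 2) * (b i 0 ^ 2 + b i 1 ^ 2) := by
      rw [← n1, ← n2]; ring
    rw [this]
    linear_combination (-(a i 0 * b i 0 + a i 1 * b i 1)) * n3
  refine ⟨k, u, B, hu1, fun i => ⟨hB1 i, hB2 i⟩, ?_, ?_⟩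
  · rintro z ⟨p, hp, x, hx, rfl⟩
    obtain ⟨i, s, hs, t, ht, hi⟩ := Set.mem_iUnion.1
      (h2 (show ((x, p + x • V p) : ℝ × EuclideanSpace ℝ (Fin 2)) ∈ _ from ⟨p, hp, hx, rfl⟩))
    simp only at hi
    have k0 := congrArg (fun v : EuclideanSpace ℝ (Fin 2) => v 0) hi
    have k1 := congrArg (fun v : EuclideanSpace ℝ (Fin 2) => v 1) hi
    simp only [PiLp.add_apply, PiLp.smul_apply, smul_eq_mul] at k0 k1
    set y : R211.E3 := T (c i) + s • T (a i) + t • T (b i) with hy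
    have hz : (!₂[x, p 0 + x * V p 0, h * (p 1 + x * V p 1)] : R211.E3) = y + x • n i := by
      ext j
      fin_cases j
      · simp [hy, T, n]
      · simp [hy, T, n]; linarith
      · simp [hy, T, n]; rw [k1]; ring
    refine Set.mem_iUnion.2 ⟨i, R211.projN (n i) y, hB3 i ?_,
      (x + inner ℝ y (n i) / ‖n i‖ ^ 2) * ‖n i‖, ?_⟩
    · exact R211.mem_par.2 ⟨s, t, ⟨hs, ht⟩, by
        rw [hy, R211.projN_add, R211.projN_add, R211.projN_smul, R211.projN_smul]⟩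
    · rw [hz, smul_smul, mul_assoc, mul_inv_cancel₀ (norm_ne_zero_iff.2 (hn i)), mul_one, add_smul]
      simp only [R211.projN]
      abel
  · calc _ ≤ ∑ i, (h * (‖a i‖ ^ 2 / Real.sqrt (1 + (g i 0) ^ 2 + h ^ 2 * (g i 1) ^ 2)) +
            ε / (2 * (k + 1))) := by
          apply Finset.sum_le_sum
          intro i _
          rw [← harea]; exact hB4 i
      _ = h * ∑ i, ‖a i‖ ^ 2 / Real.sqrt (1 + (g i 0) ^ 2 + h ^ 2 * (g i 1) ^ 2) +
            k * (ε / (2 * (k + 1))) := by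
          rw [Finset.sum_add_distrib, Finset.mul_sum]; simp
      _ ≤ h * ((∫ p in D, 1 / Real.sqrt (1 + (V p 0) ^ 2 + h ^ 2 * (V p 1) ^ 2)) + ε / (2 * h)) +
            ε / 2 := by
          gcongr
          rw [← mul_div_assoc, div_le_div_iff₀ (by positivity) (by positivity)]
          nlinarith
      _ = _ := by field_simp; ring

end Crest.Agent.S0329
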