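import Crest.Statements.S0334
import Crest.Agent.R215.Phi
import Crest.Agent.R215.Heat
import Crest.Agent.R215.Maxp
import Crest.Agent.R215.Eh1
import Crest.Agent.R215.Ehn
import Crest.Agent.R215.Del
import Crest.Agent.R215.SB
import Crest.Agent.R215.JT
import Crest.Agent.R215.I3
import Crest.Agent.R215.Cell
import Crest.Agent.R215.Crit
import Crest.Agent.R215.Main
import Crest.Agent.R215.Fin

set_option autoImplicit false
open MeasureTheory ProbabilityTheory
universe u v
open Crest Crest.GeometryTopology

namespace Crest.Agent.S0334

/-- In a finite-dimensional real inner product space carrying its standard Gaussian probability measure, for every finite family of measurable cells that are pairwise disjoint and cover the space, the sum over the cells of the squared norm of the cell's Gaussian first moment (the integral of the identity map over the cell) is at most `9 / (8 π)`. Empty cells are allowed. -/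
theorem result
    (E : Type u) [NormedAddCommGroup E] [InnerProductSpace ℝ E] [FiniteDimensional ℝ E]
    [MeasurableSpace E] [BorelSpace E]
    (ι : Type v) [Fintype ι] (A : ι → Set E)
    (hA : ∀ i, MeasurableSet (A i))
    (hdisj : Pairwise fun i j => Disjoint (A i) (A j))
    (hcov : ⋃ i, A i = Set.univ) :
    ∑ i, ‖∫ x in A i, x ∂stdGaussian E‖ ^ 2 ≤ 9 / (8 * Real.pi) := by
  have hP := R215.phiB
  exact R215.main (R215.base hP) R215.crit
    (R215.cellS hP (R215.del hP (R215.ehn hP (R215.eh1 hP R215.heatS R215.maxp))))
    (R215.cell4 (R215.i3 hP)) (R215.jt hP R215.sb) (R215.fin hP) E ι A hA hdisj hcov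

end Crest.Agent.S0334
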