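import Crest.Statements.S0347
import Crest.Agent.R225.UpSub
import Crest.Agent.R225.UpTrig
import Crest.Agent.R225.UpFej
import Crest.Agent.R225.UpLT
import Crest.Agent.R225.UpStage
import Crest.Agent.R225.UpCore
import Crest.Agent.R225.UpSched
import Crest.Agent.R225.UpTree
import Crest.Agent.R225.UpFour
import Crest.Agent.R225.UpProb
import Crest.Agent.R225.UpOrd
import Crest.Agent.R225.UpMass
import Crest.Agent.R225.UpClean
import Crest.Agent.R225.UpNu
import Crest.Agent.R225.UpBase
import Crest.Agent.R225.UpEn1
import Crest.Agent.R225.UpEn2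
import Crest.Agent.R225.UpWalk
import Crest.Agent.R225.UpDisc
import Crest.Agent.R225.UpMq
import Crest.Agent.R225.UpWt
import Crest.Agent.R225.UpRed
import Crest.Agent.R225.UpNf
import Crest.Agent.R225.UpSlab
import Crest.Agent.R225.UpRows
import Crest.Agent.R225.UpWidth
import Crest.Agent.R225.UpCells
import Crest.Agent.R225.UpRow
import Crest.Agent.R225.UpLat
import Crest.Agent.R225.UpN01
import Crest.Agent.R225.UpN2
import Crest.Agent.R225.UpN3
import Crest.Agent.R225.UpN4
import Crest.Agent.R225.UpBig
import Crest.Agent.R225.UpFinal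

set_option autoImplicit false
open MeasureTheory
open Crest Crest.GeometryTopology Crest.GeometryTopology.Covering

namespace Crest.Agent.S0347

/-- There is an absolute constant `C` such that for every `n ≥ 2` and every convex body `K` in `ℝ^n` (compact, convex, nonempty interior) some full-rank lattice `Λ = g ℤ^n`, `g` an invertible real `n × n` matrix, satisfies `K + Λ = ℝ^n` and has covering density `vol(K)` divided by the absolute value of `det g` at most `C n log n`. -/
theorem result :
    ∃ C : ℝ, ∀ (n : ℕ), 2 ≤ n → ∀ (K : Set (Fin n → ℝ)),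
      IsCompact K → Convex ℝ K → (interior K).Nonempty →
        ∃ g : Matrix (Fin n) (Fin n) ℝ, g.det ≠ 0 ∧
          (∀ x : Fin n → ℝ, ∃ z : Fin n → ℤ, x - g.mulVec (fun i => (z i : ℝ)) ∈ K) ∧
          (volume K).toReal / |g.det| ≤ C * n * Real.log n := by
  open Crest.Agent.R225.Up in
  have hCore : CoreStmt := core link (cind (stage sub trig fej lt) (bnd sub)) sched
  have hBase : BaseStmt := base sub four typ (mass lt probS (ord probS)) clean (bad1 probS) (bad2 probS)
    (nu probS)
  have hEn : EnStmt := en en1 en2
  have hWt : WtStmt := wt hEn (walk hEn) disc mq1 mq2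
  have hBig : BigStmt := big hCore tree amp disc mq1 hWt eroS (rows nmd eroS nf slabS)
    (cells eroS nf slabS (width eroS)) (maj eroS nf) (row tree hBase) lat n0 (n1 n0) n2 n3 (n4 n0) n5
  exact final (red nmd) nf hBig

end Crest.Agent.S0347
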