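import Crest.Statements.S0358
import Crest.Agent.R232.Reduce

set_option autoImplicit false
open MeasureTheory
open scoped ENNReal
universe u
open Crest Crest.GeometryTopology

namespace Crest.Agent.S0358

/-- Fix an exponent `1 < p < ∞` with `p ≠ 2` and a distortion `D > 1`, and put `γ = 2 - p` if `p < 2` and `γ = 1 - 2/p` if `p > 2`. There is a constant `C`, depending only on `p` and `D`, such that for every `n ≥ 2`, every `n` distinct points of any real `L^p` space can be mapped to points of the `d`-dimensional real `ℓ^p` space for some `d ≤ exp (C (log n)^γ)`, so that after a common rescaling by some `s > 0` all pairwise distances are preserved up to the factor `D`. -/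
theorem result
    (p : ℝ≥0∞) [Fact (1 ≤ p)] (hp1 : 1 < p) (hptop : p ≠ ⊤) (hp2 : p ≠ 2)
    (D : ℝ) (hD : 1 < D) :
    ∃ C : ℝ, ∀ (n : ℕ), 2 ≤ n →
      ∀ (α : Type u) [MeasurableSpace α] (μ : Measure α) (x : Fin n → Lp ℝ p μ),
        Function.Injective x →
        ∃ d : ℕ, (d : ℝ) ≤ Real.exp (C * Real.log n ^ (if p.toReal < 2 then 2 - p.toReal else 1 - 2 / p.toReal)) ∧
          ∃ (y : Fin n → PiLp p (fun _ : Fin d => ℝ)) (s : ℝ), 0 < s ∧
            ∀ i j, s * ‖x i - x j‖ ≤ ‖y i - y j‖ ∧ ‖y i - y j‖ ≤ D * s * ‖x i - x j‖ := by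
  have hp0 : p ≠ 0 := by
    intro h
    rw [h] at hp1
    simp at hp1
  have hq1 : 1 < p.toReal := by
    have := (ENNReal.toReal_lt_toReal ENNReal.one_ne_top hptop).mpr hp1
    simpa using this
  have hq2 : p.toReal ≠ 2 := by
    intro h
    apply hp2
    rw [← ENNReal.ofReal_toReal hptop, h]
    simp
  have hq : 0 < p.toReal := by linarith
  set η : ℝ := (D - 1) / (2 * D + 3) with hη
  have hη0 : 0 < η := div_pos (by linarith) (by linarith)
  have hηe : η * (2 * D + 3) = D - 1 := div_mul_cancel₀ _ (by linarith)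
  have hη1 : η < 1 / 2 := by nlinarith
  have hD2 : (1 + η) * (1 + η) ≤ D * ((1 - η) * (1 - η)) := by nlinarith
  obtain ⟨C, hC⟩ := R232.fin_embed hq1 hq2 (ε := η / 3) (by linarith) (by linarith)
  refine ⟨C, fun n hn α _ μ x hx => ?_⟩
  obtain ⟨m, hm0, hm⟩ : ∃ m : ℝ, 0 < m ∧ ∀ i j, i ≠ j → m ≤ ‖x i - x j‖ := by
    have hne : (Finset.univ : Finset (Fin n × Fin n)).Nonempty :=
      ⟨(⟨0, by omega⟩, ⟨0, by omega⟩), Finset.mem_univ _⟩
    obtain ⟨e, -, he⟩ := Finset.exists_min_image Finset.univ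
      (fun e : Fin n × Fin n => if e.1 = e.2 then 1 else ‖x e.1 - x e.2‖) hne
    refine ⟨_, ?_, fun i j h => by simpa [h] using he (i, j) (Finset.mem_univ _)⟩
    split_ifs with h
    · norm_num
    · exact norm_pos_iff.mpr (sub_ne_zero.mpr fun h' => h (hx h'))
  obtain ⟨T, _, f, hf⟩ := R232.lp_reduce p hptop μ x (δ := η * m) (by positivity)
  have hA : ∀ i j, i ≠ j →
      (1 - η) * ‖x i - x j‖ ≤ (∑ t, |f t i - f t j| ^ p.toReal) ^ (1 / p.toReal) ∧
      (∑ t, |f t i - f t j| ^ p.toReal) ^ (1 / p.toReal) ≤ (1 + η) * ‖x i - x j‖ := by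
    intro i j h
    obtain ⟨a1, a2⟩ := abs_le.mp (hf i j)
    have a3 := mul_le_mul_of_nonneg_left (hm i j h) hη0.le
    constructor <;> linarith
  have hS0 : ∀ i j, 0 ≤ ∑ t, |f t i - f t j| ^ p.toReal := fun i j =>
    Finset.sum_nonneg fun t _ => by positivity
  have hpos : ∀ i j, i ≠ j → 0 < ∑ t, |f t i - f t j| ^ p.toReal := by
    intro i j h
    rcases (hS0 i j).lt_or_eq with h' | h'
    · exact h'
    · have a1 := (hA i j h).1
      rw [← h', Real.zero_rpow (by positivity)] at a1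
      have a2 := hm i j h
      nlinarith
  obtain ⟨R, hR, y, c, hc, hy⟩ := hC n hn f hpos
  refine ⟨R, hR, fun i => WithLp.toLp p (fun r => y r i),
    ((1 - η) * c) ^ (1 / p.toReal) * (1 - η), ?_, fun i j => ?_⟩
  · have : 0 < 1 - η := by linarith
    positivity
  by_cases h : i = j
  · subst h
    simp
  have hnorm : ‖(WithLp.toLp p (fun r => y r i) : PiLp p (fun _ : Fin R => ℝ)) -
      WithLp.toLp p (fun r => y r j)‖ = (∑ r, |y r i - y r j| ^ p.toReal) ^ (1 / p.toReal) := by
    rw [PiLp.norm_eq_sum hq]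
    simp
  rw [hnorm]
  obtain ⟨b1, b2⟩ := hy i j
  obtain ⟨a1, a2⟩ := hA i j h
  have e3 : 3 * (η / 3) = η := by ring
  rw [e3] at b1 b2
  have h1η : 0 < 1 - η := by linarith
  have hiq : 0 ≤ 1 / p.toReal := by positivity
  have b3 := Real.rpow_le_rpow (by have := hS0 i j; positivity) b1 hiq
  have b4 := Real.rpow_le_rpow (Finset.sum_nonneg fun t _ => by positivity) b2 hiq
  rw [Real.mul_rpow (by positivity) (hS0 i j)] at b3 b4
  have hs : 0 < ((1 - η) * c) ^ (1 / p.toReal) := by positivity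
  constructor
  · have := mul_le_mul_of_nonneg_left a1 hs.le
    linarith
  · have c1 : ((1 + η) * c) ^ (1 / p.toReal) ≤
        (1 + η) / (1 - η) * ((1 - η) * c) ^ (1 / p.toReal) := by
      have c2 : (1 + η) * c = (1 + η) / (1 - η) * ((1 - η) * c) := by field_simp
      rw [c2, Real.mul_rpow (by positivity) (by positivity)]
      refine mul_le_mul_of_nonneg_right ?_ hs.le
      have c3 : 1 ≤ (1 + η) / (1 - η) := by
        rw [le_div_iff₀ h1η]
        linarith
      have c4 : 1 / p.toReal ≤ 1 := by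
        rw [div_le_one hq]
        linarith
      simpa using Real.rpow_le_rpow_of_exponent_le c3 c4
    have c5 : (1 + η) / (1 - η) * (1 + η) ≤ D * (1 - η) := by
      rw [div_mul_eq_mul_div, div_le_iff₀ h1η]
      linarith
    have c6 : 0 ≤ ‖x i - x j‖ := norm_nonneg _
    calc _ ≤ ((1 + η) * c) ^ (1 / p.toReal) *
          (∑ t, |f t i - f t j| ^ p.toReal) ^ (1 / p.toReal) := b4
      _ ≤ ((1 + η) / (1 - η) * ((1 - η) * c) ^ (1 / p.toReal)) * ((1 + η) * ‖x i - x j‖) :=
          mul_le_mul c1 a2 (by have := hS0 i j; positivity) (by positivity)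
      _ = ((1 + η) / (1 - η) * (1 + η)) * (((1 - η) * c) ^ (1 / p.toReal) * ‖x i - x j‖) := by
          ring
      _ ≤ (D * (1 - η)) * (((1 - η) * c) ^ (1 / p.toReal) * ‖x i - x j‖) :=
          mul_le_mul_of_nonneg_right c5 (by positivity)
      _ = _ := by ring

end Crest.Agent.S0358
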