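import Crest.Statements.S0359
import Crest.Agent.R232.Iso

set_option autoImplicit false
open MeasureTheory
open scoped ENNReal
open Crest Crest.GeometryTopology

namespace Crest.Agent.S0359

/-- Fix an exponent 1 < p < ∞ with p ≠ 2 and n ≥ 9. If d is a dimension such that every n distinct points of any real L^p space can be mapped to the d-dimensional real ℓ^p space with all pairwise distances multiplied by one common factor s > 0 (an isometric embedding up to scaling), then ⌊(n − 1)/4⌋² ≤ d. -/
theorem result
    (p : ℝ≥0∞) [Fact (1 ≤ p)] (hp1 : 1 < p) (hptop : p ≠ ⊤) (hp2 : p ≠ 2)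
    (n : ℕ) (hn : 9 ≤ n) (d : ℕ)
    (hd : ∀ (α : Type) [MeasurableSpace α] (μ : Measure α) (x : Fin n → Lp ℝ p μ),
      Function.Injective x →
      ∃ (y : Fin n → PiLp p (fun _ : Fin d => ℝ)) (s : ℝ), 0 < s ∧
        ∀ i j, ‖y i - y j‖ = s * ‖x i - x j‖) :
    ((n - 1) / 4) ^ 2 ≤ d := by
  classical
  have hq1 : 1 < p.toReal := by
    have := (ENNReal.toReal_lt_toReal ENNReal.one_ne_top hptop).mpr hp1
    simpa using this
  have hq2 : p.toReal ≠ 2 := by
    intro h
    apply hp2
    rw [← ENNReal.ofReal_toReal hptop, h]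
    simp
  have hq : 0 < p.toReal := by linarith
  set k := (n - 1) / 4 with hk
  have hk2 : 2 ≤ k := by omega
  have hkn : 4 * k + 1 ≤ n := by omega
  haveI : Nonempty (Fin k) := ⟨⟨0, by omega⟩⟩
  let R : Fin k → Fin k × Fin k → ℝ := fun i a => if a.1 = i then 1 else 0
  let C : Fin k → Fin k × Fin k → ℝ := fun i a => if a.2 = i then 1 else 0
  let S0 : Finset (Fin k × Fin k → ℝ) := insert 0
    ((Finset.univ.image R ∪ Finset.univ.image (fun i => -R i)) ∪
      (Finset.univ.image C ∪ Finset.univ.image (fun i => -C i)))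
  have hcard : S0.card ≤ n := by
    have a1 := Finset.card_insert_le (0 : Fin k × Fin k → ℝ)
      ((Finset.univ.image R ∪ Finset.univ.image (fun i => -R i)) ∪
      (Finset.univ.image C ∪ Finset.univ.image (fun i => -C i)))
    have a2 := Finset.card_union_le (Finset.univ.image R ∪ Finset.univ.image (fun i => -R i))
      (Finset.univ.image C ∪ Finset.univ.image (fun i => -C i))
    have a3 := Finset.card_union_le (Finset.univ.image R) (Finset.univ.image (fun i => -R i))
    have a4 := Finset.card_union_le (Finset.univ.image C) (Finset.univ.image (fun i => -C i))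
    have a5 := Finset.card_image_le (s := Finset.univ) (f := R)
    have a6 := Finset.card_image_le (s := Finset.univ) (f := fun i => -R i)
    have a7 := Finset.card_image_le (s := Finset.univ) (f := C)
    have a8 := Finset.card_image_le (s := Finset.univ) (f := fun i => -C i)
    rw [Finset.card_univ, Fintype.card_fin] at a5 a6 a7 a8
    change S0.card ≤ _ at a1
    omega
  obtain ⟨S, hS0, hS⟩ := Infinite.exists_superset_card_eq S0 n hcard
  let e : Fin n ≃ S := (Finset.equivFinOfCardEq hS).symm
  let x : Fin n → Lp ℝ p (Measure.count : Measure (Fin k × Fin k)) := fun i =>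
    (MemLp.of_discrete : MemLp (e i).1 p Measure.count).toLp (e i).1
  have hxn : ∀ i j, ‖x i - x j‖ =
      (∑ a, |(e i).1 a - (e j).1 a| ^ p.toReal) ^ (1 / p.toReal) := fun i j =>
    R232.norm_toLp_count p hptop _ _
  have hx : Function.Injective x := by
    intro i j h
    have a1 := hxn i j
    rw [h, sub_self, norm_zero] at a1
    have a2 := (Real.rpow_eq_zero (Finset.sum_nonneg fun a _ => by positivity)
      (by positivity)).mp a1.symm
    rw [Finset.sum_eq_zero_iff_of_nonneg fun a _ => by positivity] at a2
    apply e.injective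
    refine Subtype.ext (funext fun a => ?_)
    have a3 := (Real.rpow_eq_zero (abs_nonneg _) hq.ne').mp (a2 a (Finset.mem_univ _))
    exact sub_eq_zero.mp (abs_eq_zero.mp a3)
  obtain ⟨y, s, hs, hy⟩ := hd (Fin k × Fin k) Measure.count x hx
  let Y : (Fin k × Fin k → ℝ) → Fin d → ℝ := fun v r =>
    if h : v ∈ S then y (e.symm ⟨v, h⟩) r else 0
  have hY : ∀ v ∈ (S : Set (Fin k × Fin k → ℝ)), ∀ w ∈ (S : Set (Fin k × Fin k → ℝ)),
      ∑ r, |Y v r - Y w r| ^ p.toReal = s ^ p.toReal * ∑ a, |v a - w a| ^ p.toReal := by
    intro v hv w hw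
    have hv' : v ∈ S := hv
    have hw' : w ∈ S := hw
    have a1 := hy (e.symm ⟨v, hv'⟩) (e.symm ⟨w, hw'⟩)
    rw [hxn, PiLp.norm_eq_sum hq, Equiv.apply_symm_apply, Equiv.apply_symm_apply] at a1
    have a2 := congrArg (fun t : ℝ => t ^ p.toReal) a1
    simp only [PiLp.sub_apply, Real.norm_eq_abs] at a2
    rw [Real.mul_rpow hs.le (by positivity),
      ← Real.rpow_mul (Finset.sum_nonneg fun a _ => by positivity),
      ← Real.rpow_mul (Finset.sum_nonneg fun a _ => by positivity), one_div,
      inv_mul_cancel₀ hq.ne', Real.rpow_one, Real.rpow_one] at a2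
    simp only [Y, dif_pos hv', dif_pos hw']
    exact a2
  have := R232.grid_bound (k := k) hq1 hq2 (show 0 < s ^ p.toReal by positivity) S Y hY
    (hS0 (Finset.mem_insert_self _ _))
    (fun i => hS0 (Finset.mem_insert_of_mem (Finset.mem_union_left _ (Finset.mem_union_left _
      (Finset.mem_image_of_mem R (Finset.mem_univ i))))))
    (fun i => hS0 (Finset.mem_insert_of_mem (Finset.mem_union_left _ (Finset.mem_union_right _
      (Finset.mem_image_of_mem (fun i => -R i) (Finset.mem_univ i))))))
    (fun i => hS0 (Finset.mem_insert_of_mem (Finset.mem_union_right _ (Finset.mem_union_left _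
      (Finset.mem_image_of_mem C (Finset.mem_univ i))))))
    (fun i => hS0 (Finset.mem_insert_of_mem (Finset.mem_union_right _ (Finset.mem_union_right _
      (Finset.mem_image_of_mem (fun i => -C i) (Finset.mem_univ i))))))
  simpa using this

end Crest.Agent.S0359
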