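import Crest.Statements.S0377
import Crest.Agent.R244.GlueMet
import Crest.Agent.R244.ChartFacts
import Crest.Agent.R244.GlueEx
import Crest.Agent.R244.CoverCrit
import Crest.Agent.R244.OdeDep
import Crest.Agent.R244.DepStep
import Crest.Agent.R244.Expand
import Crest.Agent.R244.NeckJac
import Crest.Agent.R244.ThetaEx
import Crest.Agent.R244.PieceRel
import Crest.Agent.R244.GamBasic
import Crest.Agent.R244.RmCov
import Crest.Agent.R244.GamCov
import Crest.Agent.R244.ProfEx
import Crest.Agent.R244.PhiEx
import Crest.Agent.R244.CatOfExp
import Crest.Agent.R244.PFacts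
import Crest.Agent.R244.SolLocal
import Crest.Agent.R244.FlowExists
import Crest.Agent.R244.SmallLoop
import Crest.Agent.R244.CertNeck
import Crest.Agent.R244.GJ
import Crest.Agent.R244.JacUnique
import Crest.Agent.R244.ThetaNe
import Crest.Agent.R244.CurveCov
import Crest.Agent.R244.SolUnique
import Crest.Agent.R244.CertZero
import Crest.Agent.R244.CertHalf
import Crest.Agent.R244.CertMid
import Crest.Agent.R244.CertOut
import Crest.Agent.R244.NeckMet
import Crest.Agent.R244.NeckGeo
import Crest.Agent.R244.FlowDep
import Crest.Agent.R244.OdeEx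
import Crest.Agent.R244.ExpCoverHyp
import Crest.Agent.R244.Compare
import Crest.Agent.R244.NeckRel
import Crest.Agent.R244.Orth
import Crest.Agent.R244.StableLen
import Crest.Agent.R244.LenOfCat
import Crest.Agent.R244.CoverFacts
import Crest.Agent.R244.PolTr
import Crest.Agent.R244.Good
import Crest.Agent.R244.Haus
import Crest.Agent.R244.CptConn
import Crest.Agent.R244.Iface
import Crest.Agent.R244.GlueTr
import Crest.Agent.R244.GlueMfd
import Crest.Agent.R244.TrSymm
import Crest.Agent.R244.LinGeo
import Crest.Agent.R244.Transl
import Crest.Agent.R244.RhoDeriv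
import Crest.Agent.R244.CertPiece
import Crest.Agent.R244.PureRho
import Crest.Agent.R244.SolOne
import Crest.Agent.R244.SolSpeed
import Crest.Agent.R244.SqrtConvex
import Crest.Agent.R244.Mono
import Crest.Agent.R244.Congr
import Crest.Agent.R244.Main

set_option autoImplicit false
open Bundle Crest.GeometryTopology.Geodesic
open scoped ContDiff Manifold
open Crest Crest.GeometryTopology Crest.GeometryTopology.Geodesic

namespace Crest.Agent.S0377

/-- There is a compact connected orientable smooth 3-manifold `M` (Hausdorff, second countable, charted on `ℝ³`, hence without boundary) that carries a smooth Riemannian metric with no conjugate points — along every geodesic, a Jacobi field vanishing at two distinct parameters vanishes identically, geodesics and Jacobi fields being the solutions of the usual coordinate equations in charts — while no smooth Riemannian metric on `M` has all its sectional curvatures at most zero. -/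
theorem result :
    ∃ (M : Type) (_ : TopologicalSpace M) (_ : ChartedSpace (EuclideanSpace ℝ (Fin 3)) M)
      (_ : IsManifold 𝓘(ℝ, EuclideanSpace ℝ (Fin 3)) ∞ M),
      T2Space M ∧ SecondCountableTopology M ∧ CompactSpace M ∧ ConnectedSpace M ∧
      IsOrientable 3 M ∧
      (∃ g : ContMDiffRiemannianMetric 𝓘(ℝ, EuclideanSpace ℝ (Fin 3)) ∞ (EuclideanSpace ℝ (Fin 3))
          (fun x : M => TangentSpace 𝓘(ℝ, EuclideanSpace ℝ (Fin 3)) x), NoConjugatePoints g) ∧
      ∀ g : ContMDiffRiemannianMetric 𝓘(ℝ, EuclideanSpace ℝ (Fin 3)) ∞ (EuclideanSpace ℝ (Fin 3))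
          (fun x : M => TangentSpace 𝓘(ℝ, EuclideanSpace ℝ (Fin 3)) x), ¬ HasNonposSectionalCurvature g := by
  have B := R244.gamBasic
  have C := R244.chartFacts
  have GC := R244.gamCov B
  have RD := R244.rhoDeriv B
  have LG := R244.linGeo B
  have TR := R244.transl B
  have NM := R244.neckMet B
  have NG := R244.neckGeo NM
  have S1 := R244.solOne B GC C
  have SU := R244.solUnique B C
  have PF := R244.pFacts
  have GD := R244.good PF NM (R244.polTr PF NM) R244.trSymm
  have GT := R244.glueTr
  have CF := R244.coverFacts
  exact R244.final (R244.gJ TR (R244.curveCov B GC (R244.rmCov B GC) RD) C) (R244.jacUnique B LG C)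
    R244.mono
    (R244.certNeck C R244.congr NM NG (R244.neckJac B LG NM NG) R244.pureRho R244.certOut
      R244.certMid R244.certZero R244.certHalf)
    (R244.certPiece B C) (R244.flowExists SU (R244.solLocal B C S1) (R244.solSpeed B C))
    (R244.flowDep B C (R244.depStep B C S1 SU R244.odeEx R244.odeDep))
    (R244.expand B TR LG RD C R244.sqrtConvex) R244.coverCrit (R244.expCoverHyp B C)
    (R244.compare B C) (R244.smallLoop B C) (R244.catOfExp CF) R244.lenOfCat R244.stableLen
    R244.orth R244.phiEx R244.profEx GD R244.glueEx (R244.glueMfd GT) (R244.glueMet B GT)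
    (R244.haus PF GD GT) (R244.cptConn PF) (R244.iface PF GD GT)
    (R244.neckRel PF CF (R244.pieceRel CF) (R244.thetaEx PF GD GT) R244.thetaNe)

end Crest.Agent.S0377
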