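import Crest.Statements.S0382
import Crest.Agent.R248.Path
import Crest.Agent.R248.BB
import Crest.Agent.R248.Step
import Crest.Agent.R248.Cof
import Crest.Agent.R248.Free
import Crest.Agent.R248.Grp
import Crest.Agent.R248.Ins
import Crest.Agent.R248.Rep

set_option autoImplicit false
open CategoryTheory CategoryTheory.Limits Crest.GeometryTopology.Coherator
universe u
open Crest Crest.GeometryTopology

namespace Crest.Agent.S0382

/-- For every Grothendieck coherator C (a globular theory with a tower of free filler extensions in which every admissible pair, in the height-at-most-n+1 convention, has a filler), every choice e of unit operations, every cellular C-model X, every n and every map a from the n-disk to X: if a, the source-face map of disks, i : X ⟶ Y and b form a pushout square of models, then i is bijective on path components and on homotopy classes of loops at the iterated e-units of each 0-cell of X. -/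
theorem result
    (C : GlobTheory.{u}) (hC : C.IsCoheratorTheory) (e : C.UnitChoice)
    (X : C.GlobModel) (hX : X.IsCellularModel) (n : ℕ)
    (a : GlobTheory.GlobModel.diskModel C n ⟶ X)
    (Y : C.GlobModel) (i : X ⟶ Y) (b : GlobTheory.GlobModel.diskModel C (n + 1) ⟶ Y)
    (sq : IsPushout a (GlobTheory.GlobModel.sourceIncl C n) i b) :
    GlobTheory.GlobModel.IsWeakEquiv e i := by
  open Crest.Agent.R248 in
  have ht := tower hC.1
  have hf := fill_of hC
  have hr := rep hf e (skel (sub ht))
  have h : Tasks e :=
    { rep := hr
      cof := cof
      step := step e free cof
      path := fun Sy hk => (model ht Sy hk).elim fun A => path e Sy hk A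
      a_of := fun hP => a_of gen hP
      b_of := fun hP => b_of hr ins free cof (m_of gen (grp hf) hP) }
  exact h.final X hX n a Y i b sq

end Crest.Agent.S0382
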