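import Crest.Statements.S0397
import Crest.Agent.R259.Main

set_option autoImplicit false
open Crest Crest.AlgGeometry

namespace Crest.Agent.S0397

/-- For every `r ≥ 10` there is a countable family of nonzero polynomial conditions on `r`-tuples of points of the complex affine plane, avoided by at least one tuple, such that at every tuple avoiding all of them the following holds: if a nonzero polynomial in two variables of total degree at most `d`, with `d ≥ 1`, vanishes to order at least `m i` at the `i`-th point for every `i`, then `∑ m i < d * √r`. -/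
theorem result (r : ℕ) (hr : 10 ≤ r) :
    ∃ S : Set (MvPolynomial (Fin r × Fin 2) ℂ),
      S.Countable ∧ (∀ g ∈ S, g ≠ 0) ∧
      (∃ p : Fin r → Fin 2 → ℂ, ∀ g ∈ S, MvPolynomial.eval (fun ij : Fin r × Fin 2 => p ij.1 ij.2) g ≠ 0) ∧
      ∀ p : Fin r → Fin 2 → ℂ, (∀ g ∈ S, MvPolynomial.eval (fun ij : Fin r × Fin 2 => p ij.1 ij.2) g ≠ 0) →
        ∀ (d : ℕ) (f : MvPolynomial (Fin 2) ℂ) (m : Fin r → ℕ),
          1 ≤ d → f ≠ 0 → f.totalDegree ≤ d →
          (∀ i, Crest.AlgGeometry.VanishesToOrder f (p i) (m i)) →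
          (∑ i, (m i : ℝ)) < (d : ℝ) * Real.sqrt (r : ℝ) := by
  have key : ∀ x : ℕ × (Fin r → ℕ), ∃ g : MvPolynomial (Fin r × Fin 2) ℂ, g ≠ 0 ∧
      ∀ p : Fin r → Fin 2 → ℂ, MvPolynomial.eval (fun ij : Fin r × Fin 2 => p ij.1 ij.2) g ≠ 0 →
        1 ≤ x.1 → (x.1 : ℝ) * Real.sqrt (r : ℝ) ≤ ∑ i, (x.2 i : ℝ) → R259.No x.1 x.2 p := by
    rintro ⟨d, m⟩
    by_cases h : 1 ≤ d ∧ (d : ℝ) * Real.sqrt (r : ℝ) ≤ ∑ i, (m i : ℝ)
    · obtain ⟨hd, h⟩ := h
      have hd' : (1 : ℝ) ≤ d := by exact_mod_cast hd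
      have hr' : (10 : ℝ) ≤ r := by exact_mod_cast hr
      have h1 : (r : ℝ) * (d : ℝ) ^ 2 ≤ (∑ i, (m i : ℝ)) ^ 2 := by
        have := pow_le_pow_left₀ (by positivity) h 2
        rwa [mul_pow, Real.sq_sqrt (by positivity), mul_comm] at this
      have h2 : 3 * (d : ℝ) < ∑ i, (m i : ℝ) := by
        have : 3 < Real.sqrt (r : ℝ) := Real.lt_sqrt_of_sq_lt (by linarith)
        nlinarith
      obtain ⟨q, hq⟩ := R259.special m hd rfl (by exact_mod_cast h1) (by exact_mod_cast h2)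
      obtain ⟨g, hg, hp⟩ := R259.gen (L := HahnSeries ℤ R259.KK) d m
        ((HahnSeries.C : R259.KK →+* HahnSeries ℤ R259.KK).comp HahnSeries.C) hq
      exact ⟨g, hg, fun p h _ _ => hp p h⟩
    · exact ⟨1, one_ne_zero, fun p _ h1 h2 => absurd ⟨h1, h2⟩ h⟩
  choose g hg0 hg using key
  have h0 : ∀ x ∈ Set.range g, x ≠ 0 := by rintro _ ⟨x, rfl⟩; exact hg0 x
  refine ⟨Set.range g, Set.countable_range g, h0, ?_, fun p hp d f m hd hf hfd hv => ?_⟩
  · obtain ⟨x, hx⟩ := R259.exists_avoid (Set.countable_range g) h0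
    exact ⟨fun i j => x (i, j), hx⟩
  · by_contra hc
    exact hf (hg (d, m) p (hp _ ⟨_, rfl⟩) hd (not_lt.1 hc) f hfd hv)

end Crest.Agent.S0397
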