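import Crest.Statements.S0432
import Crest.Agent.R287.MAIN
import Crest.Agent.R287.NEED
import Crest.Agent.R287.EXT
import Crest.Agent.R287.TOK
import Crest.Agent.R287.CYC
import Crest.Agent.R287.DST
import Crest.Agent.R287.VERT
import Crest.Agent.R287.MV
import Crest.Agent.R287.FIN
import Crest.Agent.R287.BRG
import Crest.Agent.R287.ACOV
import Crest.Agent.R287.CORE
import Crest.Agent.R287.PTA

set_option autoImplicit false
open Crest.Enc
open Crest Crest.LogicCS

namespace Crest.Agent.S0432

/-- Strings are finite lists of natural-number symbols; a family of strings is coded by the number of its members followed by the self-delimiting codes of the members. There is a polynomial-time map on bit strings sending the code of every finite family to the code of a string that contains each member as a contiguous substring and is at most twice as long as any string with that property. -/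
theorem result :
    ∃ f : List Bool → List Bool, Crest.Complexity.PolyTime f ∧
      ∀ S : List (List ℕ), ∃ T : List ℕ,
        f (natCode S.length ++ (S.map listCode).flatten) = listCode T ∧
        (∀ s ∈ S, s <:+: T) ∧
        ∀ T' : List ℕ, (∀ s ∈ S, s <:+: T') → T.length ≤ 2 * T'.length := by
  open Crest.Agent.R287 in
  exact s0432_of algo PTA_proof (main (TOK_proof NEED_proof EXT_proof) CYC_proof DST_proof
    (VERT_proof DST_proof) (MV_proof DST_proof (VERT_proof DST_proof)) FIN_proof
    (BRG_proof (VERT_proof DST_proof) (CORE_proof DST_proof ACOV_proof)))

end Crest.Agent.S0432
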