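import Crest.Statements.S0435
import Crest.Agent.R290.Fin
import Crest.Agent.R290.UTM

set_option autoImplicit false
open Crest Crest.LogicCS

namespace Crest.Agent.S0435

/-- For some absolute constant c > 0 and threshold k₀ and every k ≥ k₀, in the joint and the separate convention alike: if a multi-stack machine, on every code of a pair of simple connected graphs of diameter at most two with equally many vertices, outputs whether the two are k-dimensional Weisfeiler-Leman equivalent, within a step bound depending on the input length (nothing is asked on other inputs), then for all large n that bound is at least n^(c·k) at the input length of such n-vertex pairs. -/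
theorem result :
    ∃ c : ℝ, 0 < c ∧ ∃ k₀ : ℕ, ∀ k ≥ k₀,
      (∀ (g : Crest.WLRefine.diamTwoPairCodes → Bool),
        (∀ x, x.1 ∈ Crest.WLRefine.jointEquivLang k ↔ g x = true) →
        ∀ M : Turing.TM2ComputableInTime (fun x : Crest.WLRefine.diamTwoPairCodes => x.1)
            Computability.encodeBool g,
          ∃ n₀ : ℕ, ∀ n ≥ n₀,
            (n : ℝ) ^ (c * k) ≤ M.time (2 * ((Crest.Enc.natCode n).length + n * n))) ∧
      (∀ (g : Crest.WLRefine.diamTwoPairCodes → Bool),
        (∀ x, x.1 ∈ Crest.WLRefine.sepEquivLang k ↔ g x = true) →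
        ∀ M : Turing.TM2ComputableInTime (fun x : Crest.WLRefine.diamTwoPairCodes => x.1)
            Computability.encodeBool g,
          ∃ n₀ : ℕ, ∀ n ≥ n₀,
            (n : ℝ) ^ (c * k) ≤ M.time (2 * ((Crest.Enc.natCode n).length + n * n))) := by
  obtain ⟨γ, _, U, hU, hcode⟩ := R290.utm
  obtain ⟨C, k₀, hC, hd⟩ := R290.diag (fun p : γ × PT.Raw × ℕ × ℕ => U (p.1, p.2.1, p.2.2.2))
    (hU.comp (by fun_prop))
  have hC' : (0 : ℝ) < C := by exact_mod_cast hC
  refine ⟨1 / (2 * (C : ℝ)), by positivity, max k₀ (3 * C), fun k hk => ?_⟩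
  have key : ∀ (L : Set (List Bool))
      (_ : ∀ (n : ℕ) (G H : Fin n → Fin n → Bool), 0 < n → WLRefine.IsSimple G →
        WLRefine.IsSimple H →
        (R290.Game (k + 1) G H → WLRefine.adjMatrixCode G ++ WLRefine.adjMatrixCode H ∈ L) ∧
        (WLRefine.adjMatrixCode G ++ WLRefine.adjMatrixCode H ∈ L → R290.Game k G H))
      (g : Crest.WLRefine.diamTwoPairCodes → Bool) (_ : ∀ x, x.1 ∈ L ↔ g x = true)
      (M : Turing.TM2ComputableInTime (fun x : Crest.WLRefine.diamTwoPairCodes => x.1)
            Computability.encodeBool g), ∃ n₀ : ℕ, ∀ n ≥ n₀,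
        (n : ℝ) ^ (1 / (2 * (C : ℝ)) * k) ≤
          M.time (2 * ((Crest.Enc.natCode n).length + n * n)) := by
    intro L hL g hg M
    obtain ⟨code, D, hD⟩ := hcode _ _ g M
    obtain ⟨n₀, hn₀⟩ := hd k (le_trans (le_max_left _ _) hk) code
    refine ⟨max n₀ (D + 1), fun n hn => ?_⟩
    obtain ⟨G, H, hG, hH, h1, h2⟩ := hn₀ n (le_trans (le_max_left _ _) hn)
    have hn' : D + 1 ≤ n := le_trans (le_max_right _ _) hn
    by_contra ht
    have h3 := R290.time_small hC (le_trans (le_max_right _ _) hk) (D := D) (by omega) (by omega) ht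
    have h4 := hD ⟨_, n, G, H, hG, hH, rfl⟩ (n ^ (k / C)) (by
      simp only [List.length_append, R290.length_adjMatrixCode]
      rw [← two_mul]; exact h3)
    have h5 := hL n G H (by omega) hG.1 hH.1
    refine R290.diag_contra h1 h2 h5.1 h5.2 ?_
    exact (hg ⟨_, n, G, H, hG, hH, rfl⟩).trans (by rw [← h4])
  exact ⟨key _ fun n G H hn hG hH => ⟨fun h => (R290.mem_joint hG hH).mpr h.jequiv,
      fun h => R290.game_of_jequiv hn ((R290.mem_joint hG hH).mp h)⟩,
    key _ fun n G H hn hG hH => ⟨fun h => (R290.mem_sep hG hH).mpr (h.mono (Nat.le_succ k)).sequiv,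
      fun h => R290.game_of_sequiv hn ((R290.mem_sep hG hH).mp h)⟩⟩

end Crest.Agent.S0435
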