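import Crest.Statements.S0439
import Crest.Agent.R290.Fin
import Crest.Agent.R290.URAM

set_option autoImplicit false
open Crest Crest.LogicCS

namespace Crest.Agent.S0439

theorem run_stable (P : Crest.WordRAM.Program) (w : ℕ) (ρ : ℕ → ℕ) (x : List ℕ) {T T' : ℕ}
    (h : (Crest.WordRAM.run P w ρ x T).halted = true) (hT : T ≤ T') :
    Crest.WordRAM.run P w ρ x T' = Crest.WordRAM.run P w ρ x T := by
  obtain ⟨d, rfl⟩ : ∃ d, T' = d + T := ⟨T' - T, by omega⟩
  unfold Crest.WordRAM.run at h ⊢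
  rw [Function.iterate_add_apply]
  refine Function.iterate_fixed ?_ d
  generalize (Crest.WordRAM.step P w ρ)^[T] (Crest.WordRAM.init P w x) = c at h
  unfold Crest.WordRAM.step
  rw [if_pos h]

theorem clog_eq (n : ℕ) : Nat.clog 2 (n + 2) = (n + 1).size := by
  apply le_antisymm
  · rw [Nat.clog_le_iff_le_pow (by norm_num)]
    exact Nat.lt_size_self (n + 1)
  · rw [Nat.size_le]
    exact Nat.le_pow_clog (by norm_num) (n + 2)

/-- For some absolute c > 0 and k₀, every k ≥ k₀ and every word-length constant c₀, in the joint and the separate convention alike: if a word-RAM program with words of c₀·⌈log₂(n+2)⌉ bits, started on the codes of two simple connected graphs of diameter at most two on n vertices written one bit per memory word, is halted after T(n) steps on every such pair and every random stream with output [1] exactly when the two graphs are k-dimensionally equivalent, then T(n) ≥ n^(c·k) for all large n. -/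
theorem result :
    ∃ c : ℝ, 0 < c ∧ ∃ k₀ : ℕ, ∀ k ≥ k₀, ∀ c₀ : ℕ,
      (∀ (P : Crest.WordRAM.Program) (T : ℕ → ℕ),
        (∀ (n : ℕ) (G H : Fin n → Fin n → Bool), Crest.WLRefine.SimpleConnDiamTwo G →
          Crest.WLRefine.SimpleConnDiamTwo H → ∀ ρ : ℕ → ℕ,
            (Crest.WordRAM.run P (c₀ * Nat.clog 2 (n + 2)) ρ (((Crest.WLRefine.adjMatrixCode G ++ Crest.WLRefine.adjMatrixCode H).map fun b => if b then 1 else 0)) (T n)).halted = true ∧
            ((Crest.WordRAM.run P (c₀ * Nat.clog 2 (n + 2)) ρ (((Crest.WLRefine.adjMatrixCode G ++ Crest.WLRefine.adjMatrixCode H).map fun b => if b then 1 else 0)) (T n)).output = [1] ↔ Crest.WLRefine.JEquiv k G H)) →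
        ∃ n₀ : ℕ, ∀ n ≥ n₀, (n : ℝ) ^ (c * k) ≤ T n) ∧
      (∀ (P : Crest.WordRAM.Program) (T : ℕ → ℕ),
        (∀ (n : ℕ) (G H : Fin n → Fin n → Bool), Crest.WLRefine.SimpleConnDiamTwo G →
          Crest.WLRefine.SimpleConnDiamTwo H → ∀ ρ : ℕ → ℕ,
            (Crest.WordRAM.run P (c₀ * Nat.clog 2 (n + 2)) ρ (((Crest.WLRefine.adjMatrixCode G ++ Crest.WLRefine.adjMatrixCode H).map fun b => if b then 1 else 0)) (T n)).halted = true ∧
            ((Crest.WordRAM.run P (c₀ * Nat.clog 2 (n + 2)) ρ (((Crest.WLRefine.adjMatrixCode G ++ Crest.WLRefine.adjMatrixCode H).map fun b => if b then 1 else 0)) (T n)).output = [1] ↔ Crest.WLRefine.SEquiv k G H)) →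
        ∃ n₀ : ℕ, ∀ n ≥ n₀, (n : ℝ) ^ (c * k) ≤ T n) := by
  obtain ⟨γ, _, U, hU, hcode⟩ := R290.uram
  obtain ⟨C, k₀, hC, hd⟩ := R290.diag
    (fun p : (γ × ℕ) × PT.Raw × ℕ × ℕ => U (p.1.1, p.2.1, p.1.2 * (p.2.2.1 + 1).size, p.2.2.2))
    (hU.comp (PT.PT.pair (by fun_prop) (PT.PT.pair (by fun_prop) (PT.PT.pair
      (PT.PT.mul (by fun_prop) (QC.BT.size (QC.BT.ofPT (by fun_prop)))) (by fun_prop)))))
  have hC' : (0 : ℝ) < C := by exact_mod_cast hC
  refine ⟨1 / (2 * (C : ℝ)), by positivity, max k₀ (3 * C), fun k hk c₀ => ?_⟩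
  have key : ∀ (E : (n : ℕ) → (G H : Fin n → Fin n → Bool) → Prop)
      (_ : ∀ (n : ℕ) (G H : Fin n → Fin n → Bool), 0 < n →
        (R290.Game (k + 1) G H → E n G H) ∧ (E n G H → R290.Game k G H))
      (P : Crest.WordRAM.Program) (T : ℕ → ℕ),
        (∀ (n : ℕ) (G H : Fin n → Fin n → Bool), Crest.WLRefine.SimpleConnDiamTwo G →
          Crest.WLRefine.SimpleConnDiamTwo H → ∀ ρ : ℕ → ℕ,
            (Crest.WordRAM.run P (c₀ * Nat.clog 2 (n + 2)) ρ (((Crest.WLRefine.adjMatrixCode G ++ Crest.WLRefine.adjMatrixCode H).map fun b => if b then 1 else 0)) (T n)).halted = true ∧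
            ((Crest.WordRAM.run P (c₀ * Nat.clog 2 (n + 2)) ρ (((Crest.WLRefine.adjMatrixCode G ++ Crest.WLRefine.adjMatrixCode H).map fun b => if b then 1 else 0)) (T n)).output = [1] ↔ E n G H)) →
        ∃ n₀ : ℕ, ∀ n ≥ n₀, (n : ℝ) ^ (1 / (2 * (C : ℝ)) * k) ≤ T n := by
    intro E hE P T hP
    obtain ⟨code, hD⟩ := hcode P
    obtain ⟨n₀, hn₀⟩ := hd k (le_trans (le_max_left _ _) hk) (code, c₀)
    refine ⟨max n₀ 1, fun n hn => ?_⟩
    obtain ⟨G, H, hG, hH, h1, h2⟩ := hn₀ n (le_trans (le_max_left _ _) hn)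
    have hn' : 1 ≤ n := le_trans (le_max_right _ _) hn
    by_contra ht
    have h3 := R290.time_small hC (le_trans (le_max_right _ _) hk) (D := 1) hn' hn' ht
    obtain ⟨h4, h5⟩ := hP n G H hG hH (fun _ => 0)
    have h6 := hE n G H hn'
    refine R290.diag_contra h1 h2 h6.1 h6.2 ?_
    dsimp only
    rw [← h5, hD, ← clog_eq, run_stable _ _ _ _ h4 (T' := n ^ (k / C)) (by omega)]
  exact ⟨key (fun _ G H => WLRefine.JEquiv k G H) fun n G H hn =>
      ⟨fun h => h.jequiv, fun h => R290.game_of_jequiv hn h⟩,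
    key (fun _ G H => WLRefine.SEquiv k G H) fun n G H hn =>
      ⟨fun h => (h.mono (Nat.le_succ k)).sequiv, fun h => R290.game_of_sequiv hn h⟩⟩

end Crest.Agent.S0439
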