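import Crest.Statements.S0454
import Crest.Agent.R300.Core
import Crest.Agent.R300.Asym
import Crest.Agent.R300.Final

set_option autoImplicit false
open Crest.FinProb Crest.TraceRecon
open Crest Crest.LogicCS

namespace Crest.Agent.S0454

/-- Fix a success level s in (0, 1] and 0 < c < 1/(4 log 2). There are N₀ and R such that for every length n ≥ N₀ and deletion probability q in (0, 1) with q³·log n ≥ R, no reconstruction rule (randomized, computationally unrestricted) that sees fewer than n^(c·log(q³ log n)) independent deletion traces returns every binary word of length n with probability at least s: for each such rule some word is returned with probability below s. Logarithms are natural. -/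
theorem result (s : ℝ) (hs : 0 < s) (hs1 : s ≤ 1)
    (c : ℝ) (hc : 0 < c) (hc' : c < 1 / (4 * Real.log 2)) :
    ∃ (N₀ : ℕ) (R : ℝ), ∀ n ≥ N₀, ∀ q : ℝ, 0 < q → q < 1 → R ≤ q ^ 3 * Real.log n →
      ∀ m : ℕ, (m : ℝ) < (n : ℝ) ^ (c * Real.log (q ^ 3 * Real.log n)) →
        ∀ K : (Fin m → List Bool) → (Fin n → Bool) → ℝ, IsRule K →
          ∃ x : Fin n → Bool, successProb (1 - q) K x < s := by
  obtain ⟨j, hj⟩ := exists_pow_lt_of_lt_one (show (0 : ℝ) < s / 2 by positivity)
    (show (1 / 2 : ℝ) < 1 by norm_num)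
  have hj' : (1 / 2 : ℝ) ^ (j + 1) < s / 2 := by
    rw [pow_succ]
    have : (0 : ℝ) < (1 / 2) ^ j := by positivity
    linarith
  have hj0 : (0 : ℝ) < ((j + 1 : ℕ) : ℝ) := by positivity
  obtain ⟨N₀, R, H⟩ := R300.asym c hc hc' (j + 1) (by omega) (s ^ 2 / 100 / ((j + 1 : ℕ) : ℝ))
    (by positivity)
  refine ⟨N₀, R, fun n hn q hq0 hq1 hR m hm K hK => ?_⟩
  obtain ⟨h, E, L, k, p, hlen, hτ⟩ := H n hn q hq0 hq1 hR
  have hτ0 : (0 : ℝ) ≤ 1 / (R300.tt h L : ℝ) ^ R300.bb E L := by positivity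
  set τ : ℝ := 1 / (R300.tt h L : ℝ) ^ R300.bb E L
  have h1 : ((j + 1 : ℕ) : ℝ) * m * τ ≤ s ^ 2 / 100 := by
    have h2 : (m : ℝ) * τ ≤ s ^ 2 / 100 / ((j + 1 : ℕ) : ℝ) :=
      (mul_le_mul_of_nonneg_right hm.le hτ0).trans hτ
    rw [le_div_iff₀ hj0] at h2
    linarith
  have hs2 : s ^ 2 ≤ s := by nlinarith
  refine R300.fail_of_hard hq0.le hq1.le hlen (R300.core p) (by linarith) ?_ K hK
  have h3 : √(2 * (((j + 1 : ℕ) : ℝ) * m * τ)) ≤ s / 4 := by
    rw [Real.sqrt_le_iff]
    exact ⟨by positivity, by nlinarith⟩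
  linarith

end Crest.Agent.S0454
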