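import Crest.Statements.S0455
import Crest.Agent.R300.Core
import Crest.Agent.R300.Asym
import Crest.Agent.R300.Final

set_option autoImplicit false
open Crest.FinProb Crest.TraceRecon
open Crest Crest.LogicCS

namespace Crest.Agent.S0455

/-- Fix a deletion probability q in (0, 1) (each bit is deleted independently with probability q, retained with probability 1 − q). For every exponent A > 0 and every ε > 0 there is N₀ such that for every length n ≥ N₀ some two distinct binary words of length n have single-trace laws at total variation distance less than ε · n^(−A). Equivalently, n^A times the least total variation distance between the one-trace laws of two distinct words of length n tends to 0 for every A. -/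
theorem result (q : ℝ) (hq : 0 < q) (hq1 : q < 1) (A : ℝ)
    (hA : 0 < A) (ε : ℝ) (hε : 0 < ε) :
    ∃ N₀ : ℕ, ∀ n ≥ N₀, ∃ x y : Fin n → Bool, x ≠ y ∧
      (n : ℝ) ^ A * traceTV (1 - q) x y < ε := by
  have hl2 : 0 < Real.log 2 := Real.log_pos (by norm_num)
  have hc' : (1 / 8 : ℝ) < 1 / (4 * Real.log 2) := by
    have := Real.log_two_lt_d9
    exact one_div_lt_one_div_of_lt (by positivity) (by linarith)
  set δ : ℝ := min ε 1 / 4 with hδ
  have hδ0 : 0 < δ := by have := lt_min hε one_pos; positivity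
  have hδε : δ ≤ ε / 4 := by have := min_le_left ε 1; linarith
  have hδ1 : δ ≤ 1 / 4 := by have := min_le_right ε 1; linarith
  obtain ⟨N₀, R, H⟩ := R300.asym (1 / 8) (by norm_num) hc' 1 le_rfl (δ ^ 2) (by positivity)
  have hq3 : 0 < q ^ 3 := by positivity
  obtain ⟨N₁, hN₁⟩ : ∃ N₁ : ℕ, ∀ n ≥ N₁, max R (Real.exp (16 * A)) ≤ q ^ 3 * Real.log n := by
    have h1 : Filter.Tendsto (fun n : ℕ => q ^ 3 * Real.log n) Filter.atTop Filter.atTop :=
      (Real.tendsto_log_atTop.comp tendsto_natCast_atTop_atTop).const_mul_atTop hq3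
    exact Filter.eventually_atTop.1 (h1.eventually_ge_atTop _)
  refine ⟨max (max N₀ N₁) 1, fun n hn => ?_⟩
  have hn0 : N₀ ≤ n := (le_max_left _ _).trans ((le_max_left _ _).trans hn)
  have hn1 : N₁ ≤ n := (le_max_right _ _).trans ((le_max_left _ _).trans hn)
  have hn2 : (1 : ℝ) ≤ n := by exact_mod_cast (le_max_right _ _).trans hn
  have hY := hN₁ n hn1
  obtain ⟨h, E, L, k, p, hlen, hτ⟩ := H n hn0 q hq hq1 ((le_max_left _ _).trans hY)
  obtain ⟨x, y, hxy, hTV⟩ := R300.tv_of_hard hq.le hq1.le (n := n) (by simpa using hlen)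
    (R300.core p)
  refine ⟨x, y, hxy, ?_⟩
  have hτ0 : (0 : ℝ) ≤ 1 / (R300.tt h L : ℝ) ^ R300.bb E L := by positivity
  set τ : ℝ := 1 / (R300.tt h L : ℝ) ^ R300.bb E L
  have hlog : 16 * A ≤ Real.log (q ^ 3 * Real.log n) := by
    rw [Real.le_log_iff_exp_le ((Real.exp_pos _).trans_le ((le_max_right _ _).trans hY))]
    exact (le_max_right _ _).trans hY
  have hA1 : (1 : ℝ) ≤ (n : ℝ) ^ A := Real.one_le_rpow hn2 hA.le
  have h1 : ((n : ℝ) ^ A) ^ 2 * τ ≤ δ ^ 2 := by
    refine le_trans (mul_le_mul_of_nonneg_right ?_ hτ0) hτ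
    rw [← Real.rpow_natCast, ← Real.rpow_mul (by positivity)]
    exact Real.rpow_le_rpow_of_exponent_le hn2 (by push_cast; linarith)
  have h2 : (n : ℝ) ^ A * √τ ≤ δ := by
    refine abs_le_of_sq_le_sq' ?_ hδ0.le |>.2
    rw [mul_pow, Real.sq_sqrt hτ0]; exact h1
  have h3 : (n : ℝ) ^ A * τ ≤ δ := by
    have : (n : ℝ) ^ A * τ ≤ ((n : ℝ) ^ A) ^ 2 * τ :=
      mul_le_mul_of_nonneg_right (by nlinarith) hτ0
    nlinarith
  calc (n : ℝ) ^ A * traceTV (1 - q) x y ≤ (n : ℝ) ^ A * (τ + √τ / 2) :=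
        mul_le_mul_of_nonneg_left hTV (by positivity)
    _ = (n : ℝ) ^ A * τ + (n : ℝ) ^ A * √τ / 2 := by ring
    _ < ε := by linarith

end Crest.Agent.S0455
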