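import Crest.Statements.S0466
import Crest.Agent.R304P.Dim

set_option autoImplicit false
open Crest.Matchings
open Crest Crest.LogicCS

namespace Crest.Agent.S0466

/-- In a loopless multigraph on 2m ≥ 2 vertices (parallel edges distinguished), let x be a point of the perfect-matching polytope, the convex hull of the zero-one vectors of perfect matchings in the edge space. Then the number of edges e with x_e > 0, minus the dimension of the minimal face of the polytope containing x (the dimension of the span of the directions h with x + t·h in the polytope for all real t small in absolute value), is at most 3m − 2. -/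
theorem result (m : ℕ) (hm : 1 ≤ m) (k : ℕ)
    (ends : Fin k → Fin (2 * m) × Fin (2 * m)) (hends : ∀ e, (ends e).1 ≠ (ends e).2)
    (x : Fin k → ℝ) (hx : x ∈ pmPolytope ends) :
    ((Finset.univ.filter fun e => 0 < x e).card : ℤ) - (pmFaceDim ends x : ℤ) ≤ 3 * (m : ℤ) - 2 := by
  obtain ⟨L, hL, h1⟩ := Crest.Agent.R304P.exists_dir_subspace hm hends hx
  have h2 : Module.finrank ℝ L ≤ pmFaceDim ends x :=
    Submodule.finrank_mono (fun h hh => Submodule.subset_span (hL hh))
  omega

end Crest.Agent.S0466
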