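import Crest.Statements.S0467
import Crest.Agent.R304K.Alg
import Crest.Agent.R304K.Final
import Crest.Agent.R304K.Edm
import Crest.Agent.R304E.Main
import Crest.Agent.R304P.Rank

set_option autoImplicit false
open Crest.Enc Crest.Matchings
open Crest Crest.LogicCS

namespace Crest.Agent.S0467

/-- One polynomial-time map on bit strings, on the compact code of a loopless multigraph on n vertices given by a symmetric table of pair multiplicities with zero diagonal (the code lists n in binary and, for each vertex pair of positive multiplicity, the pair and its multiplicity in binary), returns the binary code of a natural number A with N ≤ 512^n · A and A ≤ N, N being the number of perfect matchings of the multigraph with parallel edges distinguished; so A = 0 exactly when N = 0. -/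
theorem result :
    ∃ f : List Bool → List Bool, Crest.Complexity.PolyTime f ∧
      ∀ (n : ℕ) (w : Fin n → Fin n → ℕ), (∀ i j, w i j = w j i) → (∀ i, w i i = 0) →
        ∃ A : ℕ, f (pairMultCode n w) = natCode A ∧
          multNumPerfectMatchings w ≤ 512 ^ n * A ∧ A ≤ multNumPerfectMatchings w := 
  Crest.Agent.R304K.alg Crest.Agent.R304K.step Crest.Agent.R304K.iter
    (Crest.Agent.R304K.final Crest.Agent.R304K.edm
      (Crest.Agent.R304E.s0465_of Crest.Agent.R304P.rank))

end Crest.Agent.S0467
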