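import Crest.Statements.S0486
import Crest.Agent.KS.Final
import Crest.Agent.KS.Bay
import Crest.Agent.R314E.Fin
import Crest.Agent.R314E.Jac
import Crest.Agent.R314E.Bas
import Crest.Agent.R314E.Li1
import Crest.Agent.R314E.Liz
import Crest.Agent.R314E.Abl
import Crest.Agent.R314E.Avg
import Crest.Agent.R314E.Nl2
import Crest.Agent.R314E.Cr
import Crest.Agent.R314E.Geo
import Crest.Agent.R314E.Mv
import Crest.Agent.R314E.Stp
import Crest.Agent.R314E.Smi
import Crest.Agent.R314E.Smq
import Crest.Agent.R314E.Rho
import Crest.Agent.R314E.Mh
import Crest.Agent.R314E.Sel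
import Crest.Agent.R314E.Tim

set_option autoImplicit false
open Crest.LogicCS.KServer
open Crest Crest.LogicCS

namespace Crest.Agent.S0486

open Crest.Agent.R314E in
theorem E_proof : Crest.Agent.KS.EStmt :=
  have hBas := BAS_proof JAC_proof
  have hLi1 := LI1_proof JAC_proof hBas
  have hLiz := LIZ_proof hBas hLi1
  FIN_proof hBas
    (STP_proof hBas (NL2_proof hBas hLi1 (ABL_proof JAC_proof hBas) (AVG_proof hBas))
      (CR_proof hBas hLiz) (MV_proof hBas hLiz (GEO_proof hBas)))
    SMI_proof SMQ_proof (SEL_proof hBas RHO_proof MH_proof) (TIM_proof Crest.Agent.KS.BAY_proof)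

/-- There is an absolute constant C such that for every k ≥ 2, every metric space X with at least k + 1 points and every initial placement s of k labelled servers in X, some randomized online policy A and some real B ≥ 0 — with B = 0 when the initial positions are distinct — satisfy, for every finite request list σ and every way of serving σ by moving one server to each request in turn: the expected cost of A on σ is at most C·(log (k+1))²·(the cost of that way of serving σ) + B. -/
theorem result : ∃ C : ℝ, ∀ (k : ℕ), 2 ≤ k → ∀ (X : Type*) [MetricSpace X], Nonempty (Fin (k + 1) ↪ X) → ∀ s : Fin k → X, ∃ (A : Policy X k) (B : ℝ), 0 ≤ B ∧ (Function.Injective s → B = 0) ∧ ∀ (σ : List X) (j : Fin σ.length → Fin k), expCost A s σ ≤ C * Real.log (k + 1) ^ 2 * pathCost s (σ.zip (List.ofFn j)) + B :=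
  Crest.Agent.KS.S0486_of_E E_proof

end Crest.Agent.S0486
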