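import Crest.Statements.S0492
import Crest.Agent.R318.Gap

set_option autoImplicit false
open Crest.BinPacking
open Crest Crest.LogicCS

namespace Crest.Agent.S0492

/-- For every natural number c there is a bin-packing instance, given by distinct rational sizes in (1/6, 1] with positive multiplicities, and a natural number B such that the type configuration linear program has optimal value exactly B (some feasible solution costs B, none costs less), the configuration program on sets of item copies also has optimal value exactly B, and the item copies cannot be packed into B + c unit bins. -/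
theorem result (c : ℕ) :
    ∃ (m : ℕ) (σ : Fin m → ℚ) (mult : Fin m → ℕ) (B : ℕ),
      Function.Injective σ ∧ (∀ j, 0 < mult j) ∧ (∀ j, 1 / 6 < σ j ∧ σ j ≤ 1) ∧
      (∃ z, TypeLPFeasible σ mult z ∧ typeLPCost z = B) ∧
      (∀ z, TypeLPFeasible σ mult z → (B : ℝ) ≤ typeLPCost z) ∧
      (∃ y : Finset ((j : Fin m) × Fin (mult j)) → ℝ,
        CopyLPFeasible (fun i => σ i.1) y ∧ copyLPCost y = B) ∧
      (∀ y : Finset ((j : Fin m) × Fin (mult j)) → ℝ,
        CopyLPFeasible (fun i => σ i.1) y → (B : ℝ) ≤ copyLPCost y) ∧
      ¬ PacksInto (fun i : (j : Fin m) × Fin (mult j) => σ i.1) (B + c) := by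
  exact Crest.Agent.R318.gap c

end Crest.Agent.S0492
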