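import Crest.Statements.S0503
import Crest.Agent.IM.Main

set_option autoImplicit false
open Crest.LogicCS.IntMul Crest.DTime
open Crest Crest.LogicCS

namespace Crest.Agent.S0503

/-- There are a natural number c and one machine with finitely many stacks which, started on any two bit strings of a common length n (presented as one tagged string of length N = 2n), halts with the 2n-bit binary representation of the product of the two numbers they denote (leftmost bit most significant) after at most c·⌈N·(log₂ N)^(1 − 2^(−182))⌉ + c steps. So one machine multiplies n-bit integers exactly in time of order n·(log n)^(1 − κ), κ = 2^(−182). -/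
theorem result : ∃ c : ℕ, TimeBoundComputable EqLenPair.enc (Computability.encodingList Bool).encode mulOutput (fun N => c * ⌈(N : ℝ) * (Real.logb 2 N) ^ (1 - 1 / (2 : ℝ) ^ 182)⌉₊ + c) := by
  obtain ⟨p, Cm, Cb, h0, h1⟩ := IM.mul_ex
  have hB : ∀ n : ℕ, Cb + 2 * n.size ≤ (n.size + (Cb + 2)) ^ 4 := fun n => by
    calc Cb + 2 * n.size ≤ (n.size + (Cb + 2)) ^ 2 := by nlinarith
      _ ≤ _ := Nat.pow_le_pow_right (by omega) (by norm_num)
  obtain ⟨C, hC⟩ := IM.compile p (Cb + 2) (by omega)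
    (fun n => Cm * (n.size : ℝ) ^ IM.κ' * n + Cb) (fun n => by
      rcases Nat.eq_zero_or_pos n with rfl | hn
      · refine (h0 _ _ Nat.one_le_two_pow ?_).mono (by simp [IM.Pn])
        exact Nat.lt_two_pow_self.le.trans
          (Nat.pow_le_pow_right (by norm_num) (le_trans (by omega) (hB 0)))
      · refine (h1 _ _ n 1 hn le_rfl Nat.one_le_two_pow (by simp [IM.Pn]) ?_ ?_).mono ?_
        · calc Cb * n ^ 2 * 1 ≤ 2 ^ Cb * (2 ^ n.size) ^ 2 * 1 := by
                gcongr
                exacts [Nat.lt_two_pow_self.le, (Nat.lt_size_self n).le]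
            _ = 2 ^ (Cb + 2 * n.size) := by ring
            _ ≤ _ := Nat.pow_le_pow_right (by norm_num) (hB n)
        · refine Nat.pow_le_pow_right (by norm_num) ?_
          calc n.size ^ 3 ≤ (n.size + (Cb + 2)) ^ 3 := by gcongr; omega
            _ ≤ _ := Nat.pow_le_pow_right (by omega) (by norm_num)
        · simp)
  refine ⟨C * (Cm + Cb + 1), hC _ fun n => ?_⟩
  have key : (Cm : ℝ) * (n.size : ℝ) ^ IM.κ' * n + n ≤ (Cm + 1) *
      (⌈((2 * n : ℕ) : ℝ) * (Real.logb 2 (2 * n : ℕ)) ^ (1 - 1 / (2 : ℝ) ^ 182)⌉₊ : ℝ) := by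
    rcases Nat.eq_zero_or_pos n with rfl | hn
    · simp
    have h2 : (n.size : ℝ) ≤ Real.logb 2 (2 * n : ℕ) := by
      rw [Real.le_logb_iff_rpow_le (by norm_num) (by positivity), Real.rpow_natCast]
      have h3 : 0 < n.size := Nat.size_pos.2 hn
      have h4 : 2 ^ (n.size - 1) ≤ n := Nat.lt_size.1 (by omega)
      have h5 : 2 ^ n.size = 2 * 2 ^ (n.size - 1) := by
        rw [← pow_succ']; congr 1; omega
      exact_mod_cast (by omega : 2 ^ n.size ≤ 2 * n)
    have h3 : (n.size : ℝ) ^ IM.κ' ≤ (Real.logb 2 (2 * n : ℕ)) ^ (1 - 1 / (2 : ℝ) ^ 182) :=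
      Real.rpow_le_rpow (by positivity) h2 IM.κ'_pos.le
    have h4 := IM.one_le_size_rpow hn
    have h5 := Nat.le_ceil
      (((2 * n : ℕ) : ℝ) * (Real.logb 2 (2 * n : ℕ)) ^ (1 - 1 / (2 : ℝ) ^ 182))
    generalize (⌈((2 * n : ℕ) : ℝ) * (Real.logb 2 (2 * n : ℕ)) ^ (1 - 1 / (2 : ℝ) ^ 182)⌉₊ : ℝ) = u
      at *
    generalize (Real.logb 2 (2 * n : ℕ)) ^ (1 - 1 / (2 : ℝ) ^ 182) = v at *
    generalize (n.size : ℝ) ^ IM.κ' = l at *
    push_cast at h5
    have h6 : (0 : ℝ) ≤ n := by positivity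
    have h7 : l * n ≤ u := by nlinarith
    have h8 : (n : ℝ) ≤ u := by nlinarith
    have h9 : (Cm : ℝ) * (l * n) ≤ Cm * u := by gcongr
    linarith
  push_cast at key ⊢
  generalize (⌈(2 * (n : ℝ)) * (Real.logb 2 (2 * n)) ^ (1 - 1 / (2 : ℝ) ^ 182)⌉₊ : ℝ) = u at *
  have hu : 0 ≤ (Cm + 1 : ℝ) * u := le_trans (by positivity) key
  have hu' : 0 ≤ u := nonneg_of_mul_nonneg_right hu (by positivity)
  calc (C : ℝ) * (Cm * (n.size : ℝ) ^ IM.κ' * n + Cb + n + 1)
      ≤ C * ((Cm + Cb + 1) * u + (Cm + Cb + 1)) := by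
        refine mul_le_mul_of_nonneg_left ?_ (by positivity)
        have : (0 : ℝ) ≤ Cb * u := by positivity
        have : (0 : ℝ) ≤ Cm := by positivity
        linarith
    _ = _ := by ring

end Crest.Agent.S0503
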