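import Crest.Statements.S0554
import Crest.Agent.R350.Final

set_option autoImplicit false
open Crest.MathPhysics.Query
open Crest Crest.MathPhysics

namespace Crest.Agent.S0554

/-- For every `k ≥ 2` there are constants `c, C, b > 0` such that for every large enough power of four `m` some total Boolean function on finitely many bits has a quantum query algorithm with at most `C √m (log m)^b` queries and error at most `1/3` on every input, while every randomized algorithm with error at most `1/3` on every input reads at least `c m^{2 - 1/k} / (log m)^2` bits on some input. So no power below four bounds randomized by quantum query complexity. -/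
theorem result (k : ℕ) (hk : 2 ≤ k) :
    ∃ (c C b : ℝ), 0 < c ∧ 0 < C ∧ 0 < b ∧ ∃ m₀ : ℕ, ∀ m : ℕ, m₀ ≤ m → (∃ j : ℕ, m = 4 ^ j) →
      ∃ (n : ℕ) (F : (Fin n → Bool) → Bool),
        (∃ q : ℕ, (q : ℝ) ≤ C * Real.sqrt m * Real.log m ^ b ∧ QuantumComputes F q) ∧
        (∀ r : ℕ, RandomizedComputes F r →
          c * (m : ℝ) ^ (2 - 1 / (k : ℝ)) / Real.log m ^ 2 ≤ r) := by
  obtain ⟨j0, hj0⟩ := Crest.Agent.R350.lower' k hk
  obtain ⟨C, b, hC⟩ := Crest.Agent.R350.poly_pZ k
  refine ⟨1 / 6, C * 2 ^ (b + 1) + 1, (b + 1 : ℕ), by norm_num, by positivity, by positivity,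
    4 ^ (j0 + 3), ?_⟩
  rintro m hm ⟨j, rfl⟩
  have hj : j0 + 3 ≤ j := (Nat.pow_le_pow_iff_right (by norm_num)).1 hm
  obtain ⟨n, hn⟩ : ∃ n, n = 2 * j := ⟨_, rfl⟩
  have hm2 : ((4 ^ j : ℕ) : ℝ) = 2 ^ n := by
    rw [hn, pow_mul]; norm_num
  have hlog : Real.log ((4 ^ j : ℕ) : ℝ) = n * Real.log 2 := by
    rw [hm2, Real.log_pow]
  have hn6 : (6 : ℝ) ≤ n := by exact_mod_cast (by omega : 6 ≤ n)
  have hl2 := Real.log_two_gt_d9
  have hl3 : (n : ℝ) ≤ 2 * (n * Real.log 2) := by nlinarith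
  have hl4 : (1 : ℝ) ≤ n * Real.log 2 := by nlinarith
  have hsq : Real.sqrt (2 ^ n) = 2 ^ j := by
    rw [hn, mul_comm, pow_mul, Real.sqrt_sq (by positivity)]
  let e := Fintype.equivFin (Crest.Agent.R350.Ix (2 * k) n (Crest.Agent.R350.pR k n)
    (Crest.Agent.R350.pB k n))
  obtain ⟨q, hq, hq'⟩ := Crest.Agent.R350.upper' k j n hn hk (by omega) e
  refine ⟨_, _, ⟨q, ?_, hq'⟩, fun r hr => ?_⟩
  · rw [hlog, hm2, hsq, Real.rpow_natCast]
    have h1 : (q : ℝ) ≤ C * n ^ b * 2 ^ j := by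
      have := hq.trans (Nat.mul_le_mul_right _ (hC n (by omega)))
      exact_mod_cast this
    have h2 : (n : ℝ) ^ b ≤ (2 * (n * Real.log 2)) ^ (b + 1) :=
      (pow_le_pow_right₀ (by linarith) (by omega)).trans
        (pow_le_pow_left₀ (by positivity) hl3 _)
    calc (q : ℝ) ≤ C * (2 * (n * Real.log 2)) ^ (b + 1) * 2 ^ j := h1.trans (by gcongr)
      _ = C * 2 ^ (b + 1) * 2 ^ j * (n * Real.log 2) ^ (b + 1) := by rw [mul_pow]; ring
      _ ≤ _ := by gcongr; linarith
  · have h1 := hj0 j n (by omega) hn _ e r hr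
    rw [hlog, hm2, div_le_iff₀ (by positivity)]
    have h2 : (1 : ℝ) ≤ (n * Real.log 2) ^ 2 := one_le_pow₀ hl4
    have h3 : (0 : ℝ) ≤ r := Nat.cast_nonneg r
    nlinarith

end Crest.Agent.S0554
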